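import Vale.Agent.P146.H332.Mat

/-!
The algebra of the main derivative inequality.
-/

open Matrix

namespace Vale.Agent.P146.H325

open Vale.Agent.P146.H332

set_option linter.unusedSectionVars false

variable {q : Type} [Fintype q] [DecidableEq q]

/-- squared norm of a vector -/
def vn (v : q → ℝ) : ℝ := ∑ i, v i ^ 2

lemma vn_nonneg (v : q → ℝ) : 0 ≤ vn v := Finset.sum_nonneg fun _ _ => sq_nonneg _

lemma fr_nonneg (A : Matrix q q ℝ) : 0 ≤ fr A :=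
  Finset.sum_nonneg fun _ _ => Finset.sum_nonneg fun _ _ => sq_nonneg _

/-- the trace form of a row functional -/
lemma tr_form {H K : Matrix q q ℝ} (hH : Hᵀ = H) (Y : Matrix q q ℝ) (hK : Kᵀ = K) :
    ∑ p, ∑ r, Y p r * ∑ l, H p l * K r l = (H * Y * K).trace := by
  have h1 : ∀ i j, H i j = H j i := fun i j => by
    conv_lhs => rw [← hH]
    rfl
  have h2 : ∀ i j, K i j = K j i := fun i j => by
    conv_lhs => rw [← hK]
    rfl
  simp only [trace, diag, mul_apply, Finset.mul_sum, Finset.sum_mul]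
  rw [Finset.sum_congr rfl fun p _ => Finset.sum_comm, Finset.sum_comm]
  refine Finset.sum_congr rfl fun l _ => ?_
  rw [Finset.sum_comm]
  refine Finset.sum_congr rfl fun r _ => Finset.sum_congr rfl fun p _ => ?_
  rw [h1 p l, h2 r l]
  ring

/-- Cauchy-Schwarz for `∑ Y g V` -/
lemma cs_form (Y : Matrix q q ℝ) (g V : q → ℝ) :
    (∑ p, ∑ r, Y p r * (g p * V r)) ^ 2 ≤ fr Y * (vn g * vn V) := by
  have h1 := Finset.sum_mul_sq_le_sq_mul_sq (Finset.univ : Finset (q × q))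
    (fun p => Y p.1 p.2) (fun p => g p.1 * V p.2)
  rw [← Finset.univ_product_univ, Finset.sum_product, Finset.sum_product, Finset.sum_product] at h1
  have e2 : ∑ i, ∑ j, (g i * V j) ^ 2 = vn g * vn V := by
    unfold vn
    rw [Finset.sum_mul_sum]
    exact Finset.sum_congr rfl fun i _ => Finset.sum_congr rfl fun j _ => by ring
  simp only at h1
  rw [e2] at h1
  exact h1

lemma cs_vec (g V : q → ℝ) : (∑ p, g p * V p) ^ 2 ≤ vn g * vn V :=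
  Finset.sum_mul_sq_le_sq_mul_sq _ _ _

lemma vn_mulVec (H : Matrix q q ℝ) (th : q → ℝ) : vn (fun p => ∑ l, th l * H p l) ≤
    fr H * vn th := by
  unfold vn fr
  rw [Finset.sum_mul]
  refine Finset.sum_le_sum fun p _ => ?_
  refine (Finset.sum_mul_sq_le_sq_mul_sq _ _ _).trans (le_of_eq (mul_comm _ _))

/-- the `x`-term is bounded by fourth powers: `P² ≤ γ · (h t v)` -/
lemma xt_scalar {P G h t v a1 a2 : ℝ} (hP : P ^ 2 ≤ G * (h * t * v)) (hG : 0 ≤ G) (hh0 : 0 ≤ h)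
    (hh : h ≤ a1) (ht0 : 0 ≤ t) (ht : t ^ 2 ≤ 8 * (a1 + a2)) (hv0 : 0 ≤ v)
    (hv : v ^ 2 ≤ a1 + a2) (ha2 : 0 ≤ a2) : |P| ≤ 4 * (G + a1 ^ 2 + a2 ^ 2) := by
  have ha1 : 0 ≤ a1 := hh0.trans hh
  have h1 : h * t * v ≤ a1 * (9 / 2 * (a1 + a2)) := by
    have h2 : t * v ≤ 9 / 2 * (a1 + a2) := by nlinarith [sq_nonneg (t - v)]
    rw [mul_assoc]
    exact mul_le_mul hh h2 (mul_nonneg ht0 hv0) ha1
  have h3 : P ^ 2 ≤ G * (a1 * (9 / 2 * (a1 + a2))) := hP.trans (mul_le_mul_of_nonneg_left h1 hG)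
  have h4 : 0 ≤ 4 * (G + a1 ^ 2 + a2 ^ 2) := by positivity
  refine abs_le_of_sq_le_sq ?_ h4
  refine h3.trans ?_
  have h5 : a1 * (9 / 2 * (a1 + a2)) ≤ 7 * (a1 ^ 2 + a2 ^ 2) := by
    nlinarith [sq_nonneg (a1 - a2), sq_nonneg a1, sq_nonneg a2]
  have h6 : 0 ≤ a1 ^ 2 + a2 ^ 2 := by positivity
  have h7 : G * (a1 * (9 / 2 * (a1 + a2))) ≤ G * (7 * (a1 ^ 2 + a2 ^ 2)) :=
    mul_le_mul_of_nonneg_left h5 hG
  nlinarith [mul_nonneg hG h6, sq_nonneg G, sq_nonneg (a1 ^ 2 + a2 ^ 2)]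

/-- the `x`-terms with a matrix weight -/
lemma xt_mat {Y H : Matrix q q ℝ} {th V : q → ℝ} {G a1 a2 : ℝ} (hY : fr Y ≤ G)
    (hH : fr H ≤ a1) (hth : vn th ^ 2 ≤ 8 * (a1 + a2)) (hV : vn V ^ 2 ≤ a1 + a2)
    (ha2 : 0 ≤ a2) :
    |∑ p, ∑ r, Y p r * ((∑ l, th l * H p l) * V r)| ≤ 4 * (G + a1 ^ 2 + a2 ^ 2) := by
  refine xt_scalar (h := fr H) (t := vn th) (v := vn V) ?_ ((fr_nonneg Y).trans hY)
    (fr_nonneg H) hH (vn_nonneg _) hth (vn_nonneg _) hV ha2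
  refine (cs_form Y _ V).trans ?_
  exact mul_le_mul hY (mul_le_mul_of_nonneg_right (vn_mulVec H th) (vn_nonneg V))
    (mul_nonneg (vn_nonneg _) (vn_nonneg _)) ((fr_nonneg Y).trans hY)

/-- the `x`-terms with a scalar weight -/
lemma xt_id {H : Matrix q q ℝ} {th V : q → ℝ} {c a1 a2 : ℝ}
    (hH : fr H ≤ a1) (hth : vn th ^ 2 ≤ 8 * (a1 + a2)) (hV : vn V ^ 2 ≤ a1 + a2)
    (ha2 : 0 ≤ a2) :
    |c * ∑ p, (∑ l, th l * H p l) * V p| ≤ 4 * (c ^ 2 + a1 ^ 2 + a2 ^ 2) := by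
  refine xt_scalar (h := fr H) (t := vn th) (v := vn V) ?_ (sq_nonneg c)
    (fr_nonneg H) hH (vn_nonneg _) hth (vn_nonneg _) hV ha2
  rw [mul_pow]
  refine mul_le_mul_of_nonneg_left ((cs_vec _ V).trans ?_) (sq_nonneg c)
  exact mul_le_mul_of_nonneg_right (vn_mulVec H th) (vn_nonneg V)

/-- submultiplicativity -/
lemma fr_mul_le (A B : Matrix q q ℝ) : fr (A * B) ≤ fr A * fr B := by
  have h1 : ∀ i j, (A * B) i j ^ 2 ≤ (∑ r, A i r ^ 2) * ∑ r, B r j ^ 2 := by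
    intro i j
    rw [mul_apply]
    exact Finset.sum_mul_sq_le_sq_mul_sq _ _ _
  unfold fr
  calc ∑ i, ∑ j, (A * B) i j ^ 2 ≤ ∑ i, ∑ j, (∑ r, A i r ^ 2) * ∑ r, B r j ^ 2 :=
        Finset.sum_le_sum fun i _ => Finset.sum_le_sum fun j _ => h1 i j
    _ = (∑ i, ∑ r, A i r ^ 2) * ∑ j, ∑ r, B r j ^ 2 := by rw [Finset.sum_mul_sum]
    _ = _ := by rw [Finset.sum_comm (f := fun j r => B r j ^ 2)]

lemma vn_sub_le (U V : q → ℝ) {a1 a2 : ℝ} (hU : vn U ^ 2 ≤ a1) (hV : vn V ^ 2 ≤ a2) :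
    vn (fun i => V i - U i) ^ 2 ≤ 8 * (a1 + a2) := by
  have h1 : vn (fun i => V i - U i) ≤ 2 * (vn V + vn U) := by
    unfold vn
    rw [← Finset.sum_add_distrib, Finset.mul_sum]
    exact Finset.sum_le_sum fun i _ => by nlinarith [sq_nonneg (V i + U i)]
  have h2 := vn_nonneg fun i => V i - U i
  have h3 : vn (fun i => V i - U i) ^ 2 ≤ (2 * (vn V + vn U)) ^ 2 := pow_le_pow_left₀ h2 h1 2
  nlinarith [sq_nonneg (vn V - vn U)]

/-- the Frobenius norm of the product of symmetric matrices as a trace -/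
lemma fr_eq_tr {A : Matrix q q ℝ} (hA : Aᵀ = A) : (A * A).trace = fr A := by
  rw [fr_eq_trace, hA]

lemma sum_fr (H : Matrix q q ℝ) : ∑ p, ∑ l, H p l * H p l = fr H := by
  unfold fr
  exact Finset.sum_congr rfl fun i _ => Finset.sum_congr rfl fun j _ => by ring

/-- the four `x`-terms -/
lemma x_terms {H1 C1 C2 : Matrix q q ℝ} {U V : q → ℝ} {a1 a2 : ℝ}
    (ha1 : fr H1 ≤ a1) (ha2 : 0 ≤ a2) (hU : vn U ^ 2 ≤ a1) (hV : vn V ^ 2 ≤ a2) :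
    |∑ p, ∑ r, (C1 * C2) p r * ((∑ l, (V l - U l) * H1 p l) * V r)| ≤
        4 * (fr C1 ^ 2 + fr C2 ^ 2 + a1 ^ 2 + a2 ^ 2) ∧
      |∑ p, ∑ r, (C2 * C2) p r * ((∑ l, (V l - U l) * H1 p l) * U r)| ≤
        4 * (fr C1 ^ 2 + fr C2 ^ 2 + a1 ^ 2 + a2 ^ 2) ∧
      |∑ p, ∑ r, (C1 * C1) p r * ((∑ l, (V l - U l) * H1 p l) * U r)| ≤
        4 * (fr C1 ^ 2 + fr C2 ^ 2 + a1 ^ 2 + a2 ^ 2) ∧
      |fr C1 * ∑ p, (∑ l, (V l - U l) * H1 p l) * U p| ≤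
        4 * (fr C1 ^ 2 + fr C2 ^ 2 + a1 ^ 2 + a2 ^ 2) := by
  have ht := vn_sub_le U V hU hV
  have hV' : vn V ^ 2 ≤ a1 + a2 := by linarith [(fr_nonneg H1).trans ha1]
  have hU' : vn U ^ 2 ≤ a1 + a2 := by linarith
  have hc1 := fr_nonneg C1
  have hc2 := fr_nonneg C2
  refine ⟨?_, ?_, ?_, ?_⟩
  · exact xt_mat (G := fr C1 ^ 2 + fr C2 ^ 2)
      ((fr_mul_le C1 C2).trans (by nlinarith [sq_nonneg (fr C1 - fr C2)])) ha1 ht hV' ha2
  · exact xt_mat (G := fr C1 ^ 2 + fr C2 ^ 2)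
      ((fr_mul_le C2 C2).trans (by nlinarith [sq_nonneg (fr C1)])) ha1 ht hU' ha2
  · exact xt_mat (G := fr C1 ^ 2 + fr C2 ^ 2)
      ((fr_mul_le C1 C1).trans (by nlinarith [sq_nonneg (fr C2)])) ha1 ht hU' ha2
  · refine (xt_id ha1 ht hU' ha2).trans ?_
    nlinarith [sq_nonneg (fr C2)]

/-- expansion of the row forms -/
lemma expand_one {H : Matrix q q ℝ} (hH : Hᵀ = H) (Y : Matrix q q ℝ) (K : Matrix q q ℝ)
    (hK : Kᵀ = K) (g V : q → ℝ) (x : ℝ) :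
    ∑ p, ∑ r, Y p r * (∑ l, H p l * K r l + x * (g p * V r)) =
      (H * Y * K).trace + x * ∑ p, ∑ r, Y p r * (g p * V r) := by
  rw [← tr_form hH _ hK, Finset.mul_sum, ← Finset.sum_add_distrib]
  refine Finset.sum_congr rfl fun p _ => ?_
  rw [Finset.mul_sum, ← Finset.sum_add_distrib]
  exact Finset.sum_congr rfl fun r _ => by ring

lemma expand_two {H : Matrix q q ℝ} (hH : Hᵀ = H) {Y : Matrix q q ℝ} (hY : Yᵀ = Y)
    (g V : q → ℝ) (x : ℝ) :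
    ∑ p, ∑ r, Y p r * (∑ l, H p l * H r l + x * (g p * V r) + x * (g r * V p)) =
      (H * Y * H).trace + 2 * x * ∑ p, ∑ r, Y p r * (g p * V r) := by
  have h1 : ∑ p, ∑ r, Y p r * (g r * V p) = ∑ p, ∑ r, Y p r * (g p * V r) := by
    rw [Finset.sum_comm]
    refine Finset.sum_congr rfl fun p _ => Finset.sum_congr rfl fun r _ => ?_
    have : Y r p = Y p r := by
      conv_lhs => rw [← hY]
      rfl
    rw [this]
  have h2 : 2 * x * ∑ p, ∑ r, Y p r * (g p * V r) = x * ∑ p, ∑ r, Y p r * (g p * V r) +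
      x * ∑ p, ∑ r, Y p r * (g r * V p) := by
    rw [h1]; ring
  rw [h2, ← tr_form hH _ hH, Finset.mul_sum, Finset.mul_sum, ← Finset.sum_add_distrib,
    ← Finset.sum_add_distrib]
  refine Finset.sum_congr rfl fun p _ => ?_
  rw [Finset.mul_sum, Finset.mul_sum, ← Finset.sum_add_distrib, ← Finset.sum_add_distrib]
  exact Finset.sum_congr rfl fun r _ => by ring

lemma expand_id (H : Matrix q q ℝ) (g V : q → ℝ) (x : ℝ) :
    (∑ p, (∑ l, H p l * H p l + x * (g p * V p) + x * (g p * V p))) =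
      fr H + 2 * x * ∑ p, g p * V p := by
  rw [← sum_fr H, Finset.mul_sum, ← Finset.sum_add_distrib]
  exact Finset.sum_congr rfl fun r _ => by ring

/-- the scalar end of the main inequality -/
lemma main_scalar {x lam T TB TC f1 h1 TG1 f2 h2 TG2 PA PB PC PI E : ℝ}
    (key : T ≤ lam / 2 * TB + 1 / (2 * lam) * TC + (f1 * h1 - TG1) + (f2 * h2 - TG2))
    (hx : 0 ≤ x) (hl : 0 < lam) (hl1 : lam ≤ 1) (hE : 0 ≤ E) (bA : |PA| ≤ 4 * E)
    (bB : |PB| ≤ 4 * E) (bC : |PC| ≤ 4 * E) (bI : |f1 * PI| ≤ 4 * E) :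
    (T + x * PA) - lam / 2 * (TB + 2 * x * PB) - 1 / (2 * lam) * TC -
      (f1 * (h1 + 2 * x * PI) - (TG1 + 2 * x * PC)) - (f2 * h2 - TG2) ≤ x * (28 * E) := by
  have b1 := (abs_le.1 bA).2
  have b2 := (abs_le.1 bB).1
  have b3 := (abs_le.1 bC).2
  have b4 := (abs_le.1 bI).1
  have b5 : lam * -PB ≤ 4 * E := by nlinarith
  have b6 : PA + lam * -PB + 2 * PC - 2 * (f1 * PI) ≤ 28 * E := by linarith
  have b7 := mul_le_mul_of_nonneg_left b6 hx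
  linarith

/-- **The main algebraic inequality.** -/
theorem main_alg {H1 H2 C1 C2 : Matrix q q ℝ} {U V : q → ℝ} {x lam a1 a2 : ℝ}
    (hH1 : H1ᵀ = H1) (hH2 : H2ᵀ = H2) (hC1 : C1ᵀ = C1) (hC2 : C2ᵀ = C2)
    (hx : 0 ≤ x) (h : 0 < lam) (h1 : lam ≤ 1) (ha1 : fr H1 ≤ a1) (ha2 : 0 ≤ a2)
    (hU : vn U ^ 2 ≤ a1) (hV : vn V ^ 2 ≤ a2) :
    (∑ p, ∑ r, (C1 * C2) p r * (∑ l, H1 p l * H2 r l +
        x * ((∑ l, (V l - U l) * H1 p l) * V r))) -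
      lam / 2 * (∑ p, ∑ r, (C2 * C2) p r * (∑ l, H1 p l * H1 r l +
        x * ((∑ l, (V l - U l) * H1 p l) * U r) + x * ((∑ l, (V l - U l) * H1 r l) * U p))) -
      1 / (2 * lam) * (∑ p, ∑ r, (C1 * C1) p r * ∑ l, H2 p l * H2 r l) -
      (fr C1 * (∑ p, (∑ l, H1 p l * H1 p l +
        x * ((∑ l, (V l - U l) * H1 p l) * U p) + x * ((∑ l, (V l - U l) * H1 p l) * U p))) -
        ∑ p, ∑ r, (C1 * C1) p r * (∑ l, H1 p l * H1 r l +
        x * ((∑ l, (V l - U l) * H1 p l) * U r) + x * ((∑ l, (V l - U l) * H1 r l) * U p))) -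
      (fr C2 * (∑ p, ∑ l, H2 p l * H2 p l) -
        ∑ p, ∑ r, (C2 * C2) p r * ∑ l, H2 p l * H2 r l) ≤
      x * (28 * (fr C1 ^ 2 + fr C2 ^ 2 + a1 ^ 2 + a2 ^ 2)) := by
  have key := comm_young hH1 hH2 hC1 hC2 h
  rw [fr_eq_tr hC1, fr_eq_tr hC2, fr_eq_tr hH1, fr_eq_tr hH2,
    show H1 * C1 * C2 * H2 = H1 * (C1 * C2) * H2 by simp only [mul_assoc]] at key
  obtain ⟨bA, bB, bC, bI⟩ := x_terms (C1 := C1) (C2 := C2) ha1 ha2 hU hV
  rw [expand_one hH1 _ _ hH2 (fun p => ∑ l, (V l - U l) * H1 p l) V x,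
    expand_two hH1 (Y := C2 * C2) (by rw [transpose_mul, hC2])
      (fun p => ∑ l, (V l - U l) * H1 p l) U x,
    expand_two hH1 (Y := C1 * C1) (by rw [transpose_mul, hC1])
      (fun p => ∑ l, (V l - U l) * H1 p l) U x,
    expand_id H1 (fun p => ∑ l, (V l - U l) * H1 p l) U x,
    sum_fr H2, tr_form hH2 _ hH2, tr_form hH2 _ hH2]
  exact main_scalar key hx h h1 (by positivity) bA bB bC bI

end Vale.Agent.P146.H325
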