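import Vale.Agent.P146.H325.Mono
import Vale.Agent.P146.H325.Alg

/-!
The main derivative inequality: the functional
`h - (λ/2) g_B - (1/2λ) g_C - (commutator functionals)` of the row share is almost nonincreasing.
-/

open MeasureTheory ProbabilityTheory

namespace Vale.Agent.P146.H325

open Vale.Agent.P157.Lv Vale.Agent.P146.H425 Vale.Agent.P146.H332 Matrix

set_option linter.unusedSectionVars false

variable {n : ℕ} (k x : ℝ) (b : Fin n)

/-- the matrix of conditional expectations -/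
noncomputable def MC (l : Lvl (Pair n)) (s : ℝ) (w : Pair n ⊕ Pair n → ℝ) :
    Matrix (Fin n) (Fin n) ℝ := fun p q => Cm k x b l p q s w

/-- the row gradient -/
noncomputable def MH (l : Lvl (Pair n)) (s : ℝ) (w : Pair n ⊕ Pair n → ℝ) :
    Matrix (Fin n) (Fin n) ℝ := fun p q => Hm k x b l p q s w

/-- the column of the site `b` -/
noncomputable def VU (l : Lvl (Pair n)) (s : ℝ) (w : Pair n ⊕ Pair n → ℝ) : Fin n → ℝ :=
  fun p => Cm k x b l p b s w

variable {k x b} {l : Lvl (Pair n)} {s : ℝ} {w : Pair n ⊕ Pair n → ℝ}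

lemma MC_T : (MC k x b l s w)ᵀ = MC k x b l s w := by
  ext p q
  exact Cm_comm q p

lemma MH_T : (MH k x b l s w)ᵀ = MH k x b l s w := by
  ext p q
  exact Hm_comm q p

lemma fr_MH_le (hx : 0 ≤ x) (hx1 : x ≤ 1) : fr (MH k x b l s w) ≤ fr (MC k x b l s w) := by
  refine psd_sq_mono (A := MH k x b l s w) (B := MC k x b l s w) (fun i j => Hm_comm i j)
    (fun v => ?_) (fun i j => Cm_comm i j) fun v => ?_
  · exact qf_Hm_nonneg hx hx1 v
  · exact qf_Hm_le hx hx1 v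

lemma vn_VU_le : vn (VU k x b l s w) ^ 2 ≤ fr (MC k x b l s w) := U_le

/-- `MC` at share zero is a weight -/
lemma wt_MC (hx : 0 ≤ x) (l : Lvl (Pair n)) (p q : Fin n) :
    Wt (row b) (fun w => MC k x b l 0 w p q) := wt_Cm hx l p q

lemma wt_mul {A B : (Pair n ⊕ Pair n → ℝ) → Matrix (Fin n) (Fin n) ℝ}
    (hA : ∀ p q, Wt (row b) fun w => A w p q) (hB : ∀ p q, Wt (row b) fun w => B w p q)
    (p q : Fin n) : Wt (row b) fun w => (A w * B w) p q := by
  simp only [Matrix.mul_apply]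
  exact Wt.sum _ fun r _ => (hA p r).mul (hB r q)

lemma wt_fr {A : (Pair n ⊕ Pair n → ℝ) → Matrix (Fin n) (Fin n) ℝ}
    (hA : ∀ p q, Wt (row b) fun w => A w p q) : Wt (row b) fun w => fr (A w) := by
  unfold fr
  refine Wt.sum _ fun p _ => Wt.sum _ fun q _ => ?_
  have := (hA p q).mul (hA p q)
  refine cast ?_ this
  congr 1
  funext w
  ring

variable (k x b)

/-- row functional with a matrix weight (density: level `d`) -/
noncomputable def Fq (d i j : Lvl (Pair n)) (Y : (Pair n ⊕ Pair n → ℝ) → Matrix (Fin n) (Fin n) ℝ)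
    (s : ℝ) (w : Pair n ⊕ Pair n → ℝ) : ℝ :=
  ∑ p, ∑ q, Y w p q * (Nm k x b d s w * (VU k x b i s w p * VU k x b j s w q))

/-- row functional with a scalar weight -/
noncomputable def Fi (d i : Lvl (Pair n)) (c : (Pair n ⊕ Pair n → ℝ) → ℝ)
    (s : ℝ) (w : Pair n ⊕ Pair n → ℝ) : ℝ :=
  ∑ p, c w * (Nm k x b d s w * (VU k x b i s w p * VU k x b i s w p))

variable {k x b}

lemma kf_Fq (hx : 0 ≤ x) (d i j : Lvl (Pair n))
    {Y : (Pair n ⊕ Pair n → ℝ) → Matrix (Fin n) (Fin n) ℝ}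
    (hY : ∀ p q, Wt (row b) fun w => Y w p q) :
    ∃ D, KF (act (row b)) (Fq k x b d i j Y) D (fun s w => ∑ p, ∑ q, Y w p q *
      (Nm k x b d s w * drift k x b d i j p q s w)) := kf_Q hx d i j hY

lemma kf_Fi (hx : 0 ≤ x) (d i : Lvl (Pair n)) {c : (Pair n ⊕ Pair n → ℝ) → ℝ}
    (hc : Wt (row b) c) :
    ∃ D, KF (act (row b)) (Fi k x b d i c) D (fun s w => ∑ p, c w *
      (Nm k x b d s w * drift k x b d i i p p s w)) := by
  choose D hD using fun p => kf_comp (k := k) (b := b) hx d i i p p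
  exact ⟨_, KF.sum _ fun p _ => hc.kf (hD p)⟩

lemma drift_12 (l1 l2 : Lvl (Pair n)) (p q : Fin n) : drift k x b l2 l1 l2 p q s w =
    k ^ 2 * (∑ l, MH k x b l1 s w p l * MH k x b l2 s w q l +
      x * ((∑ l, (VU k x b l2 s w l - VU k x b l1 s w l) * MH k x b l1 s w p l) *
        VU k x b l2 s w q)) := by
  unfold drift MH VU
  congr 1
  rw [Finset.sum_mul, Finset.mul_sum, ← Finset.sum_add_distrib]
  exact Finset.sum_congr rfl fun l _ => by ring

lemma drift_11 (l1 l2 : Lvl (Pair n)) (p q : Fin n) : drift k x b l2 l1 l1 p q s w =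
    k ^ 2 * (∑ l, MH k x b l1 s w p l * MH k x b l1 s w q l +
      x * ((∑ l, (VU k x b l2 s w l - VU k x b l1 s w l) * MH k x b l1 s w p l) *
        VU k x b l1 s w q) +
      x * ((∑ l, (VU k x b l2 s w l - VU k x b l1 s w l) * MH k x b l1 s w q l) *
        VU k x b l1 s w p)) := by
  unfold drift MH VU
  congr 1
  rw [Finset.sum_mul, Finset.sum_mul, Finset.mul_sum, Finset.mul_sum, ← Finset.sum_add_distrib,
    ← Finset.sum_add_distrib]

lemma drift_22 (l2 : Lvl (Pair n)) (p q : Fin n) : drift k x b l2 l2 l2 p q s w =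
    k ^ 2 * ∑ l, MH k x b l2 s w p l * MH k x b l2 s w q l := by
  unfold drift MH
  congr 1
  exact Finset.sum_congr rfl fun l _ => by ring

lemma pull2 (Y : Matrix (Fin n) (Fin n) ℝ) (N K : ℝ) (G : Fin n → Fin n → ℝ) :
    ∑ p, ∑ q, Y p q * (N * (K * G p q)) = N * K * ∑ p, ∑ q, Y p q * G p q := by
  rw [Finset.mul_sum]
  refine Finset.sum_congr rfl fun p _ => ?_
  rw [Finset.mul_sum]
  exact Finset.sum_congr rfl fun q _ => by ring

lemma pull1 (c N K : ℝ) (G : Fin n → ℝ) :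
    ∑ p, c * (N * (K * G p)) = N * K * (c * ∑ p, G p) := by
  rw [Finset.mul_sum, Finset.mul_sum]
  exact Finset.sum_congr rfl fun q _ => by ring

variable (k x b)

/-- the bulk matrices as functions of the coordinates -/
noncomputable abbrev M0 (l : Lvl (Pair n)) (w : Pair n ⊕ Pair n → ℝ) :
    Matrix (Fin n) (Fin n) ℝ := MC k x b l 0 w

/-- the total functional -/
noncomputable def Tot (lam : ℝ) (l1 l2 : Lvl (Pair n)) (s : ℝ) (w : Pair n ⊕ Pair n → ℝ) : ℝ :=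
  Fq k x b l2 l1 l2 (fun w => M0 k x b l1 w * M0 k x b l2 w) s w -
    lam / 2 * Fq k x b l2 l1 l1 (fun w => M0 k x b l2 w * M0 k x b l2 w) s w -
    1 / (2 * lam) * Fq k x b l2 l2 l2 (fun w => M0 k x b l1 w * M0 k x b l1 w) s w -
    (Fi k x b l2 l1 (fun w => fr (M0 k x b l1 w)) s w -
      Fq k x b l2 l1 l1 (fun w => M0 k x b l1 w * M0 k x b l1 w) s w) -
    (Fi k x b l2 l2 (fun w => fr (M0 k x b l2 w)) s w -
      Fq k x b l2 l2 l2 (fun w => M0 k x b l2 w * M0 k x b l2 w) s w)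

/-- the sum of the fourth powers -/
noncomputable def Qt (l1 l2 : Lvl (Pair n)) (s : ℝ) (w : Pair n ⊕ Pair n → ℝ) : ℝ :=
  fr (M0 k x b l1 w) ^ 2 + fr (M0 k x b l2 w) ^ 2 + fr (MC k x b l1 s w) ^ 2 +
    fr (MC k x b l2 s w) ^ 2

variable {k x b}

theorem kf_Tot (hx : 0 ≤ x) (hx1 : x ≤ 1) {lam : ℝ} (hl : 0 < lam) (hl1 : lam ≤ 1)
    (l1 l2 : Lvl (Pair n)) :
    ∃ D L, KF (act (row b)) (Tot k x b lam l1 l2) D L ∧
      ∀ s w, L s w ≤ 28 * k ^ 2 * x * (Nm k x b l2 s w * Qt k x b l1 l2 s w) := by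
  have w1 := wt_MC (k := k) (b := b) hx l1
  have w2 := wt_MC (k := k) (b := b) hx l2
  obtain ⟨D1, h1⟩ := kf_Fq (k := k) hx l2 l1 l2 (wt_mul w1 w2)
  obtain ⟨D2, h2⟩ := kf_Fq (k := k) hx l2 l1 l1 (wt_mul w2 w2)
  obtain ⟨D3, h3⟩ := kf_Fq (k := k) hx l2 l2 l2 (wt_mul w1 w1)
  obtain ⟨D4, h4⟩ := kf_Fi (k := k) hx l2 l1 (wt_fr w1)
  obtain ⟨D5, h5⟩ := kf_Fq (k := k) hx l2 l1 l1 (wt_mul w1 w1)
  obtain ⟨D6, h6⟩ := kf_Fi (k := k) hx l2 l2 (wt_fr w2)
  obtain ⟨D7, h7⟩ := kf_Fq (k := k) hx l2 l2 l2 (wt_mul w2 w2)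
  refine ⟨_, _, ((((h1.sub (h2.const_mul (lam / 2))).sub (h3.const_mul (1 / (2 * lam)))).sub
    (h4.sub h5)).sub (h6.sub h7)), fun s w => ?_⟩
  simp only [drift_22]
  simp only [drift_11]
  simp only [drift_12, pull2, pull1]
  have hN : 0 ≤ Nm k x b l2 s w := (N1_pos k SkS x (row b) l2 s w).le
  have key := main_alg (H1 := MH k x b l1 s w) (H2 := MH k x b l2 s w) (C1 := M0 k x b l1 w)
    (C2 := M0 k x b l2 w) (U := VU k x b l1 s w) (V := VU k x b l2 s w) (x := x) (lam := lam)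
    (a1 := fr (MC k x b l1 s w)) (a2 := fr (MC k x b l2 s w)) MH_T MH_T MC_T MC_T hx hl hl1
    (fr_MH_le hx hx1) (fr_nonneg _) vn_VU_le vn_VU_le
  have key2 := mul_le_mul_of_nonneg_left key (mul_nonneg hN (sq_nonneg k))
  unfold Qt
  refine le_trans (le_of_eq ?_) (key2.trans (le_of_eq ?_))
  · ring
  · ring

end Vale.Agent.P146.H325
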