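import Vale.Agent.P146.H325.Heat

/-!
Gibbs averages as functions of the couplings `u : ι → ℝ`: the partition function
`Zp = ∑_x exp (k ∑_e S e x u e)`, its power `Zx = Zp ^ x`, the averages `av h`; two derivatives.
-/

open MeasureTheory ProbabilityTheory

namespace Vale.Agent.P146.H325

open Vale.Agent.P157.Lv Vale.Agent.P146.H425

set_option linter.unusedSectionVars false

variable {ι : Type} [Fintype ι] [DecidableEq ι] {X : Type} [Fintype X] [Nonempty X]

/-- `F` has continuous partial derivatives `F1 e` (total derivative) and second diagonal partial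
derivatives `F2 e`, everything of exponential growth. -/
structure C2 (F : (ι → ℝ) → ℝ) (F1 F2 : ι → (ι → ℝ) → ℝ) : Prop where
  fd : ∀ u, HasFDerivAt F (∑ e, F1 e u • (ContinuousLinearMap.proj e : (ι → ℝ) →L[ℝ] ℝ)) u
  pd : ∀ e, PD e (F1 e) (F2 e)
  eg : EG F
  eg1 : ∀ e, EG (F1 e)
  eg2 : ∀ e, EG (F2 e)
  c1 : ∀ e, Continuous (F1 e)
  c2 : ∀ e, Continuous (F2 e)

lemma C2.cont {F : (ι → ℝ) → ℝ} {F1 F2 : ι → (ι → ℝ) → ℝ} (h : C2 F F1 F2) : Continuous F :=
  continuous_iff_continuousAt.2 fun u => (h.fd u).continuousAt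

/-- a total derivative gives partial derivatives -/
lemma pd_of_fd {F : (ι → ℝ) → ℝ} {F1 : ι → (ι → ℝ) → ℝ}
    (h : ∀ u, HasFDerivAt F (∑ e, F1 e u • (ContinuousLinearMap.proj e : (ι → ℝ) →L[ℝ] ℝ)) u)
    (e : ι) : PD e F (F1 e) := by
  intro y x
  have h1 := h (Function.update y e x)
  have h2 : HasDerivAt (fun t => Function.update y e t) (Pi.single e 1) x :=
    hasDerivAt_update y e x
  have h3 := h1.comp_hasDerivAt x h2
  refine h3.congr_deriv ?_
  rw [_root_.sum_apply]
  simp only [_root_.smul_apply, ContinuousLinearMap.proj_apply, smul_eq_mul]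
  rw [Finset.sum_eq_single e]
  · simp
  · intro b _ hb
    rw [Pi.single_eq_of_ne hb, mul_zero]
  · intro h
    exact (h (Finset.mem_univ e)).elim

lemma C2.pd0 {F : (ι → ℝ) → ℝ} {F1 F2 : ι → (ι → ℝ) → ℝ} (h : C2 F F1 F2) (e : ι) :
    PD e F (F1 e) := pd_of_fd h.fd e

lemma C2.mul {F G : (ι → ℝ) → ℝ} {F1 F2 G1 G2 : ι → (ι → ℝ) → ℝ} (hF : C2 F F1 F2)
    (hG : C2 G G1 G2) : C2 (fun u => F u * G u) (fun e u => F1 e u * G u + F u * G1 e u)
      (fun e u => F2 e u * G u + 2 * (F1 e u * G1 e u) + F u * G2 e u) := by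
  refine ⟨fun u => ?_, fun e => ?_, hF.eg.mul hG.eg, fun e => ?_, fun e => ?_, fun e => ?_,
    fun e => ?_⟩
  · refine ((hF.fd u).mul (hG.fd u)).congr_fderiv ?_
    rw [Finset.smul_sum, Finset.smul_sum, ← Finset.sum_add_distrib]
    refine Finset.sum_congr rfl fun e _ => ?_
    rw [smul_smul, smul_smul, ← add_smul]
    congr 1
    ring
  · refine (((hF.pd e).mul (hG.pd0 e)).add ((hF.pd0 e).mul (hG.pd e))).congr fun u => ?_
    ring
  · exact ((hF.eg1 e).mul hG.eg).add (hF.eg.mul (hG.eg1 e))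
  · exact (((hF.eg2 e).mul hG.eg).add (((hF.eg1 e).mul (hG.eg1 e)).const_mul 2)).add
      (hF.eg.mul (hG.eg2 e))
  · exact ((hF.c1 e).mul hG.cont).add (hF.cont.mul (hG.c1 e))
  · exact (((hF.c2 e).mul hG.cont).add (((hF.c1 e).mul (hG.c1 e)).const_mul 2)).add
      (hF.cont.mul (hG.c2 e))

lemma C2.sub {F G : (ι → ℝ) → ℝ} {F1 F2 G1 G2 : ι → (ι → ℝ) → ℝ} (hF : C2 F F1 F2)
    (hG : C2 G G1 G2) : C2 (fun u => F u - G u) (fun e u => F1 e u - G1 e u)
      (fun e u => F2 e u - G2 e u) := by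
  refine ⟨fun u => ?_, fun e => (hF.pd e).sub (hG.pd e), hF.eg.sub hG.eg,
    fun e => (hF.eg1 e).sub (hG.eg1 e), fun e => (hF.eg2 e).sub (hG.eg2 e),
    fun e => (hF.c1 e).sub (hG.c1 e), fun e => (hF.c2 e).sub (hG.c2 e)⟩
  refine ((hF.fd u).sub (hG.fd u)).congr_fderiv ?_
  rw [← Finset.sum_sub_distrib]
  refine Finset.sum_congr rfl fun e _ => ?_
  rw [← sub_smul]

lemma C2.const_mul {F : (ι → ℝ) → ℝ} {F1 F2 : ι → (ι → ℝ) → ℝ} (c : ℝ) (hF : C2 F F1 F2) :
    C2 (fun u => c * F u) (fun e u => c * F1 e u) (fun e u => c * F2 e u) := by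
  refine ⟨fun u => ?_, fun e => (hF.pd e).const_mul c, hF.eg.const_mul c,
    fun e => (hF.eg1 e).const_mul c, fun e => (hF.eg2 e).const_mul c,
    fun e => (hF.c1 e).const_mul c, fun e => (hF.c2 e).const_mul c⟩
  refine ((hF.fd u).const_mul c).congr_fderiv ?_
  rw [Finset.smul_sum]
  refine Finset.sum_congr rfl fun e _ => ?_
  rw [smul_smul]

lemma C2.congr {F G : (ι → ℝ) → ℝ} {F1 F2 G1 G2 : ι → (ι → ℝ) → ℝ} (hF : C2 F F1 F2)
    (h : ∀ u, F u = G u) (h1 : ∀ e u, F1 e u = G1 e u) (h2 : ∀ e u, F2 e u = G2 e u) :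
    C2 G G1 G2 := by
  have e0 : F = G := funext h
  have e1 : F1 = G1 := funext fun e => funext (h1 e)
  have e2 : F2 = G2 := funext fun e => funext (h2 e)
  rwa [e0, e1, e2] at hF

variable (k : ℝ) (S : ι → X → ℝ)

/-- the Boltzmann weight -/
noncomputable def ez (u : ι → ℝ) (x : X) : ℝ := Real.exp (k * ∑ e, S e x * u e)

/-- the partition function -/
noncomputable def Zp (u : ι → ℝ) : ℝ := ∑ x, ez k S u x

/-- the Gibbs average -/
noncomputable def av (h : X → ℝ) (u : ι → ℝ) : ℝ := (∑ x, ez k S u x * h x) / Zp k S u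

/-- the power of the partition function -/
noncomputable def Zx (x : ℝ) (u : ι → ℝ) : ℝ := Real.exp (x * Real.log (Zp k S u))

lemma ez_pos (u : ι → ℝ) (x : X) : 0 < ez k S u x := Real.exp_pos _

lemma Zp_pos (u : ι → ℝ) : 0 < Zp k S u :=
  Finset.sum_pos (fun _ _ => Real.exp_pos _) Finset.univ_nonempty

lemma Zx_pos (x : ℝ) (u : ι → ℝ) : 0 < Zx k S x u := Real.exp_pos _

lemma av_one (u : ι → ℝ) : av k S (fun _ => 1) u = 1 := by
  unfold av
  simp only [mul_one]
  exact div_self (Zp_pos k S u).ne'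

lemma av_const (c : ℝ) (u : ι → ℝ) : av k S (fun _ => c) u = c := by
  unfold av
  rw [← Finset.sum_mul, mul_div_assoc, mul_comm, div_mul_eq_mul_div]
  exact mul_div_cancel_right₀ c (Zp_pos k S u).ne'

lemma av_add (h g : X → ℝ) (u : ι → ℝ) :
    av k S (fun x => h x + g x) u = av k S h u + av k S g u := by
  unfold av
  rw [← add_div, ← Finset.sum_add_distrib]
  simp only [mul_add]

lemma av_sub (h g : X → ℝ) (u : ι → ℝ) :
    av k S (fun x => h x - g x) u = av k S h u - av k S g u := by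
  unfold av
  rw [← sub_div, ← Finset.sum_sub_distrib]
  simp only [mul_sub]

lemma av_mul (c : ℝ) (h : X → ℝ) (u : ι → ℝ) :
    av k S (fun x => c * h x) u = c * av k S h u := by
  unfold av
  rw [← mul_div_assoc, Finset.mul_sum]
  congr 1
  exact Finset.sum_congr rfl fun x _ => by ring

lemma av_sum {κ : Type*} (s : Finset κ) (h : κ → X → ℝ) (u : ι → ℝ) :
    av k S (fun x => ∑ i ∈ s, h i x) u = ∑ i ∈ s, av k S (h i) u := by
  unfold av
  rw [← Finset.sum_div]
  congr 1
  rw [Finset.sum_comm]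
  exact Finset.sum_congr rfl fun x _ => by rw [Finset.mul_sum]

lemma av_mono {h g : X → ℝ} (hg : ∀ x, h x ≤ g x) (u : ι → ℝ) : av k S h u ≤ av k S g u := by
  unfold av
  refine div_le_div_of_nonneg_right ?_ (Zp_pos k S u).le
  exact Finset.sum_le_sum fun x _ => mul_le_mul_of_nonneg_left (hg x) (ez_pos k S u x).le

lemma av_nonneg {h : X → ℝ} (hg : ∀ x, 0 ≤ h x) (u : ι → ℝ) : 0 ≤ av k S h u := by
  have := av_mono k S hg u
  rwa [av_const] at this

lemma abs_av_le {h : X → ℝ} {C : ℝ} (hC : ∀ x, |h x| ≤ C) (u : ι → ℝ) : |av k S h u| ≤ C := by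
  rw [abs_le]
  constructor
  · have := av_mono k S (h := fun _ => -C) (g := h) (fun x => (abs_le.1 (hC x)).1) u
    rwa [av_const] at this
  · have := av_mono k S (h := h) (g := fun _ => C) (fun x => (abs_le.1 (hC x)).2) u
    rwa [av_const] at this

/-- Jensen -/
lemma av_sq_le (h : X → ℝ) (u : ι → ℝ) : av k S h u ^ 2 ≤ av k S (fun x => h x ^ 2) u := by
  have h1 := av_nonneg k S (h := fun x => (h x - av k S h u) ^ 2) (fun x => sq_nonneg _) u
  have h2 : (fun x => (h x - av k S h u) ^ 2) = fun x => (h x ^ 2 - (2 * av k S h u) * h x) +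
      av k S h u ^ 2 := by
    funext x
    ring
  rw [h2, av_add, av_sub, av_mul, av_const] at h1
  nlinarith

/-- the sup of the absolute values of a function -/
noncomputable def supn (h : X → ℝ) : ℝ := ∑ x, |h x|

lemma le_supn (h : X → ℝ) (x : X) : |h x| ≤ supn h :=
  Finset.single_le_sum (f := fun x => |h x|) (fun _ _ => abs_nonneg _) (Finset.mem_univ x)

lemma fd_ez (u : ι → ℝ) (x : X) : HasFDerivAt (fun u => ez k S u x)
    (∑ e, (k * (ez k S u x * S e x)) • (ContinuousLinearMap.proj e : (ι → ℝ) →L[ℝ] ℝ)) u := by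
  unfold ez
  have h1 : HasFDerivAt (fun u : ι → ℝ => k * ∑ e, S e x * u e)
      (k • ∑ e, S e x • (ContinuousLinearMap.proj e : (ι → ℝ) →L[ℝ] ℝ)) u := by
    refine HasFDerivAt.const_mul ?_ k
    refine HasFDerivAt.fun_sum fun e _ => ?_
    exact (ContinuousLinearMap.proj (R := ℝ) (φ := fun _ : ι => ℝ) e).hasFDerivAt.const_mul (S e x)
  refine (h1.exp).congr_fderiv ?_
  rw [Finset.smul_sum, Finset.smul_sum]
  refine Finset.sum_congr rfl fun e _ => ?_
  rw [smul_smul, smul_smul]
  congr 1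
  ring

lemma fd_sum (h : X → ℝ) (u : ι → ℝ) : HasFDerivAt (fun u => ∑ x, ez k S u x * h x)
    (∑ e, (k * ∑ x, ez k S u x * (h x * S e x)) •
      (ContinuousLinearMap.proj e : (ι → ℝ) →L[ℝ] ℝ)) u := by
  have h1 := HasFDerivAt.fun_sum (u := Finset.univ) fun x _ => (fd_ez k S u x).mul_const (h x)
  refine h1.congr_fderiv ?_
  simp only [Finset.smul_sum]
  rw [Finset.sum_comm]
  refine Finset.sum_congr rfl fun e _ => ?_
  rw [Finset.mul_sum, Finset.sum_smul]
  refine Finset.sum_congr rfl fun x _ => ?_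
  rw [smul_smul]
  congr 1
  ring

lemma fd_Zp (u : ι → ℝ) : HasFDerivAt (Zp k S)
    (∑ e, (k * (Zp k S u * av k S (S e) u)) •
      (ContinuousLinearMap.proj e : (ι → ℝ) →L[ℝ] ℝ)) u := by
  have h1 := fd_sum k S (fun _ => 1) u
  simp only [mul_one] at h1
  refine h1.congr_fderiv ?_
  refine Finset.sum_congr rfl fun e _ => ?_
  unfold av
  rw [mul_div_cancel₀ _ (Zp_pos k S u).ne']
  simp

lemma fd_av (h : X → ℝ) (u : ι → ℝ) : HasFDerivAt (av k S h)
    (∑ e, (k * (av k S (fun x => h x * S e x) u - av k S h u * av k S (S e) u)) •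
      (ContinuousLinearMap.proj e : (ι → ℝ) →L[ℝ] ℝ)) u := by
  have hZ := (Zp_pos k S u).ne'
  have h2 : HasFDerivAt (fun u => (∑ x, ez k S u x * h x) * (Zp k S u)⁻¹)
    (∑ e, (k * (av k S (fun x => h x * S e x) u - av k S h u * av k S (S e) u)) •
      (ContinuousLinearMap.proj e : (ι → ℝ) →L[ℝ] ℝ)) u := by
    have h3 : HasFDerivAt (fun u => (Zp k S u)⁻¹) (-(Zp k S u ^ 2)⁻¹ • (∑ e,
      (k * (Zp k S u * av k S (S e) u)) • (ContinuousLinearMap.proj e : (ι → ℝ) →L[ℝ] ℝ))) u :=
      (hasDerivAt_inv hZ).comp_hasFDerivAt u (fd_Zp k S u)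
    refine ((fd_sum k S h u).mul h3).congr_fderiv ?_
    simp only [Finset.smul_sum]
    rw [← Finset.sum_add_distrib]
    refine Finset.sum_congr rfl fun e _ => ?_
    rw [smul_smul, smul_smul, smul_smul, ← add_smul]
    congr 1
    unfold av
    field_simp
    ring
  exact h2

lemma pd_av (e : ι) (h : X → ℝ) : PD e (av k S h)
    (fun u => k * (av k S (fun x => h x * S e x) u - av k S h u * av k S (S e) u)) :=
  pd_of_fd (fd_av k S h) e

lemma cont_av (h : X → ℝ) : Continuous (av k S h) :=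
  continuous_iff_continuousAt.2 fun u => (fd_av k S h u).continuousAt

lemma eg_av (h : X → ℝ) : EG (av k S h) :=
  EG.of_bdd (cont_av k S h).measurable (C := supn h) (abs_av_le k S (le_supn h))

/-- the second diagonal derivative of `av h` -/
noncomputable def av2 (h : X → ℝ) (e : ι) (u : ι → ℝ) : ℝ :=
  k * (k * (av k S (fun x => h x * S e x * S e x) u -
      av k S (fun x => h x * S e x) u * av k S (S e) u) -
    (k * (av k S (fun x => h x * S e x) u - av k S h u * av k S (S e) u) * av k S (S e) u +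
      av k S h u * (k * (av k S (fun x => S e x * S e x) u - av k S (S e) u * av k S (S e) u))))

lemma c2_av (h : X → ℝ) : C2 (av k S h)
    (fun e u => k * (av k S (fun x => h x * S e x) u - av k S h u * av k S (S e) u))
    (av2 k S h) := by
  refine ⟨fd_av k S h, fun e => ?_, eg_av k S h, fun e => ?_, fun e => ?_, fun e => ?_,
    fun e => ?_⟩
  · exact ((pd_av k S e _).sub ((pd_av k S e h).mul (pd_av k S e (S e)))).const_mul k
  · exact ((eg_av k S _).sub ((eg_av k S h).mul (eg_av k S _))).const_mul k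
  · unfold av2
    exact (((((eg_av k S _).sub ((eg_av k S _).mul (eg_av k S _))).const_mul k).sub
      (((((eg_av k S _).sub ((eg_av k S h).mul (eg_av k S _))).const_mul k).mul
        (eg_av k S _)).add ((eg_av k S h).mul (((eg_av k S _).sub ((eg_av k S _).mul
          (eg_av k S _))).const_mul k))))).const_mul k
  · exact ((cont_av k S _).sub ((cont_av k S h).mul (cont_av k S _))).const_mul k
  · unfold av2
    have := cont_av k S
    have c1 := this (fun x => h x * S e x * S e x)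
    have c2 := this (fun x => h x * S e x)
    have c3 := this (S e)
    have c4 := this h
    have c5 := this (fun x => S e x * S e x)
    fun_prop

/-- the logarithm of the partition function is Lipschitz -/
lemma lip_log : Lip fun u => Real.log (Zp k S u) := by
  set L : ℝ := |k| * ∑ e, ∑ x, |S e x| with hL
  have hL0 : 0 ≤ L := by positivity
  have key : ∀ y y', Real.log (Zp k S y) ≤ Real.log (Zp k S y') + L * ‖y - y'‖ := by
    intro y y'
    have h1 : ∀ x, ez k S y x ≤ Real.exp (L * ‖y - y'‖) * ez k S y' x := by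
      intro x
      unfold ez
      rw [← Real.exp_add, Real.exp_le_exp]
      have h2 : k * ∑ e, S e x * y e = k * ∑ e, S e x * (y e - y' e) + k * ∑ e, S e x * y' e := by
        rw [← mul_add, ← Finset.sum_add_distrib]
        congr 1
        exact Finset.sum_congr rfl fun e _ => by ring
      rw [h2]
      refine add_le_add ?_ le_rfl
      refine (le_abs_self _).trans ?_
      rw [abs_mul, hL, mul_assoc]
      refine mul_le_mul_of_nonneg_left ?_ (abs_nonneg k)
      refine (Finset.abs_sum_le_sum_abs _ _).trans ?_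
      rw [Finset.sum_mul]
      refine Finset.sum_le_sum fun e _ => ?_
      rw [abs_mul]
      have h3 : |S e x| ≤ ∑ x, |S e x| :=
        Finset.single_le_sum (f := fun x => |S e x|) (fun _ _ => abs_nonneg _)
          (Finset.mem_univ x)
      have h4 : |y e - y' e| ≤ ‖y - y'‖ := norm_le_pi_norm (y - y') e
      exact mul_le_mul h3 h4 (abs_nonneg _) ((abs_nonneg _).trans h3)
    have h2 : Zp k S y ≤ Real.exp (L * ‖y - y'‖) * Zp k S y' := by
      unfold Zp
      rw [Finset.mul_sum]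
      exact Finset.sum_le_sum fun x _ => h1 x
    have h3 := Real.log_le_log (Zp_pos k S y) h2
    rw [Real.log_mul (Real.exp_pos _).ne' (Zp_pos k S y').ne', Real.log_exp] at h3
    linarith
  refine ⟨L, hL0, fun y y' => ?_⟩
  rw [abs_le]
  have h1 := key y y'
  have h2 := key y' y
  rw [norm_sub_rev] at h2
  constructor <;> linarith

lemma eg_Zx (x : ℝ) : EG (Zx k S x) := (lip_log k S).exp_eg x

lemma fd_Zx (x : ℝ) (u : ι → ℝ) : HasFDerivAt (Zx k S x)
    (∑ e, (k * (x * (Zx k S x u * av k S (S e) u))) •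
      (ContinuousLinearMap.proj e : (ι → ℝ) →L[ℝ] ℝ)) u := by
  have hZ := (Zp_pos k S u).ne'
  have h1 : HasFDerivAt (fun u => Real.exp (x * Real.log (Zp k S u)))
    (∑ e, (k * (x * (Zx k S x u * av k S (S e) u))) •
      (ContinuousLinearMap.proj e : (ι → ℝ) →L[ℝ] ℝ)) u := by
    refine ((((fd_Zp k S u).log hZ).const_mul x).exp).congr_fderiv ?_
    simp only [Finset.smul_sum]
    refine Finset.sum_congr rfl fun e _ => ?_
    rw [smul_smul, smul_smul, smul_smul]
    congr 1
    unfold Zx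
    field_simp
  exact h1

lemma cont_Zx (x : ℝ) : Continuous (Zx k S x) :=
  continuous_iff_continuousAt.2 fun u => (fd_Zx k S x u).continuousAt

/-- the second diagonal derivative of `Zx` -/
noncomputable def Zx2 (x : ℝ) (e : ι) (u : ι → ℝ) : ℝ :=
  k * (x * ((k * (x * (Zx k S x u * av k S (S e) u))) * av k S (S e) u + Zx k S x u *
    (k * (av k S (fun x => S e x * S e x) u - av k S (S e) u * av k S (S e) u))))

lemma c2_Zx (x : ℝ) : C2 (Zx k S x) (fun e u => k * (x * (Zx k S x u * av k S (S e) u)))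
    (Zx2 k S x) := by
  refine ⟨fd_Zx k S x, fun e => ?_, eg_Zx k S x, fun e => ?_, fun e => ?_, fun e => ?_,
    fun e => ?_⟩
  · exact (((pd_of_fd (fd_Zx k S x) e).mul (pd_av k S e (S e))).const_mul x).const_mul k
  · exact (((eg_Zx k S x).mul (eg_av k S _)).const_mul x).const_mul k
  · unfold Zx2
    exact ((((((((eg_Zx k S x).mul (eg_av k S _)).const_mul x).const_mul k).mul
      (eg_av k S _)).add ((eg_Zx k S x).mul (((eg_av k S _).sub ((eg_av k S _).mul
        (eg_av k S _))).const_mul k)))).const_mul x).const_mul k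
  · exact (((cont_Zx k S x).mul (cont_av k S _)).const_mul x).const_mul k
  · unfold Zx2
    have c1 := cont_Zx k S x
    have c3 := cont_av k S (S e)
    have c5 := cont_av k S (fun x => S e x * S e x)
    fun_prop

/-- `Z^x ⟨h⟩` with its two derivatives. -/
lemma c2_Zav (x : ℝ) (h : X → ℝ) : ∃ F2, C2 (fun u => Zx k S x u * av k S h u)
    (fun e u => k * (Zx k S x u * (av k S (fun x => h x * S e x) u -
      (1 - x) * (av k S h u * av k S (S e) u)))) F2 := by
  refine ⟨_, ((c2_Zx k S x).mul (c2_av k S h)).congr (fun u => rfl) (fun e u => ?_)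
    (fun e u => rfl)⟩
  ring

/-- `Z^x ⟨h⟩⟨g⟩` with its two derivatives. -/
lemma c2_Zavav (x : ℝ) (h g : X → ℝ) : ∃ F1 F2,
    C2 (fun u => Zx k S x u * (av k S h u * av k S g u)) F1 F2 :=
  ⟨_, _, (c2_Zx k S x).mul ((c2_av k S h).mul (c2_av k S g))⟩

end Vale.Agent.P146.H325
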