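import Vale.Agent.P146.H325.Start

/-!
The initial values of the row functionals in the full representation.
-/

open MeasureTheory ProbabilityTheory

namespace Vale.Agent.P146.H325

open Vale.Agent.P157.Lv Vale.Agent.P146.H425 Vale.Agent.P146.H332 Matrix

set_option linter.unusedSectionVars false

variable {n : ℕ}

/-- bilinear form -/
def qv (Y : Matrix (Fin n) (Fin n) ℝ) (U V : Fin n → ℝ) : ℝ := ∑ p, ∑ q, Y p q * (U p * V q)

/-- integration against the density of the upper level -/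
noncomputable def II (k x t1 t2 : ℝ) (Φ : (Pair n ⊕ Pair n → ℝ) → ℝ) : ℝ :=
  ∫ w, ND k x t2 (v2 t1 t2 w) * Φ w ∂(gI (Pair n ⊕ Pair n))

variable {k x : ℝ} {b : Fin n} {t1 t2 : ℝ}

lemma eg_II {Φ : (Pair n ⊕ Pair n → ℝ) → ℝ} (h : EG Φ) :
    EG fun w => ND k x t2 (v2 t1 t2 w) * Φ w := (eg_v2 (eg_ND t2) t1 t2).mul h

lemma II_add {Φ Ψ : (Pair n ⊕ Pair n → ℝ) → ℝ} (h : EG Φ) (h' : EG Ψ) :
    II k x t1 t2 (fun w => Φ w + Ψ w) = II k x t1 t2 Φ + II k x t1 t2 Ψ := by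
  unfold II
  rw [← integral_add (eg_II h).integrable (eg_II h').integrable]
  simp only [mul_add]

lemma II_sub {Φ Ψ : (Pair n ⊕ Pair n → ℝ) → ℝ} (h : EG Φ) (h' : EG Ψ) :
    II k x t1 t2 (fun w => Φ w - Ψ w) = II k x t1 t2 Φ - II k x t1 t2 Ψ := by
  unfold II
  rw [← integral_sub (eg_II h).integrable (eg_II h').integrable]
  simp only [mul_sub]

lemma II_const_mul (c : ℝ) (Φ : (Pair n ⊕ Pair n → ℝ) → ℝ) :
    II k x t1 t2 (fun w => c * Φ w) = c * II k x t1 t2 Φ := by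
  unfold II
  rw [← integral_const_mul]
  congr 1
  funext w
  ring

lemma II_sum {κ : Type*} (T : Finset κ) {Φ : κ → (Pair n ⊕ Pair n → ℝ) → ℝ}
    (h : ∀ i ∈ T, EG (Φ i)) :
    II k x t1 t2 (fun w => ∑ i ∈ T, Φ i w) = ∑ i ∈ T, II k x t1 t2 (Φ i) := by
  unfold II
  rw [← integral_finsetSum _ fun i hi => (eg_II (h i hi)).integrable]
  simp only [Finset.mul_sum]

lemma II_mono {Φ Ψ : (Pair n ⊕ Pair n → ℝ) → ℝ} (h : EG Φ) (h' : EG Ψ)
    (hle : ∀ w, Φ w ≤ Ψ w) : II k x t1 t2 Φ ≤ II k x t1 t2 Ψ := by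
  unfold II
  refine integral_mono (eg_II h).integrable (eg_II h').integrable fun w => ?_
  exact mul_le_mul_of_nonneg_left (hle w) (ND_pos t2 _).le

lemma II_nonneg {Φ : (Pair n ⊕ Pair n → ℝ) → ℝ} (h : ∀ w, 0 ≤ Φ w) : 0 ≤ II k x t1 t2 Φ :=
  integral_nonneg fun w => mul_nonneg (ND_pos t2 _).le (h w)

/-! ### growth facts -/

lemma eg_A1 (p q : Fin n) : EG fun w : Pair n ⊕ Pair n → ℝ => AA k x t1 (v1 t1 w) p q :=
  eg_v1 (eg_AA t1 p q) t1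

lemma eg_A2 (p q : Fin n) : EG fun w : Pair n ⊕ Pair n → ℝ => AA k x t2 (v2 t1 t2 w) p q :=
  eg_v2 (eg_AA t2 p q) t1 t2

lemma eg_B1 (p q : Fin n) : EG fun w : Pair n ⊕ Pair n → ℝ => BB k x b t1 (v1 t1 w) p q :=
  eg_v1 (eg_BB t1 p q) t1

lemma eg_B2 (p q : Fin n) : EG fun w : Pair n ⊕ Pair n → ℝ => BB k x b t2 (v2 t1 t2 w) p q :=
  eg_v2 (eg_BB t2 p q) t1 t2

lemma eg_U1 (p : Fin n) : EG fun w : Pair n ⊕ Pair n → ℝ => UU k x b t1 (v1 t1 w) p :=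
  eg_v1 (eg_AA t1 p b) t1

lemma eg_U2 (p : Fin n) : EG fun w : Pair n ⊕ Pair n → ℝ => UU k x b t2 (v2 t1 t2 w) p :=
  eg_v2 (eg_AA t2 p b) t1 t2

lemma eg_qv {ι : Type} [Fintype ι] {Y : (ι → ℝ) → Matrix (Fin n) (Fin n) ℝ}
    {U V : (ι → ℝ) → Fin n → ℝ} (hY : ∀ p q, EG fun w => Y w p q) (hU : ∀ p, EG fun w => U w p)
    (hV : ∀ p, EG fun w => V w p) : EG fun w => qv (Y w) (U w) (V w) := by
  unfold qv
  exact EG.sum _ fun p _ => EG.sum _ fun q _ => (hY p q).mul ((hU p).mul (hV q))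

lemma Fq_eq (d i j : Lvl (Pair n)) (Y : (Pair n ⊕ Pair n → ℝ) → Matrix (Fin n) (Fin n) ℝ)
    (s : ℝ) (w : Pair n ⊕ Pair n → ℝ) : Fq k x b d i j Y s w =
      Nm k x b d s w * qv (Y w) (VU k x b i s w) (VU k x b j s w) := by
  unfold Fq qv
  rw [Finset.mul_sum]
  refine Finset.sum_congr rfl fun p _ => ?_
  rw [Finset.mul_sum]
  exact Finset.sum_congr rfl fun q _ => by ring

lemma Fi_eq (d i : Lvl (Pair n)) (c : (Pair n ⊕ Pair n → ℝ) → ℝ)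
    (s : ℝ) (w : Pair n ⊕ Pair n → ℝ) : Fi k x b d i c s w =
      Nm k x b d s w * (c w * vn (VU k x b i s w)) := by
  unfold Fi vn
  rw [Finset.mul_sum, Finset.mul_sum]
  exact Finset.sum_congr rfl fun q _ => by ring

/-! ### independence -/

/-- independence of the shares `inr e`, `e` in the row -/
def IR (b : Fin n) (φ : (Pair n ⊕ Pair n → ℝ) → ℝ) : Prop :=
  ∀ e ∈ row b, ∀ w t, φ (Function.update w (Sum.inr e) t) = φ w

lemma ir_of {κ : Type*} {g : (Pair n ⊕ Pair n → ℝ) → κ} {φ : (Pair n ⊕ Pair n → ℝ) → ℝ}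
    (hg : ∀ e ∈ row b, ∀ w t, g (Function.update w (Sum.inr e) t) = g w) (f : κ → ℝ)
    (h : ∀ w, φ w = f (g w)) : IR b φ := by
  intro e he w t
  rw [h, h, hg e he]

/-- the data of the lower level and of the bulk of the upper level -/
lemma dat_ir (e : Pair n) (he : e ∈ row b) (w : Pair n ⊕ Pair n → ℝ) (t : ℝ) :
    (v1 t1 (Function.update w (Sum.inr e) t),
      KK b (v2 t1 t2 (Function.update w (Sum.inr e) t))) =
    (v1 t1 w, KK b (v2 t1 t2 w)) := by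
  rw [v1_inr, KK_v2_inr he]

lemma B2_eq (w : Pair n ⊕ Pair n → ℝ) :
    BB k x b t2 (v2 t1 t2 w) = BB k x b t2 (KK b (v2 t1 t2 w)) :=
  BB_congr (KK_KK _).symm

lemma B1_eq (w : Pair n ⊕ Pair n → ℝ) :
    BB k x b t1 (v1 t1 w) = BB k x b t1 (KK b (v1 t1 w)) :=
  BB_congr (KK_KK _).symm

section eqs

variable (h0 : 0 < t1) (h1 : t1 ≤ t2) (h2 : t2 ≤ 1)

/-- (A) -/
theorem eqA (hx : 0 ≤ x) (h0 : 0 ≤ t1) (h1 : t1 ≤ t2) (h2 : t2 ≤ 1) :
    ∫ w, Fq k x b (L2 n t1 t2) (L1 n t1) (L2 n t1 t2)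
        (fun w => M0 k x b (L1 n t1) w * M0 k x b (L2 n t1 t2) w) t1 w
          ∂(gI (Pair n ⊕ Pair n)) =
      II k x t1 t2 fun w => qv (BB k x b t1 (v1 t1 w) * BB k x b t2 (v2 t1 t2 w))
        (UU k x b t1 (v1 t1 w)) (UU k x b t2 (v2 t1 t2 w)) := by
  have ht1 : t1 ∈ Set.Icc (0 : ℝ) 1 := ⟨h0, h1.trans h2⟩
  have eM : ∀ p q, EG fun w : Pair n ⊕ Pair n → ℝ =>
      (BB k x b t1 (v1 t1 w) * BB k x b t2 (v2 t1 t2 w)) p q := eg_mulM eg_B1 eg_B2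
  have eφ : ∀ p q, EG fun w : Pair n ⊕ Pair n → ℝ =>
      (BB k x b t1 (v1 t1 w) * BB k x b t2 (v2 t1 t2 w)) p q * UU k x b t1 (v1 t1 w) p :=
    fun p q => (eM p q).mul (eg_U1 p)
  have eU : ∀ q, EG fun w : Pair n ⊕ Pair n → ℝ =>
      ND k x t2 (v2 t1 t2 w) * UU k x b t2 (v2 t1 t2 w) q :=
    fun q => (eg_v2 (eg_ND t2) t1 t2).mul (eg_U2 q)
  have eN : EG (Nm k x b (L2 n t1 t2) t1) := eg_N (row b) _ ht1
  have eV : ∀ q, EG fun w => VU k x b (L2 n t1 t2) t1 w q := fun q =>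
    eg_rl (row b) _ (ob_av k SkS x (pr q b)) hx ht1
  have e1 : ∀ w, Fq k x b (L2 n t1 t2) (L1 n t1) (L2 n t1 t2)
        (fun w => M0 k x b (L1 n t1) w * M0 k x b (L2 n t1 t2) w) t1 w =
      ∑ p, ∑ q, ((BB k x b t1 (v1 t1 w) * BB k x b t2 (v2 t1 t2 w)) p q *
        UU k x b t1 (v1 t1 w) p) *
          (Nm k x b (L2 n t1 t2) t1 w * VU k x b (L2 n t1 t2) t1 w q) := by
    intro w
    unfold Fq
    refine Finset.sum_congr rfl fun p _ => Finset.sum_congr rfl fun q _ => ?_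
    simp only [M0_L1, M0_L2, VU_L1]
    ring
  have e2 : ∀ w, ND k x t2 (v2 t1 t2 w) *
      qv (BB k x b t1 (v1 t1 w) * BB k x b t2 (v2 t1 t2 w))
        (UU k x b t1 (v1 t1 w)) (UU k x b t2 (v2 t1 t2 w)) =
      ∑ p, ∑ q, ((BB k x b t1 (v1 t1 w) * BB k x b t2 (v2 t1 t2 w)) p q *
        UU k x b t1 (v1 t1 w) p) *
          (ND k x t2 (v2 t1 t2 w) * UU k x b t2 (v2 t1 t2 w) q) := by
    intro w
    unfold qv
    rw [Finset.mul_sum]
    refine Finset.sum_congr rfl fun p _ => ?_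
    rw [Finset.mul_sum]
    exact Finset.sum_congr rfl fun q _ => by ring
  unfold II
  simp only [e1, e2]
  rw [integral_finsetSum _ fun p _ => (EG.sum _ fun q _ =>
      (eφ p q).mul (eN.mul (eV q))).integrable,
    integral_finsetSum _ fun p _ => (EG.sum _ fun q _ =>
      (eφ p q).mul (eU q)).integrable]
  refine Finset.sum_congr rfl fun p _ => ?_
  rw [integral_finsetSum _ fun q _ => ((eφ p q).mul (eN.mul (eV q))).integrable,
    integral_finsetSum _ fun q _ =>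
      ((eφ p q).mul (eU q)).integrable]
  refine Finset.sum_congr rfl fun q _ => ?_
  have hI : IR b fun w : Pair n ⊕ Pair n → ℝ =>
      (BB k x b t1 (v1 t1 w) * BB k x b t2 (v2 t1 t2 w)) p q * UU k x b t1 (v1 t1 w) p := by
    refine ir_of (g := fun w => (v1 t1 w, KK b (v2 t1 t2 w))) dat_ir
      (fun g => (BB k x b t1 g.1 * BB k x b t2 g.2) p q * UU k x b t1 g.1 p) fun w => ?_
    simp only
    rw [B2_eq (t1 := t1) w]
  exact (start1 (b := b) h0 h1 h2 (F := av k SkS (pr q b)) (eg_av k SkS _) (eφ p q) hI).symm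

/-- (B), (G1) -/
lemma eqN (h0 : 0 ≤ t1) (h1 : t1 ≤ t2) (h2 : t2 ≤ 1) {Φ : (Pair n ⊕ Pair n → ℝ) → ℝ}
    (hΦ : EG Φ) (hI : IR b Φ) :
    ∫ w, Nm k x b (L2 n t1 t2) t1 w * Φ w ∂(gI (Pair n ⊕ Pair n)) = II k x t1 t2 Φ := by
  have h := start1_one (k := k) (x := x) (b := b) h0 h1 h2 hΦ hI
  unfold II
  calc _ = ∫ w, Φ w * Nm k x b (L2 n t1 t2) t1 w ∂(gI (Pair n ⊕ Pair n)) := by
        congr 1
        funext w
        ring
    _ = _ := by
        rw [← h]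
        congr 1
        funext w
        ring

/-- (B) -/
theorem eqB (h0 : 0 ≤ t1) (h1 : t1 ≤ t2) (h2 : t2 ≤ 1) :
    ∫ w, Fq k x b (L2 n t1 t2) (L1 n t1) (L1 n t1)
        (fun w => M0 k x b (L2 n t1 t2) w * M0 k x b (L2 n t1 t2) w) t1 w
          ∂(gI (Pair n ⊕ Pair n)) =
      II k x t1 t2 fun w => qv (BB k x b t2 (v2 t1 t2 w) * BB k x b t2 (v2 t1 t2 w))
        (UU k x b t1 (v1 t1 w)) (UU k x b t1 (v1 t1 w)) := by
  have e1 : ∀ w, Fq k x b (L2 n t1 t2) (L1 n t1) (L1 n t1)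
        (fun w => M0 k x b (L2 n t1 t2) w * M0 k x b (L2 n t1 t2) w) t1 w =
      Nm k x b (L2 n t1 t2) t1 w * qv (BB k x b t2 (v2 t1 t2 w) * BB k x b t2 (v2 t1 t2 w))
        (UU k x b t1 (v1 t1 w)) (UU k x b t1 (v1 t1 w)) := by
    intro w
    rw [Fq_eq, M0_L2, VU_L1]
  simp only [e1]
  refine eqN h0 h1 h2 (eg_qv (eg_mulM eg_B2 eg_B2) (fun p => eg_A1 p b) fun p => eg_A1 p b) ?_
  refine ir_of (g := fun w => (v1 t1 w, KK b (v2 t1 t2 w))) dat_ir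
    (fun g => qv (BB k x b t2 g.2 * BB k x b t2 g.2) (UU k x b t1 g.1) (UU k x b t1 g.1))
      fun w => ?_
  simp only
  rw [B2_eq (t1 := t1) w]

/-- (G1) -/
theorem eqG1 (h0 : 0 ≤ t1) (h1 : t1 ≤ t2) (h2 : t2 ≤ 1) :
    (∫ w, Fi k x b (L2 n t1 t2) (L1 n t1) (fun w => fr (M0 k x b (L1 n t1) w)) t1 w
        ∂(gI (Pair n ⊕ Pair n))) -
      ∫ w, Fq k x b (L2 n t1 t2) (L1 n t1) (L1 n t1)
        (fun w => M0 k x b (L1 n t1) w * M0 k x b (L1 n t1) w) t1 w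
          ∂(gI (Pair n ⊕ Pair n)) =
      II k x t1 t2 fun w => fr (BB k x b t1 (v1 t1 w)) * vn (UU k x b t1 (v1 t1 w)) -
        qv (BB k x b t1 (v1 t1 w) * BB k x b t1 (v1 t1 w))
          (UU k x b t1 (v1 t1 w)) (UU k x b t1 (v1 t1 w)) := by
  have ht1 : t1 ∈ Set.Icc (0 : ℝ) 1 := ⟨h0, h1.trans h2⟩
  have eN : EG (Nm k x b (L2 n t1 t2) t1) := eg_N (row b) _ ht1
  have eX : EG fun w : Pair n ⊕ Pair n → ℝ =>
      fr (BB k x b t1 (v1 t1 w)) * vn (UU k x b t1 (v1 t1 w)) :=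
    (eg_frM eg_B1).mul (EG.sum _ fun p _ => (eg_A1 p b).pow 2)
  have eY : EG fun w : Pair n ⊕ Pair n → ℝ =>
      qv (BB k x b t1 (v1 t1 w) * BB k x b t1 (v1 t1 w))
          (UU k x b t1 (v1 t1 w)) (UU k x b t1 (v1 t1 w)) :=
    eg_qv (eg_mulM eg_B1 eg_B1) (fun p => eg_A1 p b) fun p => eg_A1 p b
  have e1 : ∀ w, Fi k x b (L2 n t1 t2) (L1 n t1) (fun w => fr (M0 k x b (L1 n t1) w)) t1 w =
      Nm k x b (L2 n t1 t2) t1 w *
        (fr (BB k x b t1 (v1 t1 w)) * vn (UU k x b t1 (v1 t1 w))) := by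
    intro w
    rw [Fi_eq, M0_L1, VU_L1]
  have e2 : ∀ w, Fq k x b (L2 n t1 t2) (L1 n t1) (L1 n t1)
        (fun w => M0 k x b (L1 n t1) w * M0 k x b (L1 n t1) w) t1 w =
      Nm k x b (L2 n t1 t2) t1 w * qv (BB k x b t1 (v1 t1 w) * BB k x b t1 (v1 t1 w))
        (UU k x b t1 (v1 t1 w)) (UU k x b t1 (v1 t1 w)) := by
    intro w
    rw [Fq_eq, M0_L1, VU_L1]
  simp only [e1, e2]
  rw [← integral_sub (eN.mul eX).integrable (eN.mul eY).integrable]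
  simp only [← mul_sub]
  refine eqN h0 h1 h2 (eX.sub eY) ?_
  intro e _ w t
  simp only [v1_inr]

/-- (C) -/
theorem eqC (h0 : 0 ≤ t1) (h1 : t1 ≤ t2) (h2 : t2 ≤ 1) :
    ∫ w, Fq k x b (L2 n t1 t2) (L2 n t1 t2) (L2 n t1 t2)
        (fun w => M0 k x b (L1 n t1) w * M0 k x b (L1 n t1) w) t2 w
          ∂(gI (Pair n ⊕ Pair n)) =
      II k x t1 t2 fun w => qv (BB k x b t1 (v1 t1 w) * BB k x b t1 (v1 t1 w))
        (UU k x b t2 (v2 t1 t2 w)) (UU k x b t2 (v2 t1 t2 w)) := by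
  have eM : ∀ p q, EG fun w : Pair n ⊕ Pair n → ℝ =>
      (BB k x b t1 (v1 t1 w) * BB k x b t1 (v1 t1 w)) p q := eg_mulM eg_B1 eg_B1
  have eG : ∀ p q, EG fun v : Pair n → ℝ =>
      ND k x t2 v * (UU k x b t2 v p * UU k x b t2 v q) := fun p q =>
    (eg_ND t2).mul ((eg_AA t2 p b).mul (eg_AA t2 q b))
  have ht2 : t2 ∈ Set.Icc (0 : ℝ) 1 := ⟨h0.trans h1, h2⟩
  have e1 : ∀ w, Fq k x b (L2 n t1 t2) (L2 n t1 t2) (L2 n t1 t2)
        (fun w => M0 k x b (L1 n t1) w * M0 k x b (L1 n t1) w) t2 w =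
      ∑ p, ∑ q, (BB k x b t1 (v1 t1 w) * BB k x b t1 (v1 t1 w)) p q *
        (fun v => ND k x t2 v * (UU k x b t2 v p * UU k x b t2 v q))
          (u (row b) (L2 n t1 t2).a (L2 n t1 t2).b t2 w) := by
    intro w
    unfold Fq
    refine Finset.sum_congr rfl fun p _ => Finset.sum_congr rfl fun q _ => ?_
    simp only [M0_L1, VU_L2, Nm_L2]
  have e2 : ∀ w, ND k x t2 (v2 t1 t2 w) *
      qv (BB k x b t1 (v1 t1 w) * BB k x b t1 (v1 t1 w))
        (UU k x b t2 (v2 t1 t2 w)) (UU k x b t2 (v2 t1 t2 w)) =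
      ∑ p, ∑ q, (BB k x b t1 (v1 t1 w) * BB k x b t1 (v1 t1 w)) p q *
        (fun v => ND k x t2 v * (UU k x b t2 v p * UU k x b t2 v q)) (v2 t1 t2 w) := by
    intro w
    unfold qv
    rw [Finset.mul_sum]
    refine Finset.sum_congr rfl fun p _ => ?_
    rw [Finset.mul_sum]
    exact Finset.sum_congr rfl fun q _ => by ring
  have eGu : ∀ p q, EG fun w : Pair n ⊕ Pair n → ℝ =>
      (fun v => ND k x t2 v * (UU k x b t2 v p * UU k x b t2 v q))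
          (u (row b) (L2 n t1 t2).a (L2 n t1 t2).b t2 w) := fun p q => eg_u (eG p q) ht2
  have eGv : ∀ p q, EG fun w : Pair n ⊕ Pair n → ℝ =>
      (fun v => ND k x t2 v * (UU k x b t2 v p * UU k x b t2 v q))
          (v2 t1 t2 w) := fun p q => eg_v2 (eG p q) t1 t2
  unfold II
  simp only [e1, e2]
  rw [integral_finsetSum _ fun p _ => (EG.sum _ fun q _ => (eM p q).mul (eGu p q)).integrable,
    integral_finsetSum _ fun p _ => (EG.sum _ fun q _ => (eM p q).mul (eGv p q)).integrable]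
  refine Finset.sum_congr rfl fun p _ => ?_
  rw [integral_finsetSum _ fun q _ => ((eM p q).mul (eGu p q)).integrable,
    integral_finsetSum _ fun q _ => ((eM p q).mul (eGv p q)).integrable]
  refine Finset.sum_congr rfl fun q _ => ?_
  refine (start2 (b := b) h0 h1 h2 (eG p q) (eM p q) ?_ ?_).symm
  · intro e he w t
    rw [B1_eq (Function.update w (Sum.inl e) t), KK_v1_inl he, ← B1_eq]
  · intro e he w t
    rw [v1_inr]

/-- (G2) -/
theorem eqG2 (h0 : 0 ≤ t1) (h1 : t1 ≤ t2) (h2 : t2 ≤ 1) :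
    ∫ w, Nm k x b (L2 n t1 t2) t2 w *
        (fr (M0 k x b (L2 n t1 t2) w) * vn (VU k x b (L2 n t1 t2) t2 w) -
          qv (M0 k x b (L2 n t1 t2) w * M0 k x b (L2 n t1 t2) w)
            (VU k x b (L2 n t1 t2) t2 w) (VU k x b (L2 n t1 t2) t2 w))
          ∂(gI (Pair n ⊕ Pair n)) =
      II k x t1 t2 fun w => fr (BB k x b t2 (v2 t1 t2 w)) * vn (UU k x b t2 (v2 t1 t2 w)) -
        qv (BB k x b t2 (v2 t1 t2 w) * BB k x b t2 (v2 t1 t2 w))
          (UU k x b t2 (v2 t1 t2 w)) (UU k x b t2 (v2 t1 t2 w)) := by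
  have eG : EG fun v : Pair n → ℝ => ND k x t2 v *
      (fr (BB k x b t2 v) * vn (UU k x b t2 v) -
        qv (BB k x b t2 v * BB k x b t2 v) (UU k x b t2 v) (UU k x b t2 v)) :=
    (eg_ND t2).mul (((eg_frM (eg_BB t2)).mul (EG.sum _ fun p _ => (eg_AA t2 p b).pow 2)).sub
      (eg_qv (eg_mulM (eg_BB t2) (eg_BB t2)) (fun p => eg_AA t2 p b) fun p => eg_AA t2 p b))
  have h := start2_one h0 h1 h2 eG b
  unfold II
  rw [h]
  refine integral_congr_ae (Filter.Eventually.of_forall fun w => ?_)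
  simp only
  rw [M0_L2' t1 t2 t2 w, VU_L2, Nm_L2]

end eqs

end Vale.Agent.P146.H325
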