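import Vale.Agent.P146.H325.Row

/-!
Linearity, positivity and Jensen's inequality for the conditional expectations `rl`.
-/

open MeasureTheory ProbabilityTheory

namespace Vale.Agent.P146.H325

open Vale.Agent.P157.Lv Vale.Agent.P146.H425 Vale.Agent.P146.H332

set_option linter.unusedSectionVars false

variable {ι : Type} [Fintype ι] [DecidableEq ι] {X : Type} [Fintype X] [Nonempty X]

variable {k : ℝ} {S : ι → X → ℝ} {x : ℝ} {A0 : Finset ι} {l : Lvl ι} {F G : (ι → ℝ) → ℝ}
  {s : ℝ} {w : ι ⊕ ι → ℝ}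

lemma Nl_add (hF : EG fun u => Zx k S x u * F u) (hG : EG fun u => Zx k S x u * G u) :
    Nl k S x A0 l (fun u => F u + G u) s w = Nl k S x A0 l F s w + Nl k S x A0 l G s w := by
  unfold Nl P
  rw [← integral_add (int_pt A0 hF l s w) (int_pt A0 hG l s w)]
  simp only [mul_add]

lemma Nl_const_mul (c : ℝ) :
    Nl k S x A0 l (fun u => c * F u) s w = c * Nl k S x A0 l F s w := by
  unfold Nl P
  rw [← integral_const_mul]
  congr 1
  funext z
  ring

lemma rl_add (hF : EG fun u => Zx k S x u * F u) (hG : EG fun u => Zx k S x u * G u) :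
    rl k S x A0 l (fun u => F u + G u) s w = rl k S x A0 l F s w + rl k S x A0 l G s w := by
  unfold rl
  rw [Nl_add hF hG, add_div]

lemma rl_const_mul (c : ℝ) :
    rl k S x A0 l (fun u => c * F u) s w = c * rl k S x A0 l F s w := by
  unfold rl
  rw [Nl_const_mul, mul_div_assoc]

lemma rl_one : rl k S x A0 l (fun _ => 1) s w = 1 := by
  unfold rl
  exact div_self (N1_pos k S x A0 l s w).ne'

lemma rl_const (c : ℝ) : rl k S x A0 l (fun _ => c) s w = c := by
  have h := rl_const_mul (k := k) (S := S) (x := x) (A0 := A0) (l := l) (F := fun _ => 1)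
    (s := s) (w := w) c
  rw [rl_one] at h
  simpa using h

lemma rl_sub (hF : EG fun u => Zx k S x u * F u) (hG : EG fun u => Zx k S x u * G u) :
    rl k S x A0 l (fun u => F u - G u) s w = rl k S x A0 l F s w - rl k S x A0 l G s w := by
  have h1 : EG fun u => Zx k S x u * (-1 * G u) := by
    have := hG.const_mul (-1)
    have e : (fun u => Zx k S x u * (-1 * G u)) = fun u => -1 * (Zx k S x u * G u) := by
      funext u; ring
    rw [e]
    exact this
  have h2 := rl_add (A0 := A0) (l := l) (s := s) (w := w) hF h1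
  rw [rl_const_mul] at h2
  have e : (fun u => F u + -1 * G u) = fun u => F u - G u := by funext u; ring
  rw [e] at h2
  rw [h2]
  ring

lemma ezero : EG fun u => Zx k S x u * (0 : ℝ) := by
  simp only [mul_zero]
  exact EG.const 0

lemma esum {κ : Type*} (t : Finset κ) {F : κ → (ι → ℝ) → ℝ}
    (hF : ∀ i ∈ t, EG fun u => Zx k S x u * F i u) :
    EG fun u => Zx k S x u * ∑ i ∈ t, F i u := by
  simp only [Finset.mul_sum]
  exact EG.sum t hF

lemma rl_sum {κ : Type*} (t : Finset κ) {F : κ → (ι → ℝ) → ℝ}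
    (hF : ∀ i ∈ t, EG fun u => Zx k S x u * F i u) :
    rl k S x A0 l (fun u => ∑ i ∈ t, F i u) s w = ∑ i ∈ t, rl k S x A0 l (F i) s w := by
  classical
  induction t using Finset.induction_on with
  | empty => simpa using rl_const (0 : ℝ)
  | insert a t ha ih =>
    simp only [Finset.sum_insert ha]
    have h1 := hF a (Finset.mem_insert_self a t)
    have h2 : ∀ i ∈ t, EG fun u => Zx k S x u * F i u :=
      fun i hi => hF i (Finset.mem_insert_of_mem hi)
    rw [rl_add h1 (esum t h2), ih h2]

lemma rl_mono (hF : EG fun u => Zx k S x u * F u) (hG : EG fun u => Zx k S x u * G u)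
    (h : ∀ u, F u ≤ G u) : rl k S x A0 l F s w ≤ rl k S x A0 l G s w := by
  unfold rl
  refine div_le_div_of_nonneg_right ?_ (N1_pos k S x A0 l s w).le
  unfold Nl P
  refine integral_mono (int_pt A0 hF l s w) (int_pt A0 hG l s w) fun z => ?_
  exact mul_le_mul_of_nonneg_left (h _) (Zx_pos k S x _).le

lemma rl_nonneg (hF : EG fun u => Zx k S x u * F u) (h : ∀ u, 0 ≤ F u) :
    0 ≤ rl k S x A0 l F s w := by
  have := rl_mono (A0 := A0) (l := l) (s := s) (w := w) (F := fun _ => 0)
    (by simpa using (EG.const (ι := ι) 0)) hF h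
  rwa [rl_const] at this

/-- an observable of bounded averages -/
lemma ebd {F : (ι → ℝ) → ℝ} (hF : EG F) : EG fun u => Zx k S x u * F u := (eg_Zx k S x).mul hF

/-- Jensen's inequality -/
lemma rl_sq_le (hF : EG F) :
    rl k S x A0 l F s w ^ 2 ≤ rl k S x A0 l (fun u => F u ^ 2) s w := by
  set m := rl k S x A0 l F s w with hm
  have h1 : 0 ≤ rl k S x A0 l (fun u => (F u - m) ^ 2) s w :=
    rl_nonneg (ebd ((hF.sub (EG.const m)).pow 2)) fun u => sq_nonneg _
  have e : (fun u => (F u - m) ^ 2) = fun u => (F u ^ 2 - (2 * m) * F u) + m ^ 2 := by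
    funext u; ring
  rw [e, rl_add (F := fun u => F u ^ 2 - (2 * m) * F u) (G := fun _ => m ^ 2)
    (ebd ((hF.pow 2).sub (hF.const_mul _))) (ebd (EG.const _)),
    rl_sub (F := fun u => F u ^ 2) (G := fun u => (2 * m) * F u)
    (ebd (hF.pow 2)) (ebd (hF.const_mul _)), rl_const_mul, rl_const, ← hm] at h1
  nlinarith

lemma abs_rl_le (hF : EG F) {C : ℝ} (h : ∀ u, |F u| ≤ C) : |rl k S x A0 l F s w| ≤ C := by
  rw [abs_le]
  constructor
  · have := rl_mono (A0 := A0) (l := l) (s := s) (w := w) (F := fun _ => -C) (G := F)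
      (ebd (k := k) (S := S) (x := x) (EG.const _)) (ebd hF) fun u => (abs_le.1 (h u)).1
    rwa [rl_const] at this
  · have := rl_mono (A0 := A0) (l := l) (s := s) (w := w) (F := F) (G := fun _ => C)
      (ebd (k := k) (S := S) (x := x) hF) (ebd (EG.const _)) fun u => (abs_le.1 (h u)).2
    rwa [rl_const] at this

end Vale.Agent.P146.H325
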