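import Vale.Agent.P146.H325.Row
import Vale.Agent.P146.Defs

/-!
The couplings and spins of the SK model: rows, row gradients of the vectors
`U_j = r(⟨σ_j σ_b⟩)`.
-/

open MeasureTheory ProbabilityTheory

namespace Vale.Agent.P146.H325

open Vale.Agent.P157.Lv Vale.Agent.P146.H425 Vale.Agent.P146.H332

set_option linter.unusedSectionVars false

variable {n : ℕ}

/-- real spins -/
def sp (σ : Fin n → ℤˣ) (i : Fin n) : ℝ := ((σ i : ℤ) : ℝ)

lemma sp_mul_self (σ : Fin n → ℤˣ) (i : Fin n) : sp σ i * sp σ i = 1 := by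
  unfold sp
  rcases Int.units_eq_one_or (σ i) with h | h <;> simp [h]

lemma sp_sq (σ : Fin n → ℤˣ) (i : Fin n) : sp σ i ^ 2 = 1 := by
  rw [sq]; exact sp_mul_self σ i

lemma abs_sp (σ : Fin n → ℤˣ) (i : Fin n) : |sp σ i| = 1 := by
  unfold sp
  rcases Int.units_eq_one_or (σ i) with h | h <;> simp [h]

/-- the interaction `σ_i σ_j` of a coupling -/
def SkS (e : Pair n) (σ : Fin n → ℤˣ) : ℝ := sp σ e.1.1 * sp σ e.1.2

/-- the product of two spins -/
def pr (i j : Fin n) (σ : Fin n → ℤˣ) : ℝ := sp σ i * sp σ j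

lemma pr_comm (i j : Fin n) : pr i j = pr j i := by
  funext σ; exact mul_comm _ _

lemma pr_self (i : Fin n) : pr i i = fun _ => (1 : ℝ) := by
  funext σ; exact sp_mul_self σ i

lemma abs_pr (i j : Fin n) (σ : Fin n → ℤˣ) : |pr i j σ| = 1 := by
  unfold pr
  rw [abs_mul, abs_sp, abs_sp, one_mul]

/-- the couplings of the site `b` -/
def row (b : Fin n) : Finset (Pair n) := Finset.univ.filter fun e => e.1.1 = b ∨ e.1.2 = b

/-- the other end of a coupling of the site `b` -/
def oth (b : Fin n) (e : Pair n) : Fin n := if e.1.1 = b then e.1.2 else e.1.1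

lemma mem_row {b : Fin n} {e : Pair n} : e ∈ row b ↔ e.1.1 = b ∨ e.1.2 = b := by
  simp [row]

lemma oth_ne {b : Fin n} {e : Pair n} (_he : e ∈ row b) : oth b e ≠ b := by
  unfold oth
  have h := e.2
  split_ifs with h1
  · rw [← h1]; exact h.ne'
  · exact h1

lemma SkS_oth {b : Fin n} {e : Pair n} (he : e ∈ row b) : SkS e = pr b (oth b e) := by
  funext σ
  unfold SkS pr oth
  rw [mem_row] at he
  split_ifs with h1
  · rw [h1]
  · have h2 : e.1.2 = b := he.resolve_left h1
    rw [h2, mul_comm]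

lemma pr_mul_row {b : Fin n} {e : Pair n} (he : e ∈ row b) (j : Fin n) :
    (fun σ => pr j b σ * SkS e σ) = pr j (oth b e) := by
  funext σ
  rw [SkS_oth he]
  unfold pr
  have := sp_mul_self σ b
  linear_combination sp σ j * sp σ (oth b e) * this

/-- the coupling between two different sites -/
def cp (b l : Fin n) (h : l ≠ b) : Pair n :=
  if h1 : b < l then ⟨(b, l), h1⟩ else ⟨(l, b), lt_of_le_of_ne (not_lt.1 h1) h⟩

lemma cp_mem (b l : Fin n) (h : l ≠ b) : cp b l h ∈ row b := by
  rw [mem_row]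
  unfold cp
  split_ifs <;> simp

lemma oth_cp (b l : Fin n) (h : l ≠ b) : oth b (cp b l h) = l := by
  unfold oth cp
  split_ifs with h1 h2 <;> simp_all

lemma cp_oth {b : Fin n} {e : Pair n} (he : e ∈ row b) : cp b (oth b e) (oth_ne he) = e := by
  have h := e.2
  rw [mem_row] at he
  unfold cp oth
  rcases he with h1 | h1
  · subst h1
    simp only [if_true]
    rw [dif_pos h]
  · subst h1
    have h2 : e.1.1 ≠ e.1.2 := h.ne
    simp only [if_neg h2]
    rw [dif_neg (not_lt.2 h.le)]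

/-- sums over a row -/
lemma sum_row (b : Fin n) (G : Fin n → ℝ) :
    ∑ e ∈ row b, G (oth b e) = ∑ l ∈ Finset.univ.erase b, G l := by
  refine Finset.sum_bij' (fun e _ => oth b e)
    (fun l hl => cp b l (Finset.ne_of_mem_erase hl)) ?_ ?_ ?_ ?_ ?_
  · intro e he
    exact Finset.mem_erase.2 ⟨oth_ne he, Finset.mem_univ _⟩
  · intro l hl
    exact cp_mem b l _
  · intro e he
    exact cp_oth he
  · intro l hl
    exact oth_cp b l _
  · intro e he
    rfl

lemma sum_row_all (b : Fin n) {G : Fin n → ℝ} (h : G b = 0) :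
    ∑ e ∈ row b, G (oth b e) = ∑ l, G l := by
  rw [sum_row, ← Finset.add_sum_erase _ _ (Finset.mem_univ b), h, zero_add]

/-- each coupling is in two rows -/
lemma sum_rows (G : Pair n → ℝ) : ∑ b, ∑ e ∈ row b, G e = 2 * ∑ e, G e := by
  have h1 : ∀ b, ∑ e ∈ row b, G e = ∑ e, ((if e.1.1 = b then G e else 0) +
      (if e.1.2 = b then G e else 0)) := by
    intro b
    unfold row
    rw [Finset.sum_filter]
    refine Finset.sum_congr rfl fun e _ => ?_
    have h := e.2
    by_cases h1 : e.1.1 = b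
    · have h2 : e.1.2 ≠ b := by rw [← h1]; exact h.ne'
      simp [h1, h2]
    · simp [h1]
  simp_rw [h1]
  rw [Finset.sum_comm, Finset.mul_sum]
  refine Finset.sum_congr rfl fun e _ => ?_
  rw [Finset.sum_add_distrib, Finset.sum_ite_eq, Finset.sum_ite_eq]
  simp only [Finset.mem_univ, if_true]
  ring

section grad

variable (k x : ℝ) (b : Fin n)

/-- the system: couplings of `b` active -/
noncomputable abbrev rS (l : Lvl (Pair n)) (F : (Pair n → ℝ) → ℝ) (s : ℝ)
    (w : Pair n ⊕ Pair n → ℝ) : ℝ := rl k SkS x (row b) l F s w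

/-- the conditional expectation of `⟨σ_i σ_j⟩` -/
noncomputable def Cm (l : Lvl (Pair n)) (i j : Fin n) (s : ℝ) (w : Pair n ⊕ Pair n → ℝ) : ℝ :=
  rS k x b l (av k SkS (pr i j)) s w

/-- the density -/
noncomputable def Nm (l : Lvl (Pair n)) (s : ℝ) (w : Pair n ⊕ Pair n → ℝ) : ℝ :=
  Nl k SkS x (row b) l (fun _ => 1) s w

/-- the product of the averages in the row -/
noncomputable def Em (l : Lvl (Pair n)) (i j : Fin n) (s : ℝ) (w : Pair n ⊕ Pair n → ℝ) : ℝ :=
  rS k x b l (fun u => av k SkS (pr i b) u * av k SkS (pr j b) u) s w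

/-- the gradient of `U_i = Cm i b` in the row (divided by `k`) -/
noncomputable def Hm (l : Lvl (Pair n)) (i j : Fin n) (s : ℝ) (w : Pair n ⊕ Pair n → ℝ) : ℝ :=
  Cm k x b l i j s w - (1 - x) * Em k x b l i j s w -
    x * (Cm k x b l i b s w * Cm k x b l j b s w)

end grad

end Vale.Agent.P146.H325
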