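import Vale.Agent.P146.H325.Flip
import Vale.Agent.P146.H332.Touch

/-!
Conditional expectations as functions of the position, levels `L1`, `L2`, conversions between the
row representation and the full representation.
-/

open MeasureTheory ProbabilityTheory

namespace Vale.Agent.P146.H325

open Vale.Agent.P157.Lv Vale.Agent.P146.H425 Vale.Agent.P146.H332 Matrix

set_option linter.unusedSectionVars false

section gen

variable {ι : Type} [Fintype ι] [DecidableEq ι] {X : Type} [Fintype X] [Nonempty X]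

/-- Gaussian smoothing with the standard deviations `c`. -/
noncomputable def PP (c : ι → ℝ) (F : (ι → ℝ) → ℝ) (v : ι → ℝ) : ℝ :=
  ∫ z, F (fun e => v e + c e * z e) ∂(gI ι)

lemma eg_PP {F : (ι → ℝ) → ℝ} (hF : EG F) (c : ι → ℝ) : EG (PP c F) := by
  obtain ⟨C, k, hC, hk, hb⟩ := hF.bdd
  have hA0 : 0 ≤ ∫ z : ι → ℝ, Real.exp (k * bK c * ‖z‖) ∂(gI ι) :=
    integral_nonneg fun w => (Real.exp_pos _).le
  refine ⟨?_, C * ∫ z : ι → ℝ, Real.exp (k * bK c * ‖z‖) ∂(gI ι), k, mul_nonneg hC hA0, hk,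
    fun u => ?_⟩
  · have : StronglyMeasurable (Function.uncurry fun (u z : ι → ℝ) =>
        F (fun e => u e + c e * z e)) := by
      refine Measurable.stronglyMeasurable ?_
      exact hF.meas.comp (by fun_prop)
    exact this.integral_prod_right.measurable
  · have h1 : |PP c F u| ≤ ∫ z, |F (fun e => u e + c e * z e)| ∂(gI ι) := by
      rw [← Real.norm_eq_abs]
      exact (norm_integral_le_integral_norm _)
    refine h1.trans ?_
    have h2 : ∫ z, |F (fun e => u e + c e * z e)| ∂(gI ι) ≤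
        ∫ z, C * Real.exp (k * ‖u‖) * Real.exp (k * bK c * ‖z‖) ∂(gI ι) := by
      refine integral_mono (EG.integrable_aff hF.abs u c) ((integrable_exp_norm _).const_mul _)
        fun z => ?_
      refine (hb _).trans ?_
      rw [mul_assoc, ← Real.exp_add]
      gcongr
      have h3 := norm_aff_le u c z (le_bK c)
      nlinarith [mul_le_mul_of_nonneg_left h3 hk]
    refine h2.trans (le_of_eq ?_)
    rw [integral_const_mul]
    ring

/-- the noise of a level -/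
noncomputable def nz (A0 : Finset ι) (c : ι → ℝ) (s : ℝ) : ι → ℝ :=
  fun e => if e ∈ A0 then √(1 - s) else c e

lemma P_eq (A0 : Finset ι) (a b c : ι → ℝ) (F : (ι → ℝ) → ℝ) (s : ℝ) (w : ι ⊕ ι → ℝ) :
    P A0 a b c F s w = PP (nz A0 c s) F (u A0 a b s w) := rfl

variable (k : ℝ) (S : ι → X → ℝ) (x : ℝ)

/-- the density as a function of the position -/
noncomputable def DD (c : ι → ℝ) (v : ι → ℝ) : ℝ := PP c (fun u => Zx k S x u * 1) v

/-- conditional expectation as a function of the position -/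
noncomputable def RR (c : ι → ℝ) (F : (ι → ℝ) → ℝ) (v : ι → ℝ) : ℝ :=
  PP c (fun u => Zx k S x u * F u) v / DD k S x c v

lemma rl_eq (A0 : Finset ι) (l : Lvl ι) (F : (ι → ℝ) → ℝ) (s : ℝ) (w : ι ⊕ ι → ℝ) :
    rl k S x A0 l F s w = RR k S x (nz A0 l.c s) F (u A0 l.a l.b s w) := rfl

lemma Nl_eq (A0 : Finset ι) (l : Lvl ι) (s : ℝ) (w : ι ⊕ ι → ℝ) :
    Nl k S x A0 l (fun _ => 1) s w = DD k S x (nz A0 l.c s) (u A0 l.a l.b s w) := rfl

lemma eg_DD (c : ι → ℝ) : EG (DD k S x c) := eg_PP (ob_one k S x).eg c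

lemma DD_pos (c v : ι → ℝ) : 0 < DD k S x c v := by
  have h := N1_pos k S x (∅ : Finset ι) ⟨fun _ => 1, 0, c⟩ 0 (Sum.elim v 0)
  have e : Nl k S x (∅ : Finset ι) ⟨fun _ => 1, 0, c⟩ (fun _ => 1) 0 (Sum.elim v 0) =
      DD k S x c v := by
    rw [Nl_eq]
    have e1 : nz (∅ : Finset ι) c 0 = c := by funext e; simp [nz]
    have e2 : u (∅ : Finset ι) (fun _ => 1) 0 0 (Sum.elim v 0) = v := by funext e; simp [u]
    rw [e1, e2]
  rwa [e] at h

lemma abs_RR_le {F : (ι → ℝ) → ℝ} (hF : EG F) {C : ℝ} (h : ∀ u, |F u| ≤ C) (c v : ι → ℝ) :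
    |RR k S x c F v| ≤ C := by
  have h1 := abs_rl_le (k := k) (S := S) (x := x) (A0 := (∅ : Finset ι))
    (l := ⟨fun _ => 1, 0, c⟩) (s := 0) (w := Sum.elim v 0) hF h
  rw [rl_eq] at h1
  have e1 : nz (∅ : Finset ι) c 0 = c := by funext e; simp [nz]
  have e2 : u (∅ : Finset ι) (fun _ => 1) 0 0 (Sum.elim v 0) = v := by funext e; simp [u]
  rwa [e1, e2] at h1

lemma meas_RR {F : (ι → ℝ) → ℝ} (hF : EG F) (c : ι → ℝ) : Measurable (RR k S x c F) :=
  (eg_PP (ebd hF) c).meas.div (eg_DD k S x c).meas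

end gen

section sk

variable {n : ℕ} (k x : ℝ) (b : Fin n)

/-- kill the row coordinates -/
noncomputable def KK (v : Pair n → ℝ) : Pair n → ℝ := fun e => if e ∈ row b then 0 else v e

/-- the noise of the full level -/
noncomputable def cf (t : ℝ) : Pair n → ℝ := fun _ => √(1 - t)

/-- the noise with the row unshared -/
noncomputable def cb (t : ℝ) : Pair n → ℝ := fun e => if e ∈ row b then 1 else √(1 - t)

/-- the full matrix as a function of the position -/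
noncomputable def AA (t : ℝ) (v : Pair n → ℝ) : Matrix (Fin n) (Fin n) ℝ :=
  fun p q => RR k SkS x (cf t) (av k SkS (pr p q)) v

/-- the bulk matrix as a function of the position -/
noncomputable def BB (t : ℝ) (v : Pair n → ℝ) : Matrix (Fin n) (Fin n) ℝ :=
  fun p q => RR k SkS x (cb b t) (av k SkS (pr p q)) (KK b v)

/-- the density of the full level as a function of the position -/
noncomputable def ND (t : ℝ) (v : Pair n → ℝ) : ℝ := DD k (SkS (n := n)) x (cf t) v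

/-- the full columns -/
noncomputable def UU (t : ℝ) (v : Pair n → ℝ) : Fin n → ℝ := fun p => AA k x t v p b

variable {k x b}

lemma eg_ND (t : ℝ) : EG (ND (n := n) k x t) := eg_DD k SkS x _

lemma ND_pos (t : ℝ) (v : Pair n → ℝ) : 0 < ND k x t v := DD_pos k SkS x _ v

lemma abs_av_pr (p q : Fin n) (u : Pair n → ℝ) : |av k SkS (pr p q) u| ≤ 1 :=
  abs_av_le k SkS (fun σ => (abs_pr p q σ).le) u

lemma abs_AA (t : ℝ) (v : Pair n → ℝ) (p q : Fin n) : |AA k x t v p q| ≤ 1 :=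
  abs_RR_le k SkS x (eg_av k SkS _) (abs_av_pr p q) _ _

lemma abs_BB (t : ℝ) (v : Pair n → ℝ) (p q : Fin n) : |BB k x b t v p q| ≤ 1 :=
  abs_RR_le k SkS x (eg_av k SkS _) (abs_av_pr p q) _ _

lemma eg_AA (t : ℝ) (p q : Fin n) : EG fun v => AA k x t v p q :=
  EG.of_bdd (meas_RR k SkS x (eg_av k SkS _) _) fun v => abs_AA t v p q

lemma meas_KK : Measurable (KK b) := by
  refine measurable_pi_lambda _ fun e => ?_
  unfold KK
  split_ifs
  · exact measurable_const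
  · exact measurable_pi_apply e

lemma eg_BB (t : ℝ) (p q : Fin n) : EG fun v => BB k x b t v p q :=
  EG.of_bdd ((meas_RR k SkS x (eg_av k SkS _) _).comp meas_KK) fun v => abs_BB t v p q

lemma eg_mulM {ι : Type} [Fintype ι] {A B : (ι → ℝ) → Matrix (Fin n) (Fin n) ℝ}
    (hA : ∀ p q, EG fun v => A v p q) (hB : ∀ p q, EG fun v => B v p q) (p q : Fin n) :
    EG fun v => (A v * B v) p q := by
  simp only [Matrix.mul_apply]
  exact EG.sum _ fun r _ => (hA p r).mul (hB r q)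

lemma eg_subM {ι : Type} [Fintype ι] {A B : (ι → ℝ) → Matrix (Fin n) (Fin n) ℝ}
    (hA : ∀ p q, EG fun v => A v p q) (hB : ∀ p q, EG fun v => B v p q) (p q : Fin n) :
    EG fun v => (A v - B v) p q := by
  simp only [Matrix.sub_apply]
  exact (hA p q).sub (hB p q)

lemma eg_frM {ι : Type} [Fintype ι] {A : (ι → ℝ) → Matrix (Fin n) (Fin n) ℝ}
    (hA : ∀ p q, EG fun v => A v p q) : EG fun v => fr (A v) := by
  unfold fr
  exact EG.sum _ fun p _ => EG.sum _ fun q _ => (hA p q).pow 2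

/-! ### the levels -/

variable (n) in
/-- the lower level -/
noncomputable def L1 (t1 : ℝ) : Lvl (Pair n) := ⟨fun _ => √t1, 0, fun _ => √(1 - t1)⟩

variable (n) in
/-- the upper level -/
noncomputable def L2 (t1 t2 : ℝ) : Lvl (Pair n) :=
  ⟨fun _ => √t1, fun _ => √(t2 - t1), fun _ => √(1 - t2)⟩

/-- the lower position -/
noncomputable def v1 (t1 : ℝ) (w : Pair n ⊕ Pair n → ℝ) : Pair n → ℝ :=
  fun e => √t1 * w (Sum.inl e)

/-- the upper position -/
noncomputable def v2 (t1 t2 : ℝ) (w : Pair n ⊕ Pair n → ℝ) : Pair n → ℝ :=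
  fun e => √t1 * w (Sum.inl e) + √(t2 - t1) * w (Sum.inr e)

lemma v2_eq (t1 t2 s : ℝ) (w : Pair n ⊕ Pair n → ℝ) :
    u ∅ (L2 n t1 t2).a (L2 n t1 t2).b s w = v2 t1 t2 w := by
  funext e
  simp [u, v2, L2]

lemma u_L1 (A0 : Finset (Pair n)) (t1 : ℝ) (w : Pair n ⊕ Pair n → ℝ) :
    u A0 (L1 n t1).a (L1 n t1).b t1 w = v1 t1 w := by
  funext e
  simp [u, v1, L1]

lemma nz_L1 (A0 : Finset (Pair n)) (t1 : ℝ) : nz A0 (L1 n t1).c t1 = cf t1 := by
  funext e
  simp [nz, cf, L1]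

lemma nz_L2 (A0 : Finset (Pair n)) (t1 t2 : ℝ) : nz A0 (L2 n t1 t2).c t2 = cf t2 := by
  funext e
  simp [nz, cf, L2]

lemma nz_L1_zero (t1 : ℝ) : nz (row b) (L1 n t1).c 0 = cb b t1 := by
  funext e
  simp [nz, cb, L1]

lemma nz_L2_zero (t1 t2 : ℝ) : nz (row b) (L2 n t1 t2).c 0 = cb b t2 := by
  funext e
  simp [nz, cb, L2]

lemma u_L1_zero (t1 : ℝ) (w : Pair n ⊕ Pair n → ℝ) :
    u (row b) (L1 n t1).a (L1 n t1).b 0 w = KK b (v1 t1 w) := by
  funext e
  simp [u, v1, L1, KK]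

lemma u_L2_zero (t1 t2 : ℝ) (w : Pair n ⊕ Pair n → ℝ) :
    u (row b) (L2 n t1 t2).a (L2 n t1 t2).b 0 w = KK b (v2 t1 t2 w) := by
  funext e
  simp [u, v2, L2, KK]

lemma u_L2_zero' (t1 t2 s : ℝ) (w : Pair n ⊕ Pair n → ℝ) :
    u (row b) (L2 n t1 t2).a (L2 n t1 t2).b 0 w =
      KK b (u (row b) (L2 n t1 t2).a (L2 n t1 t2).b s w) := by
  funext e
  by_cases he : e ∈ row b
  · simp [u, KK, he]
  · simp [u, KK, he]

/-- full matrix, lower level -/
lemma MC_L1 (t1 : ℝ) (w : Pair n ⊕ Pair n → ℝ) :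
    MC k x b (L1 n t1) t1 w = AA k x t1 (v1 t1 w) := by
  ext p q
  show rl k SkS x (row b) (L1 n t1) (av k SkS (pr p q)) t1 w = _
  rw [rl_eq, nz_L1, u_L1]
  rfl

lemma Nm_L1 (t1 : ℝ) (w : Pair n ⊕ Pair n → ℝ) :
    Nm k x b (L1 n t1) t1 w = ND k x t1 (v1 t1 w) := by
  show Nl k SkS x (row b) (L1 n t1) (fun _ => 1) t1 w = _
  rw [Nl_eq, nz_L1, u_L1]
  rfl

lemma VU_L1 (t1 : ℝ) (w : Pair n ⊕ Pair n → ℝ) :
    VU k x b (L1 n t1) t1 w = UU k x b t1 (v1 t1 w) := by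
  funext p
  exact congrFun (congrFun (MC_L1 t1 w) p) b

/-- bulk matrix, lower level -/
lemma M0_L1 (t1 : ℝ) (w : Pair n ⊕ Pair n → ℝ) :
    M0 k x b (L1 n t1) w = BB k x b t1 (v1 t1 w) := by
  ext p q
  show rl k SkS x (row b) (L1 n t1) (av k SkS (pr p q)) 0 w = _
  rw [rl_eq, nz_L1_zero, u_L1_zero]
  rfl

/-- full matrix, upper level, row representation -/
lemma MC_L2 (t1 t2 : ℝ) (w : Pair n ⊕ Pair n → ℝ) :
    MC k x b (L2 n t1 t2) t2 w = AA k x t2 (u (row b) (L2 n t1 t2).a (L2 n t1 t2).b t2 w) := by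
  ext p q
  show rl k SkS x (row b) (L2 n t1 t2) (av k SkS (pr p q)) t2 w = _
  rw [rl_eq, nz_L2]
  rfl

lemma Nm_L2 (t1 t2 : ℝ) (w : Pair n ⊕ Pair n → ℝ) :
    Nm k x b (L2 n t1 t2) t2 w = ND k x t2 (u (row b) (L2 n t1 t2).a (L2 n t1 t2).b t2 w) := by
  show Nl k SkS x (row b) (L2 n t1 t2) (fun _ => 1) t2 w = _
  rw [Nl_eq, nz_L2]
  rfl

lemma VU_L2 (t1 t2 : ℝ) (w : Pair n ⊕ Pair n → ℝ) : VU k x b (L2 n t1 t2) t2 w =
    UU k x b t2 (u (row b) (L2 n t1 t2).a (L2 n t1 t2).b t2 w) := by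
  funext p
  exact congrFun (congrFun (MC_L2 t1 t2 w) p) b

/-- bulk matrix, upper level -/
lemma M0_L2 (t1 t2 : ℝ) (w : Pair n ⊕ Pair n → ℝ) :
    M0 k x b (L2 n t1 t2) w = BB k x b t2 (v2 t1 t2 w) := by
  ext p q
  show rl k SkS x (row b) (L2 n t1 t2) (av k SkS (pr p q)) 0 w = _
  rw [rl_eq, nz_L2_zero, u_L2_zero]
  rfl

lemma KK_KK (v : Pair n → ℝ) : KK b (KK b v) = KK b v := by
  funext e
  by_cases he : e ∈ row b <;> simp [KK, he]

lemma M0_L2' (t1 t2 s : ℝ) (w : Pair n ⊕ Pair n → ℝ) :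
    M0 k x b (L2 n t1 t2) w =
      BB k x b t2 (u (row b) (L2 n t1 t2).a (L2 n t1 t2).b s w) := by
  ext p q
  show rl k SkS x (row b) (L2 n t1 t2) (av k SkS (pr p q)) 0 w = _
  rw [rl_eq, nz_L2_zero, u_L2_zero' t1 t2 s]
  rfl

end sk

end Vale.Agent.P146.H325
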