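import Vale.Agent.P146.H816.CleanS

/-!
Plan R1, row (KAP): the core of the assembly. From the sums over the pairs (helper816) and the
fixed bulk inequality `g (1 - bad) Y ≤ G + Er`.
-/

open MeasureTheory ProbabilityTheory

namespace Vale.Agent.P146.R1C

open Vale.Agent.P157.Lv Vale.Agent.P146.H712 Vale.Agent.P146.H332 Vale.Agent.P146.H325
  Vale.Agent.P146.H816

set_option linter.unusedSectionVars false

section core

variable {ι : Type} [Fintype ι] [DecidableEq ι] {X : Type} [Fintype X] [DecidableEq X]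
  {p : (ι → ℝ) → ℝ} {A D : (ι → ℝ) → Matrix X X ℝ} {R : X → Finset ι}
  {ρ : X → X → Equiv.Perm ι} {φ : X → X → (ι → ℝ) → ℝ} {a d : X → X → (ι → ℝ) → X → ℝ}
  {M δ lam : X → X → ℝ}

lemma eg_Yf {R : Finset ι} {b b' : X} {a d : (ι → ℝ) → X → ℝ} (ha : ∀ i, EG fun z => a z i)
    (hd : ∀ i, EG fun z => d z i) : EG (Yf R b b' a d) :=
  EG.sum _ fun i _ => EG.sum _ fun j _ => ((eg_Nf ha hd i j).sub (eg_Nf ha hd j i)).pow 2

lemma eg_Gf {R : Finset ι} {b b' : X} {a d : (ι → ℝ) → X → ℝ} (ha : ∀ i, EG fun z => a z i)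
    (hd : ∀ i, EG fun z => d z i) : EG (Gf R b b' a d) :=
  EG.sum _ fun i _ => EG.sum _ fun j _ =>
    ((eg_Nf ha ha i j).mul (eg_Nf hd hd i j)).sub ((eg_Nf ha hd i j).pow 2)

/-- sums over the pairs -/
lemma sum_pairs_add (f g : X → X → ℝ) :
    ∑ b, ∑ b' ∈ Finset.univ.erase b, (f b b' + g b b') =
      (∑ b, ∑ b' ∈ Finset.univ.erase b, f b b') + ∑ b, ∑ b' ∈ Finset.univ.erase b, g b b' := by
  rw [← Finset.sum_add_distrib]
  exact Finset.sum_congr rfl fun b _ => Finset.sum_add_distrib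

lemma sum_pairs_mul (c : ℝ) (f : X → X → ℝ) :
    ∑ b, ∑ b' ∈ Finset.univ.erase b, c * f b b' =
      c * ∑ b, ∑ b' ∈ Finset.univ.erase b, f b b' := by
  rw [Finset.mul_sum]
  exact Finset.sum_congr rfl fun b _ => by rw [Finset.mul_sum]

lemma int_le3 {u v1 v2 v3 : (ι → ℝ) → ℝ} (hu : EG u) (h1 : EG v1) (h2 : EG v2) (h3 : EG v3)
    (hle : ∀ w, u w ≤ v1 w + v2 w + v3 w) :
    ∫ w, u w ∂(gI ι) ≤ (∫ w, v1 w ∂(gI ι)) + (∫ w, v2 w ∂(gI ι)) + ∫ w, v3 w ∂(gI ι) := by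
  have e1 : ∫ w, (v1 w + v2 w) ∂(gI ι) = (∫ w, v1 w ∂(gI ι)) + ∫ w, v2 w ∂(gI ι) :=
    integral_add h1.integrable h2.integrable
  have e2 : ∫ w, (v1 w + v2 w + v3 w) ∂(gI ι) =
      (∫ w, (v1 w + v2 w) ∂(gI ι)) + ∫ w, v3 w ∂(gI ι) :=
    integral_add (h1.add h2).integrable h3.integrable
  rw [← e1, ← e2]
  exact integral_mono hu.integrable ((h1.add h2).add h3).integrable hle

/-- **The core of (KAP).** -/
theorem kap_core (h : Cl p A D R ρ φ a d M δ lam) {g : ℝ} (hg : 0 ≤ g)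
    {bad Er : X → X → (ι → ℝ) → ℝ} (eb : ∀ b b', EG (bad b b')) (eE : ∀ b b', EG (Er b b'))
    (hpt : ∀ b b', b' ≠ b → ∀ w, g * (1 - bad b b' w) * Yf (R b) b b' (a b b') (d b b') w ≤
      Gf (R b) b b' (a b b') (d b b') w + Er b b' w) :
    g * ∫ w, p w * fr (A w * D w - D w * A w) ∂(gI ι) ≤
      (1 + 2 * g) * ((∫ w, p w * ∑ b, vn (col (A w) b) * vn (col (D w) b) ∂(gI ι)) +
        2 * (∑ b, ∑ b' ∈ Finset.univ.erase b, lam b b') +
        8 * (∑ b, ∑ b' ∈ Finset.univ.erase b, δ b b' * √(M b b'))) +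
      g * (4 * (∑ b, ∑ b' ∈ Finset.univ.erase b, lam b b') +
        16 * (∑ b, ∑ b' ∈ Finset.univ.erase b, δ b b' * √(M b b'))) +
      (∑ b, ∑ b' ∈ Finset.univ.erase b, ∫ w, φ b b' w * Er b b' w ∂(gI ι)) +
      g * (∑ b, ∑ b' ∈ Finset.univ.erase b, ∫ w, φ b b' w * (bad b b' w *
        Yf (R b) b b' (a b b') (d b b') w) ∂(gI ι)) := by
  have h1 := h.s1
  have h2 := h.s2
  simp only [sum_pairs_add, sum_pairs_mul] at h1 h2
  set SY := ∑ b, ∑ b' ∈ Finset.univ.erase b, ∫ w, φ b b' w *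
    Yf (R b) b b' (a b b') (d b b') w ∂(gI ι) with hSY
  set SG := ∑ b, ∑ b' ∈ Finset.univ.erase b, ∫ w, φ b b' w *
    Gf (R b) b b' (a b b') (d b b') w ∂(gI ι) with hSG
  set SE := ∑ b, ∑ b' ∈ Finset.univ.erase b, ∫ w, φ b b' w * Er b b' w ∂(gI ι) with hSE
  set SB := ∑ b, ∑ b' ∈ Finset.univ.erase b, ∫ w, φ b b' w * (bad b b' w *
        Yf (R b) b b' (a b b') (d b b') w) ∂(gI ι) with hSB
  set K := ∫ w, p w * fr (A w * D w - D w * A w) ∂(gI ι) with hK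
  set DD := ∫ w, p w * ∑ b, vn (col (A w) b) * vn (col (D w) b) ∂(gI ι) with hDD
  set SL := ∑ b, ∑ b' ∈ Finset.univ.erase b, lam b b' with hSL
  set SQ := ∑ b, ∑ b' ∈ Finset.univ.erase b, δ b b' * √(M b b') with hSQ
  have h3 : g * SY ≤ SG + SE + g * SB := by
    rw [hSY, hSG, hSE, hSB, ← sum_pairs_mul, ← sum_pairs_mul, ← sum_pairs_add, ← sum_pairs_add]
    refine Finset.sum_le_sum fun b _ => Finset.sum_le_sum fun b' hb' => ?_
    have hb := Finset.ne_of_mem_erase hb'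
    have hP := h.hP b b' hb
    have hT := h.hT b b' hb
    have eY := eg_Yf (R := R b) (b := b) (b' := b') hT.ea hT.ed
    have eG := eg_Gf (R := R b) (b := b) (b' := b') hT.ea hT.ed
    rw [← integral_const_mul, ← integral_const_mul]
    refine int_le3 ((hP.eφ.mul eY).const_mul g) (hP.eφ.mul eG) (hP.eφ.mul (eE b b'))
      ((hP.eφ.mul ((eb b b').mul eY)).const_mul g) fun w => ?_
    have h4 := mul_le_mul_of_nonneg_left (hpt b b' hb w) (hP.φ0 w)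
    have h7 : φ b b' w * (g * (1 - bad b b' w) * Yf (R b) b b' (a b b') (d b b') w) =
        g * (φ b b' w * Yf (R b) b b' (a b b') (d b b') w) -
        g * (φ b b' w * (bad b b' w * Yf (R b) b b' (a b b') (d b b') w)) := by ring
    rw [h7, mul_add] at h4
    linarith
  have h5 : g * K ≤ g * (SY + 2 * SG + (4 * SL + 16 * SQ)) := mul_le_mul_of_nonneg_left h2 hg
  have h6 : (1 + 2 * g) * SG ≤ (1 + 2 * g) * (DD + (2 * SL + 8 * SQ)) :=
    mul_le_mul_of_nonneg_left h1 (by linarith)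
  nlinarith [h3, h5, h6]

end core

/-- **The numbers of (KAP).** `r2 = N/n² = r²`, `y = x r`, `w = √(1/(nT))`, `v = 1/n`. -/
theorem kap_num {Z N A C g κ r2 y w v e K DD SL SQ SE SB : ℝ} {m m' : ℕ} (hZ : 0 < Z)
    (hN : 0 < N) (hA : 1 ≤ A) (hC : 0 ≤ C) (hκ : 0 < κ) (hr : 0 ≤ r2) (hr1 : r2 ≤ 1)
    (hg0 : κ * r2 / A ^ m' ≤ g) (hg1 : g ≤ r2) (hy : 0 ≤ y) (hw : 0 ≤ w) (hv : 0 ≤ v)
    (he : 0 ≤ e) (hK : N ^ 2 / (4 * A ^ 3) * Z ≤ K) (hD : DD ≤ C * A ^ m * v * (N ^ 2 * Z))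
    (hL : SL ≤ C * A ^ m * y * (N ^ 2 * Z)) (hQ : SQ ≤ C * A ^ m * w * (N ^ 2 * Z))
    (hE : SE ≤ C * A ^ m * (r2 * e) * (N ^ 2 * Z)) (hB : SB ≤ C * A ^ m * e * (N ^ 2 * Z))
    (hcore : g * K ≤ (1 + 2 * g) * (DD + 2 * SL + 8 * SQ) + g * (4 * SL + 16 * SQ) + SE +
      g * SB) :
    r2 ≤ 160 * C / κ * A ^ (m + m' + 3) * (w + y + e * r2 + v) := by
  have hA0 : 0 < A := by linarith
  have hg : 0 ≤ g := le_trans (by positivity) hg0
  have hgl : g ≤ 1 := hg1.trans hr1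
  have hNZ : 0 < N ^ 2 * Z := by positivity
  set c := C * A ^ m with hc
  have hc0 : 0 ≤ c := by positivity
  have h1 : g * (N ^ 2 / (4 * A ^ 3) * Z) ≤ (3 * (c * v + 2 * (c * y) + 8 * (c * w)) +
      (4 * (c * y) + 16 * (c * w)) + c * (r2 * e) + r2 * (c * e)) * (N ^ 2 * Z) := by
    have hDD : (1 + 2 * g) * (DD + 2 * SL + 8 * SQ) ≤
        3 * ((c * v + 2 * (c * y) + 8 * (c * w)) * (N ^ 2 * Z)) := by
      have h2 : DD + 2 * SL + 8 * SQ ≤ (c * v + 2 * (c * y) + 8 * (c * w)) * (N ^ 2 * Z) := by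
        nlinarith
      calc (1 + 2 * g) * (DD + 2 * SL + 8 * SQ) ≤
            (1 + 2 * g) * ((c * v + 2 * (c * y) + 8 * (c * w)) * (N ^ 2 * Z)) :=
            mul_le_mul_of_nonneg_left h2 (by linarith)
        _ ≤ _ := mul_le_mul_of_nonneg_right (by linarith) (by positivity)
    have h3 : g * (4 * SL + 16 * SQ) ≤ (4 * (c * y) + 16 * (c * w)) * (N ^ 2 * Z) := by
      have h2 : 4 * SL + 16 * SQ ≤ (4 * (c * y) + 16 * (c * w)) * (N ^ 2 * Z) := by nlinarith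
      calc g * (4 * SL + 16 * SQ) ≤ g * ((4 * (c * y) + 16 * (c * w)) * (N ^ 2 * Z)) :=
            mul_le_mul_of_nonneg_left h2 hg
        _ ≤ 1 * ((4 * (c * y) + 16 * (c * w)) * (N ^ 2 * Z)) :=
            mul_le_mul_of_nonneg_right hgl (by positivity)
        _ = _ := one_mul _
    have h4 : g * SB ≤ r2 * (c * e) * (N ^ 2 * Z) := by
      calc g * SB ≤ g * (c * e * (N ^ 2 * Z)) := mul_le_mul_of_nonneg_left hB hg
        _ ≤ r2 * (c * e * (N ^ 2 * Z)) := mul_le_mul_of_nonneg_right hg1 (by positivity)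
        _ = _ := by ring
    have h5 : g * (N ^ 2 / (4 * A ^ 3) * Z) ≤ g * K := mul_le_mul_of_nonneg_left hK hg
    nlinarith
  have h2 : g * (N ^ 2 / (4 * A ^ 3) * Z) = g / (4 * A ^ 3) * (N ^ 2 * Z) := by
    field_simp
  rw [h2] at h1
  have h3 := le_of_mul_le_mul_right h1 hNZ
  have h4 : g / (4 * A ^ 3) ≤ 40 * c * (w + y + e * r2 + v) := by
    refine h3.trans ?_
    have a1 : 0 ≤ c * v := by positivity
    have a2 : 0 ≤ c * y := by positivity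
    have a3 : 0 ≤ c * w := by positivity
    have a4 : 0 ≤ c * (r2 * e) := by positivity
    nlinarith
  rw [div_le_iff₀ (by positivity)] at h4
  have h5 := hg0.trans h4
  rw [div_le_iff₀ (by positivity)] at h5
  have h6 : κ * r2 ≤ κ * (160 * C / κ * A ^ (m + m' + 3) * (w + y + e * r2 + v)) := by
    refine h5.trans (le_of_eq ?_)
    rw [hc]
    field_simp
    ring
  exact le_of_mul_le_mul_left h6 hκ

end Vale.Agent.P146.R1C
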