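import Vale.Agent.P146.H325.KapP
import Vale.Agent.P146.H640.LamCS

/-!
Plan R1, row (KAP): the conclusion for a position system and for the SK model, in the letters of
the final assembly; the input `BadS` is the row (K) on the good bulks.
-/

open MeasureTheory ProbabilityTheory

namespace Vale.Agent.P146.R1S

open Vale.Agent.P157.Lv Vale.Agent.P146.H425 Vale.Agent.P146.H325
  Vale.Agent.P146.H712 Vale.Agent.P146.R1 Vale.Agent.P146.R1C Matrix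
  Vale.Agent.P146.H633 Vale.Agent.P146.H329
open Vale.Agent.P146.H332 hiding Nf Gf NN fr_nonneg

set_option linter.unusedSectionVars false

/-- **The good and the bad bulks.** -/
def BadS {n : ℕ} {β : ℝ} {q : Par} (S : CS n (kk n β) q.x) (A T ρ κ C e0 : ℝ) (m : ℕ) : Prop :=
  ∃ bad : Fin n → Fin n → (K4 (Pair n) → ℝ) → ℝ, (∀ b b', EG (bad b b')) ∧
    (∀ b b' w, 0 ≤ bad b b' w) ∧ (∀ b b' w, bad b b' w ≤ 1) ∧
    (∀ b b', b' ≠ b → ∀ w, bad b b' w < 1 → ∀ v, Bv S q.s1 b b' (P2 q w) v →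
      κ / A * (NN n β ρ / (n : ℝ) ^ 2) * ee S q.s1 b b' (P2 q w) ≤
        Net (kk n β) (S.A q.s1) (S.H q.s1) q.s1 b b' v (P2 q w)) ∧
    ∑ b, ∑ b' ∈ Finset.univ.erase b, En q S.F (bad b b') ≤ C * A ^ m *
      ((1 / (q.x ^ 2 * ρ * T) + 1 / (n * T)) ^ ((1 : ℝ) / 8) + e0 +
        q.x * √(NN n β ρ / (n : ℝ) ^ 2) + √(1 / (n * T)) + 1 / n) * (n : ℝ) ^ 2

/-- the smallness of the time scale -/
lemma Fo.u_le {n : ℕ} {β A δ T ρ : ℝ} {q : Par} {F : (Pair n → ℝ) → ℝ}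
    {AM : ℝ → (Pair n → ℝ) → Matrix (Fin n) (Fin n) ℝ}
    {DM : ℝ → Pair n → (Pair n → ℝ) → Matrix (Fin n) (Fin n) ℝ}
    (h : Fo n β A δ T ρ q F AM DM) (hA : 10 ≤ A) (hβA : β ^ 2 ≤ A) :
    1 / (q.x ^ 2 * ρ * T) + 1 / (n * T) ≤ 1 := by
  have hx := h.ok.x0
  have hx1 := h.ok.x1
  have hT := h.Tp
  have hρ := h.ρ1
  have hβ := h.β0
  have hn := h.n0
  have hA1 := h.A1
  have h1 := h.xrT
  have h2 := h.ρn
  have hA2 : A ^ 2 ≤ A ^ 40 := pow_le_pow_right₀ hA1 (by norm_num)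
  have hx2 : q.x ^ 2 ≤ 1 := pow_le_one₀ hx.le hx1
  have hxT : 0 < q.x ^ 2 * ρ * T := by positivity
  have hnT : 0 < (n : ℝ) * T := by positivity
  have g1 : 2 ≤ q.x ^ 2 * ρ * T := by nlinarith
  have g2 : q.x ^ 2 * ρ * T ≤ ρ * T := by
    calc q.x ^ 2 * ρ * T = q.x ^ 2 * (ρ * T) := by ring
      _ ≤ 1 * (ρ * T) := mul_le_mul_of_nonneg_right hx2 (by positivity)
      _ = ρ * T := one_mul _
  have g3 : 2 * (ρ * T) ≤ β ^ 2 * (n * T) := by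
    calc 2 * (ρ * T) = 2 * ρ * T := by ring
      _ ≤ β ^ 2 * n * T := mul_le_mul_of_nonneg_right h2 hT.le
      _ = _ := by ring
  have g4 : β ^ 2 * (n * T) ≤ A * (n * T) := mul_le_mul_of_nonneg_right hβA hnT.le
  have g5 : A * (2 * A) ≤ A * (n * T) := by nlinarith
  have g6 : 2 * A ≤ n * T := le_of_mul_le_mul_left g5 (by linarith)
  have g7 : 2 ≤ (n : ℝ) * T := by linarith
  have a1 : 1 / (q.x ^ 2 * ρ * T) ≤ 1 / 2 := one_div_le_one_div_of_le (by norm_num) g1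
  have a2 : 1 / (n * T) ≤ 1 / 2 := one_div_le_one_div_of_le (by norm_num) g7
  linarith

/-- **(KAP) for a position system, all large `n`.** -/
theorem kap_cs_out {β Γ κ C : ℝ} {m : ℕ} (hβ : 0 < β) (hκ : 0 < κ) (hκ1 : κ ≤ 1)
    (hC : 0 ≤ C) : ∃ n₀ : ℕ, ∀ n : ℕ, n₀ ≤ n → ∀ (q : Par) (S : CS n (kk n β) q.x)
      (A δ T ρ e0 B L M : ℝ) (HF TF : Pair n → Pair n → (Pair n → ℝ) → ℝ),
      10 ≤ A → β ^ 2 ≤ A → T ≤ 1 / A → 0 ≤ e0 → Sm S.F S.D B L HF TF M →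
      (∀ s : ℝ, Cum.Fn (kk n β) SkS (uu q.x s S.F) (S.mu s) Γ) →
      Fo n β A δ T ρ q S.F S.A S.DA → BadS S A T ρ κ C e0 m →
      NN n β ρ / (n : ℝ) ^ 2 ≤
        192 * ((C + cE β Γ + cO β) * (1 + 28 * β ^ 4)) / κ * A ^ (m + 12) *
        (√(1 / (n * T)) + q.x * √(NN n β ρ / (n : ℝ) ^ 2) +
          ((1 / (q.x ^ 2 * ρ * T) + 1 / (n * T)) ^ ((1 : ℝ) / 8) + e0) *
            (NN n β ρ / (n : ℝ) ^ 2) + 1 / n) := by
  obtain ⟨n₀, -, hn₀⟩ := numS_of hβ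
  obtain ⟨N, hN⟩ := exists_nat_ge Γ
  refine ⟨max n₀ (max 3 N), fun n hn q S A δ T ρ e0 B L M HF TF hA hβA hTA he0 hS hFn hf hbad => ?_⟩
  have hn1 : n₀ ≤ n := (le_max_left _ _).trans hn
  have hn3 : 3 ≤ n := ((le_max_left _ _).trans (le_max_right _ _)).trans hn
  have hnN : N ≤ n := ((le_max_right _ _).trans (le_max_right _ _)).trans hn
  have hnum := hn₀ n hn1 q S A δ T ρ hf
  have hn2 := hf.n0
  have hΓn : Γ ≤ (n : ℝ) ^ 8 := by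
    have h1 : (N : ℝ) ≤ n := by exact_mod_cast hnN
    have h2 : (n : ℝ) ≤ (n : ℝ) ^ 8 := le_self_pow₀ (by linarith) (by norm_num)
    linarith
  obtain ⟨bad, eb, hb0, hb1, hK, hsum⟩ := hbad
  exact kap_out_S hnum hn3 hFn (hKR_fn S hf hFn hΓn) hκ hκ1 hC
    (H522.po2_cs S hS hf hA hTA) (Fo.u_le hf hA hβA) he0 eb hb0 hb1 hK hsum

/-- The row (K) for the SK model: the good and the bad bulks, all large `n`. -/
def BadSk (β : ℝ) : Prop :=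
  ∃ κ C : ℝ, ∃ m : ℕ, 0 < κ ∧ κ ≤ 1 ∧ 0 ≤ C ∧ ∀ α : ℝ, 0 < α → ∃ n₀ : ℕ, ∀ n : ℕ, n₀ ≤ n →
    ∀ (δ T ρ : ℝ) (q : Par) (hk : 0 < kk n β) (hx : 0 < q.x) (hx1 : q.x ≤ 1),
      Fo n β ((n : ℝ) ^ α) δ T ρ q (skCS n hk hx hx1).F (skCS n hk hx hx1).A
        (skCS n hk hx hx1).DA → T ≤ 1 / (n : ℝ) ^ α →
      BadS (skCS n hk hx hx1) ((n : ℝ) ^ α) T ρ κ C 0 m

/-- `n ^ α` is large -/
lemma pow_large {α : ℝ} (hα : 0 < α) (B : ℝ) : ∃ N : ℕ, ∀ n : ℕ, N ≤ n → B ≤ (n : ℝ) ^ α := by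
  have h := ((tendsto_rpow_atTop hα).comp tendsto_natCast_atTop_atTop).eventually_ge_atTop B
  obtain ⟨N, hN⟩ := Filter.eventually_atTop.1 h
  exact ⟨N, fun n hn => hN n hn⟩

/-- **(KAP) for the SK model, in the letters of the assembly.** -/
theorem kap_hK {β : ℝ} (hβ : 0 < β) (hB : BadSk β) :
    ∃ C : ℝ, ∃ m : ℕ, ∃ c : ℝ, 0 < c ∧ ∀ α : ℝ, 0 < α → ∃ n₀ : ℕ, ∀ n : ℕ, n₀ ≤ n →
      ∀ (δ T ρ : ℝ) (q : Par),
        Fo n β ((n : ℝ) ^ α) δ T ρ q (lz (kk n β) SkS) (AA (kk n β) q.x) (DC (kk n β) q.x) →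
        T ≤ 1 / (n : ℝ) ^ α →
        2 * ρ / (β ^ 2 * n) ≤ C * ((n : ℝ) ^ α) ^ m * (√(1 / (n * T)) +
          q.x * √(2 * ρ / (β ^ 2 * n)) + ((1 / (q.x ^ 2 * ρ * T) + 1 / (n * T)) ^ c + q.x ^ c) *
            (2 * ρ / (β ^ 2 * n)) + 1 / n) := by
  obtain ⟨κ, C, m, hκ, hκ1, hC, hbad⟩ := hB
  obtain ⟨n₁, h1⟩ := kap_cs_out (β := β) (Γ := 4) (κ := κ) (C := C) (m := m) hβ hκ hκ1 hC
  refine ⟨192 * ((C + cE β 4 + cO β) * (1 + 28 * β ^ 4)) / κ, m + 12, 1 / 8, by norm_num,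
    fun α hα => ?_⟩
  obtain ⟨n₂, h2⟩ := hbad α hα
  obtain ⟨N, hN⟩ := pow_large hα (max 10 (β ^ 2))
  refine ⟨max n₁ (max n₂ N), fun n hn δ T ρ q hf hT => ?_⟩
  have g1 : n₁ ≤ n := (le_max_left _ _).trans hn
  have g2 : n₂ ≤ n := ((le_max_left _ _).trans (le_max_right _ _)).trans hn
  have g3 := hN n (((le_max_right _ _).trans (le_max_right _ _)).trans hn)
  have hA10 : 10 ≤ (n : ℝ) ^ α := (le_max_left _ _).trans g3
  have hAβ : β ^ 2 ≤ (n : ℝ) ^ α := (le_max_right _ _).trans g3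
  have hk : 0 < kk n β := hf.kk0
  have hx := hf.ok.x0
  have hx1 := hf.ok.x1
  have hn0 : 0 < n := by have := hf.n2; omega
  have hR : NN n β ρ / (n : ℝ) ^ 2 = 2 * ρ / (β ^ 2 * n) := NN_div hn0
  have hρ := hf.ρ1
  have hR0 : 0 ≤ 2 * ρ / (β ^ 2 * n) := by positivity
  have key := h1 n g1 q (skCS n hk hx hx1) ((n : ℝ) ^ α) δ T ρ 0 _ _ _ _ _ hA10 hAβ hT le_rfl
    (sm_skCS hk hx hx1) (fun s => Cum.fn_skCS hk hx hx1 s) hf (h2 n g2 δ T ρ q hk hx hx1 hf hT)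
  rw [hR, add_zero] at key
  refine key.trans ?_
  have hcE : 0 ≤ cE β 4 := by unfold cE; positivity
  have hcO : 0 ≤ cO β := by unfold cO; positivity
  have hx8 : 0 ≤ q.x ^ ((1 : ℝ) / 8) := Real.rpow_nonneg hx.le _
  gcongr
  linarith

end Vale.Agent.P146.R1S
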