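import Vale.Agent.P146.H191.KapC
import Vale.Agent.P146.H604.HNumS
import Vale.Agent.P146.H325.KapQ

/-!
Plan R1, row (KAP): the bad bulks of a position system with the property (K), and the conclusion
for the SK model, `β < 3/2`.
-/

open MeasureTheory ProbabilityTheory

namespace Vale.Agent.P146.R1S

open Vale.Agent.P157.Lv Vale.Agent.P146.H425 Vale.Agent.P146.H325
  Vale.Agent.P146.H712 Vale.Agent.P146.R1 Vale.Agent.P146.R1C Matrix
  Vale.Agent.P146.H633 Vale.Agent.P146.H191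
open Vale.Agent.P146.H332 hiding Nf Gf NN fr_nonneg

set_option linter.unusedSectionVars false

/-- the constant of the sum of the bad bulks -/
noncomputable def cB (β τ : ℝ) : ℝ := 64 / τ ^ 2 + 4 * Hc β 4 / τ ^ 2 + 1 / τ + 1

section gen

variable {n : ℕ} {β A δ T ρ : ℝ} {q : Par} {S : CS n (kk n β) q.x}

lemma hds_hd1 (b b' : Fin n) (w : K4 (Pair n) → ℝ) :
    hds S q.s1 b b' (P2 q w) = hd1 S q b b' w := by
  unfold hds hd1
  have h : AvP q.s1 (row b ∪ row b') (fun z => fr (S.A q.s1 z) / n) (P2 q w) =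
      FA S q.s1 b b' (P2 q w) / n := by
    have e : (fun z => fr (S.A q.s1 z) / n) = fun z => (n : ℝ)⁻¹ * fr (S.A q.s1 z) := by
      funext z
      ring
    rw [e, AvP_const_mul]
    unfold FA
    ring
  rw [h]

/-- **The bad bulks of a position system.** -/
theorem badS_of {κ τ e0 : ℝ} {X : Fin n → Fin n → (Pair n → ℝ) → ℝ}
    (h : NumS S A δ T ρ ((n : ℝ) ^ 200)⁻¹) (hKR : ∀ s z, rt S.DA s z ≤ (n : ℝ) ^ 20)
    (hκ : 0 ≤ κ) (hτ : 0 < τ) (hu : 1 / (q.x ^ 2 * ρ * T) + 1 / (n * T) ≤ 1) (he0 : 0 ≤ e0)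
    (hnM : (n : ℝ) ≤ τ * (NN n β ρ / (2 * A))) (hX0 : ∀ b b' z, 0 ≤ X b b' z)
    (hX : ∀ b b', EG (X b b')) (hG : KapG S q.s1 τ κ (NN n β ρ / (2 * A)) X)
    (hXs : ∑ b : Fin n, ∑ b' ∈ Finset.univ.erase b,
      En q S.F (fun w => X b b' (P2 q w)) ≤ e0 * (n : ℝ) ^ 2) :
    BadS S A T ρ (κ / 2) (cB β τ) e0 5 := by
  have hq := h.fo.ok
  have hA := h.fo.A1
  have hA0 : 0 < A := by linarith
  have hn := h.fo.n0
  have hβ := h.fo.β0
  have hN := h.fo.N0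
  have hx := hq.x0
  have hT := h.fo.Tp
  have hρ0 : 0 < ρ := by linarith [h.fo.ρ1]
  have hn0 : (0 : ℝ) < n := by linarith
  have hnn : 0 < n := by exact_mod_cast hn0
  have hM0 : 0 < NN n β ρ / (2 * A) := by positivity
  refine ⟨fun b b' w => badK S q.s1 τ (NN n β ρ / (2 * A)) X b b' (P2 q w),
    fun b b' => eg_P2 (eg_badK hτ hX0 hX b b'), fun b b' w => badK_nonneg hτ hX0 b b' _,
    fun b b' w => badK_le b b' _, ?_, ?_⟩
  · intro b b' hb w hbad v hv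
    have h1 := badK_lt hκ hτ hM0 hnn hnM hX0 hG hb.symm hv hbad
    refine le_trans (le_of_eq ?_) h1
    field_simp
  · have h1 := badK_sum S h.fo h.law hKR hτ hX0 hX (H0 := Hc β 4 * A ^ 3 *
      (q.x * (√(NN n β ρ) / n) * NN n β ρ ^ 2 + NN n β ρ ^ 2 / √(n * T)))
      (X0 := e0 * (n : ℝ) ^ 2) (by
        simp only [hds_hd1]
        exact h.hrow.1) hXs
    refine h1.trans ?_
    have hH : 0 ≤ Hc β 4 := by
      unfold Hc
      positivity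
    have e1 : √(NN n β ρ) / n = √(NN n β ρ / (n : ℝ) ^ 2) := by
      rw [Real.sqrt_div hN.le, Real.sqrt_sq hn0.le]
    have e2 : NN n β ρ ^ 2 / √(n * T) = √(1 / (n * T)) * NN n β ρ ^ 2 := by
      rw [Real.sqrt_div zero_le_one, Real.sqrt_one]
      ring
    have hu0 : 0 < 1 / (q.x ^ 2 * ρ * T) + 1 / (n * T) := by positivity
    have hu8 : 1 / (q.x ^ 2 * ρ * T) + 1 / (n * T) ≤
        (1 / (q.x ^ 2 * ρ * T) + 1 / (n * T)) ^ ((1 : ℝ) / 8) :=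
      Real.self_le_rpow_of_le_one hu0.le hu (by norm_num)
    rw [e1, e2]
    set y := q.x * √(NN n β ρ / (n : ℝ) ^ 2) with hy
    set v := √(1 / (n * T)) with hv
    set N := NN n β ρ with hNd
    generalize 1 / (q.x ^ 2 * ρ * T) + 1 / (n * T) = u at *
    set ϑ := u ^ ((1 : ℝ) / 8) with hϑ
    have hy0 : 0 ≤ y := by positivity
    have hv0 : 0 ≤ v := Real.sqrt_nonneg _
    have hϑ0 : 0 ≤ ϑ := Real.rpow_nonneg hu0.le _
    have e3 : 4 * A ^ 2 * (n : ℝ) ^ 2 / (τ * N) ^ 2 * (Hc β 4 * A ^ 3 * (y * N ^ 2 + v * N ^ 2)) =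
        4 * Hc β 4 / τ ^ 2 * A ^ 5 * (y + v) * (n : ℝ) ^ 2 := by
      field_simp
    rw [e3]
    have hA45 : A ^ 4 ≤ A ^ 5 := pow_le_pow_right₀ hA (by norm_num)
    have hA5 : 1 ≤ A ^ 5 := one_le_pow₀ hA
    have p1 : 64 * A ^ 4 / τ ^ 2 * u * (n : ℝ) ^ 2 ≤ 64 / τ ^ 2 * A ^ 5 * ϑ * (n : ℝ) ^ 2 := by
      calc 64 * A ^ 4 / τ ^ 2 * u * (n : ℝ) ^ 2 = 64 / τ ^ 2 * A ^ 4 * u * (n : ℝ) ^ 2 := by ring
        _ ≤ _ := by gcongr
    have p2 : (n : ℝ) ≤ 1 * A ^ 5 * (1 / n) * (n : ℝ) ^ 2 := by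
      have : 1 * A ^ 5 * (1 / (n : ℝ)) * (n : ℝ) ^ 2 = A ^ 5 * n := by
        field_simp
      rw [this]
      exact le_mul_of_one_le_left hn0.le hA5
    have p3 : e0 * (n : ℝ) ^ 2 / τ ≤ 1 / τ * A ^ 5 * e0 * (n : ℝ) ^ 2 := by
      calc e0 * (n : ℝ) ^ 2 / τ = 1 / τ * 1 * e0 * (n : ℝ) ^ 2 := by ring
        _ ≤ _ := by gcongr
    set a := 64 / τ ^ 2 with ha
    set c := 4 * Hc β 4 / τ ^ 2 with hc
    set d := 1 / τ with hd
    have ha0 : 0 ≤ a := by positivity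
    have hc0 : 0 ≤ c := by positivity
    have hd0 : 0 ≤ d := by positivity
    have hcB : cB β τ = a + c + d + 1 := rfl
    rw [hcB]
    have m0 : 0 ≤ A ^ 5 * (n : ℝ) ^ 2 := by positivity
    have hin : 0 ≤ 1 / (n : ℝ) := by positivity
    have k1 : 64 / τ ^ 2 * A ^ 5 * ϑ * (n : ℝ) ^ 2 + c * A ^ 5 * (y + v) * (n : ℝ) ^ 2 +
        1 * A ^ 5 * (1 / n) * (n : ℝ) ^ 2 + d * A ^ 5 * e0 * (n : ℝ) ^ 2 =
        (a * ϑ + c * (y + v) + 1 * (1 / n) + d * e0) * (A ^ 5 * (n : ℝ) ^ 2) := by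
      rw [ha]
      ring
    have k2 : a * ϑ + c * (y + v) + 1 * (1 / (n : ℝ)) + d * e0 ≤
        (a + c + d + 1) * (ϑ + e0 + y + v + 1 / n) := by
      have z1 : 0 ≤ a * (e0 + y + v + 1 / n) := by positivity
      have z2 : 0 ≤ c * (ϑ + e0 + 1 / n) := by positivity
      have z3 : 0 ≤ d * (ϑ + y + v + 1 / n) := by positivity
      have z4 : 0 ≤ ϑ + e0 + y + v := by positivity
      linarith
    have k3 := mul_le_mul_of_nonneg_right k2 m0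
    have k4 : (a + c + d + 1) * A ^ 5 * (ϑ + e0 + y + v + 1 / n) * (n : ℝ) ^ 2 =
        (a + c + d + 1) * (ϑ + e0 + y + v + 1 / n) * (A ^ 5 * (n : ℝ) ^ 2) := by ring
    rw [k4]
    linarith

end gen

lemma BadS.mono {n : ℕ} {β A δ T ρ : ℝ} {q : Par} {S : CS n (kk n β) q.x} {κ κ' C e0 : ℝ}
    {m : ℕ} (h : BadS S A T ρ κ C e0 m) (hf : Fo n β A δ T ρ q S.F S.A S.DA) (hκ : κ' ≤ κ) :
    BadS S A T ρ κ' C e0 m := by
  have hA := hf.A1
  have hN := hf.N0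
  obtain ⟨bad, eb, hb0, hb1, hK, hs⟩ := h
  refine ⟨bad, eb, hb0, hb1, fun b b' hb w hw v hv => le_trans ?_ (hK b b' hb w hw v hv), hs⟩
  have h0 : 0 ≤ ee S q.s1 b b' (P2 q w) := R1S.ee_nonneg b b' _
  gcongr

/-- **(K) for the SK model, `β < 3/2`: the good and the bad bulks.** -/
theorem badSk {β : ℝ} (hβ : 0 < β) (hβ2 : β < 3 / 2) : BadSk β := by
  obtain ⟨τ, κ, hτ, hτ1, hκ, hG⟩ := kapG_sk hβ hβ2
  obtain ⟨n₁, -, hn₁⟩ := numS_of hβ
  refine ⟨min (κ / 2) 1, cB β τ, 5, by positivity, min_le_right _ _, ?_, fun α hα => ?_⟩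
  · unfold cB Hc
    positivity
  obtain ⟨N, hN⟩ := pow_large hα (max 10 (max (β ^ 2) (β ^ 2 / τ)))
  obtain ⟨N', hN'⟩ := pow_large (show (0 : ℝ) < 1 / 7 by norm_num) (1 / τ)
  refine ⟨max n₁ (max N N'), fun n hn δ T ρ q hk hx hx1 hf hT => ?_⟩
  have g1 : n₁ ≤ n := (le_max_left _ _).trans hn
  have g2 := hN n (((le_max_left _ _).trans (le_max_right _ _)).trans hn)
  have g3 := hN' n (((le_max_right _ _).trans (le_max_right _ _)).trans hn)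
  have hA10 : 10 ≤ (n : ℝ) ^ α := (le_max_left _ _).trans g2
  have hAβ : β ^ 2 ≤ (n : ℝ) ^ α := ((le_max_left _ _).trans (le_max_right _ _)).trans g2
  have hAτ : β ^ 2 / τ ≤ (n : ℝ) ^ α := ((le_max_right _ _).trans (le_max_right _ _)).trans g2
  have h := hn₁ n g1 q (skCS n hk hx hx1) _ δ T ρ hf
  have hnn : 0 < n := by have := hf.n2; omega
  have hn2 := hf.n0
  have hn0 : (0 : ℝ) < n := by linarith
  have hρ := hf.ρA
  have hT1 := hf.T1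
  have hxτ : q.x ≤ τ := by
    have h1 := hf.x7
    have h2 : q.x * (1 / τ) ≤ 1 := (mul_le_mul_of_nonneg_left g3 hx.le).trans h1
    rw [mul_one_div, div_le_one hτ] at h2
    exact h2
  have hs12 : 1 / 2 ≤ q.s1 := by
    have h1 := hf.hs1
    rw [hf.ht1] at h1
    linarith
  have hnM : (n : ℝ) ≤ τ * (NN n β ρ / (2 * (n : ℝ) ^ α)) := by
    set A := (n : ℝ) ^ α with hA
    have hA0 : 0 < A := by linarith
    have h1 : A ^ 2 ≤ A ^ 40 := pow_le_pow_right₀ (by linarith) (by norm_num)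
    have h2 : β ^ 2 ≤ A * τ := by
      rwa [div_le_iff₀ hτ] at hAτ
    have h3 : β ^ 2 * A ≤ τ * ρ := by
      calc β ^ 2 * A ≤ A * τ * A := mul_le_mul_of_nonneg_right h2 hA0.le
        _ = τ * A ^ 2 := by ring
        _ ≤ τ * ρ := mul_le_mul_of_nonneg_left (h1.trans hρ) hτ.le
    have h4 : τ * (NN n β ρ / (2 * A)) = τ * ρ / (β ^ 2 * A) * n := by
      unfold NN
      field_simp
    rw [h4]
    refine le_mul_of_one_le_left hn0.le ?_
    rw [le_div_iff₀ (by positivity), one_mul]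
    exact h3
  refine BadS.mono (badS_of (X := fun _ _ _ => 0) (κ := κ) (τ := τ) (e0 := 0) h
    (hKR_sk hk hx hx1 hf) hκ.le hτ (Fo.u_le hf hA10 hAβ) le_rfl hnM (fun _ _ _ => le_rfl)
    (fun _ _ => EG.const 0) (hG hk hx hx1 (by linarith) (kk_sq hnn β) hs12 h.s1le hxτ) ?_)
    hf (min_le_left _ _)
  simp only [En_const (skCS n hk hx hx1).c11 hx, Finset.sum_const_zero, zero_mul, le_refl]

/-- **(KAP) for the SK model, `β < 3/2`, in the letters of the assembly.** -/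
theorem kap_sk_hK {β : ℝ} (hβ : 0 < β) (hβ2 : β < 3 / 2) :
    ∃ C : ℝ, ∃ m : ℕ, ∃ c : ℝ, 0 < c ∧ ∀ α : ℝ, 0 < α → ∃ n₀ : ℕ, ∀ n : ℕ, n₀ ≤ n →
      ∀ (δ T ρ : ℝ) (q : Par),
        Fo n β ((n : ℝ) ^ α) δ T ρ q (lz (kk n β) SkS) (AA (kk n β) q.x) (DC (kk n β) q.x) →
        T ≤ 1 / (n : ℝ) ^ α →
        2 * ρ / (β ^ 2 * n) ≤ C * ((n : ℝ) ^ α) ^ m * (√(1 / (n * T)) +
          q.x * √(2 * ρ / (β ^ 2 * n)) + ((1 / (q.x ^ 2 * ρ * T) + 1 / (n * T)) ^ c + q.x ^ c) *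
            (2 * ρ / (β ^ 2 * n)) + 1 / n) :=
  kap_hK hβ (badSk hβ hβ2)

end Vale.Agent.P146.R1S
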