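import Vale.Agent.P146.H325.Main1

/-!
Values at the row share zero: the column of the site `b` is the unit vector `e_b`.
-/

open MeasureTheory ProbabilityTheory

namespace Vale.Agent.P146.H325

open Vale.Agent.P157.Lv Vale.Agent.P146.H425 Vale.Agent.P146.H332 Matrix

set_option linter.unusedSectionVars false

variable {n : ℕ} {k x : ℝ} {b : Fin n}

/-- flip the spin of the site `b` -/
def flp (b : Fin n) (σ : Fin n → ℤˣ) : Fin n → ℤˣ := Function.update σ b (-σ b)

lemma flp_flp (b : Fin n) (σ : Fin n → ℤˣ) : flp b (flp b σ) = σ := by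
  unfold flp
  simp

/-- the flip as a permutation -/
def flpE (b : Fin n) : Equiv.Perm (Fin n → ℤˣ) :=
  ⟨flp b, flp b, flp_flp b, flp_flp b⟩

lemma sp_flp_self (b : Fin n) (σ : Fin n → ℤˣ) : sp (flp b σ) b = -sp σ b := by
  unfold sp flp
  simp

lemma sp_flp_ne {b i : Fin n} (h : i ≠ b) (σ : Fin n → ℤˣ) : sp (flp b σ) i = sp σ i := by
  unfold sp flp
  rw [Function.update_of_ne h]

/-- the sign of a coupling under the flip -/
noncomputable def sg (b : Fin n) (e : Pair n) : ℝ := if e ∈ row b then -1 else 1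

lemma sg_sq (b : Fin n) (e : Pair n) : sg b e ^ 2 = 1 := by
  unfold sg
  split_ifs <;> norm_num

lemma SkS_flp (b : Fin n) (e : Pair n) (σ : Fin n → ℤˣ) :
    SkS e (flp b σ) = sg b e * SkS e σ := by
  unfold SkS sg
  have h := e.2
  by_cases h1 : e.1.1 = b
  · have h2 : e.1.2 ≠ b := by rw [← h1]; exact h.ne'
    rw [if_pos (mem_row.2 (Or.inl h1)), h1, sp_flp_self, sp_flp_ne h2]
    ring
  · by_cases h2 : e.1.2 = b
    · rw [if_pos (mem_row.2 (Or.inr h2)), h2, sp_flp_self, sp_flp_ne h1]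
      ring
    · rw [if_neg (by rw [mem_row]; tauto), sp_flp_ne h1, sp_flp_ne h2]
      ring

lemma ez_flp (b : Fin n) (y : Pair n → ℝ) (σ : Fin n → ℤˣ) :
    ez k SkS (fun e => sg b e * y e) σ = ez k SkS y (flp b σ) := by
  unfold ez
  congr 2
  refine Finset.sum_congr rfl fun e _ => ?_
  rw [SkS_flp]
  ring

lemma Zp_flp (b : Fin n) (y : Pair n → ℝ) :
    Zp k (SkS (n := n)) (fun e => sg b e * y e) = Zp k SkS y := by
  unfold Zp
  rw [← Equiv.sum_comp (flpE b) fun σ => ez k SkS y σ]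
  exact Finset.sum_congr rfl fun σ _ => ez_flp b y σ

lemma Zx_flp (b : Fin n) (y : Pair n → ℝ) :
    Zx k (SkS (n := n)) x (fun e => sg b e * y e) = Zx k SkS x y := by
  unfold Zx
  rw [Zp_flp]

lemma av_flp (b : Fin n) {p : Fin n} (hp : p ≠ b) (y : Pair n → ℝ) :
    av k SkS (pr p b) (fun e => sg b e * y e) = -av k SkS (pr p b) y := by
  unfold av
  rw [Zp_flp, ← neg_div]
  congr 1
  rw [← Equiv.sum_comp (flpE b) fun σ => ez k SkS y σ * pr p b σ, ← Finset.sum_neg_distrib]
  refine Finset.sum_congr rfl fun σ _ => ?_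
  rw [ez_flp]
  show ez k SkS y (flp b σ) * pr p b σ = -(ez k SkS y (flp b σ) * pr p b (flp b σ))
  unfold pr
  rw [sp_flp_self, sp_flp_ne hp]
  ring

lemma pt_flp (l : Lvl (Pair n)) (w : Pair n ⊕ Pair n → ℝ) (z : Pair n → ℝ) :
    pt (row b) l.a l.b l.c 0 w (fun e => sg b e * z e) =
      fun e => sg b e * pt (row b) l.a l.b l.c 0 w z e := by
  funext e
  unfold pt u sg
  by_cases he : e ∈ row b
  · simp [he]
  · simp [he]

lemma Cm_zero (l : Lvl (Pair n)) (w : Pair n ⊕ Pair n → ℝ) {p : Fin n} (hp : p ≠ b) :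
    Cm k x b l p b 0 w = 0 := by
  unfold Cm rS rl
  have h : Nl k SkS x (row b) l (av k SkS (pr p b)) 0 w = 0 := by
    unfold Nl P
    set F : (Pair n → ℝ) → ℝ := fun u => Zx k SkS x u * av k SkS (pr p b) u with hF
    have hFm : Measurable F := (eb_av (k := k) (x := x) (pr p b)).meas
    have h1 : Measurable fun z : Pair n → ℝ => F (pt (row b) l.a l.b l.c 0 w z) :=
      hFm.comp (measurable_pt_right (row b) l.a l.b l.c 0 w)
    have h2 := int_flip (sg_sq b) h1
    have h3 : ∀ z : Pair n → ℝ, F (pt (row b) l.a l.b l.c 0 w fun i => sg b i * z i) =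
        -F (pt (row b) l.a l.b l.c 0 w z) := by
      intro z
      rw [pt_flp, hF]
      simp only
      rw [Zx_flp, av_flp b hp]
      ring
    simp only [h3] at h2
    rw [integral_neg] at h2
    show ∫ z, F (pt (row b) l.a l.b l.c 0 w z) ∂(gI (Pair n)) = 0
    linarith
  rw [h, zero_div]

lemma VU_zero (l : Lvl (Pair n)) (w : Pair n ⊕ Pair n → ℝ) (p : Fin n) :
    VU k x b l 0 w p = if p = b then 1 else 0 := by
  unfold VU
  split_ifs with h
  · rw [h]; exact Cm_self b
  · exact Cm_zero l w h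

lemma M0_col (l : Lvl (Pair n)) (w : Pair n ⊕ Pair n → ℝ) (p : Fin n) :
    M0 k x b l w p b = if p = b then 1 else 0 := VU_zero l w p

lemma M0_mul (l l' : Lvl (Pair n)) (w : Pair n ⊕ Pair n → ℝ) :
    (M0 k x b l w * M0 k x b l' w) b b = 1 := by
  rw [Matrix.mul_apply]
  simp only [M0_col, mul_ite, mul_one, mul_zero, Finset.sum_ite_eq', Finset.mem_univ, if_true]

lemma one_le_fr_M0 (l : Lvl (Pair n)) (w : Pair n ⊕ Pair n → ℝ) : 1 ≤ fr (M0 k x b l w) := by
  have h1 : (M0 k x b l w b b) ^ 2 ≤ fr (M0 k x b l w) := by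
    unfold fr
    refine le_trans ?_ (Finset.single_le_sum (f := fun i => ∑ j, M0 k x b l w i j ^ 2)
      (fun _ _ => Finset.sum_nonneg fun _ _ => sq_nonneg _) (Finset.mem_univ b))
    exact Finset.single_le_sum (f := fun j => M0 k x b l w b j ^ 2) (fun _ _ => sq_nonneg _)
      (Finset.mem_univ b)
  rw [M0_col, if_pos rfl] at h1
  linarith

/-- sums against the unit vector -/
lemma Fq_zero (d i j : Lvl (Pair n)) (Y : (Pair n ⊕ Pair n → ℝ) → Matrix (Fin n) (Fin n) ℝ)
    (w : Pair n ⊕ Pair n → ℝ) : Fq k x b d i j Y 0 w = Nm k x b d 0 w * Y w b b := by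
  unfold Fq
  simp only [VU_zero]
  rw [Finset.sum_eq_single b]
  · rw [Finset.sum_eq_single b]
    · simp only [if_true]; ring
    · intro q _ hq
      rw [if_neg hq]; ring
    · intro h; exact (h (Finset.mem_univ b)).elim
  · intro p _ hp
    rw [if_neg hp]
    exact Finset.sum_eq_zero fun q _ => by ring
  · intro h; exact (h (Finset.mem_univ b)).elim

lemma Fi_zero (d i : Lvl (Pair n)) (c : (Pair n ⊕ Pair n → ℝ) → ℝ)
    (w : Pair n ⊕ Pair n → ℝ) : Fi k x b d i c 0 w = Nm k x b d 0 w * c w := by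
  unfold Fi
  simp only [VU_zero]
  rw [Finset.sum_eq_single b]
  · simp only [if_true]; ring
  · intro p _ hp
    rw [if_neg hp]; ring
  · intro h; exact (h (Finset.mem_univ b)).elim

lemma Tot_zero_le {lam : ℝ} (hl : 0 < lam) (l1 l2 : Lvl (Pair n))
    (w : Pair n ⊕ Pair n → ℝ) : Tot k x b lam l1 l2 0 w ≤ Nm k x b l2 0 w := by
  unfold Tot
  simp only [Fq_zero, Fi_zero, M0_mul]
  have hN : 0 ≤ Nm k x b l2 0 w := (N1_pos k SkS x (row b) l2 0 w).le
  have h1 := one_le_fr_M0 (k := k) (x := x) (b := b) l1 w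
  have h2 := one_le_fr_M0 (k := k) (x := x) (b := b) l2 w
  have h3 : 0 ≤ 1 / (2 * lam) := by positivity
  have h4 := mul_le_mul_of_nonneg_left h1 hN
  have h5 := mul_le_mul_of_nonneg_left h2 hN
  have h6 : 0 ≤ lam / 2 * (Nm k x b l2 0 w * 1) := by positivity
  have h7 : 0 ≤ 1 / (2 * lam) * (Nm k x b l2 0 w * 1) := by positivity
  linarith

end Vale.Agent.P146.H325
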