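import Vale.Agent.P146.H325.Main1
import Vale.Agent.P146.H332.Touch

/-!
Growth: the derivative of the functional with frozen weights is almost nondecreasing.
-/

open MeasureTheory ProbabilityTheory

namespace Vale.Agent.P146.H325

open Vale.Agent.P157.Lv Vale.Agent.P146.H425 Vale.Agent.P146.H332 Matrix

set_option linter.unusedSectionVars false

variable {n : ℕ} {k x : ℝ} {b : Fin n} {l : Lvl (Pair n)} {s : ℝ} {w : Pair n ⊕ Pair n → ℝ}

/-- the martingale part of the row gradient -/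
noncomputable def MD (k x : ℝ) (b : Fin n) (l : Lvl (Pair n)) (s : ℝ)
    (w : Pair n ⊕ Pair n → ℝ) : Matrix (Fin n) (Fin n) ℝ :=
  fun p q => Cm k x b l p q s w - (1 - x) * Em k x b l p q s w

lemma qf_MD (v : Fin n → ℝ) : qf (MD k x b l s w) v =
    qf (fun i j => Cm k x b l i j s w) v - (1 - x) * qf (fun i j => Em k x b l i j s w) v := by
  unfold qf MD
  simp only [Finset.mul_sum, ← Finset.sum_sub_distrib]
  exact Finset.sum_congr rfl fun i _ => Finset.sum_congr rfl fun j _ => by ring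

lemma fr_MD_le (hx : 0 ≤ x) (hx1 : x ≤ 1) : fr (MD k x b l s w) ≤ fr (MC k x b l s w) := by
  refine psd_sq_mono (A := MD k x b l s w) (B := MC k x b l s w)
    (fun i j => by unfold MD; rw [Cm_comm i j, Em_comm i j])
    (fun v => ?_) (fun i j => Cm_comm i j) fun v => ?_
  · show 0 ≤ qf (MD k x b l s w) v
    rw [qf_MD]
    have h1 := qf_Em_le (k := k) (x := x) (b := b) (l := l) (s := s) (w := w) v
    have h2 := qf_Em_nonneg (k := k) (x := x) (b := b) (l := l) (s := s) (w := w) v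
    nlinarith
  · show qf (MD k x b l s w) v ≤ qf (fun i j => Cm k x b l i j s w) v
    rw [qf_MD]
    have h2 := qf_Em_nonneg (k := k) (x := x) (b := b) (l := l) (s := s) (w := w) v
    nlinarith

/-- a rank one perturbation -/
lemma fr_pert {q : Type} [Fintype q] [DecidableEq q] (M D H : Matrix q q ℝ) (U : q → ℝ)
    {x c : ℝ} (hx : 0 ≤ x) (hx1 : x ≤ 1) (hD : fr D ≤ c) (hU : vn U ^ 2 ≤ c)
    (hH : ∀ i j, H i j = D i j - x * (U i * U j)) :
    |fr (M * H) - fr (M * D)| ≤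
      3 / 2 * x * (fr M ^ 2 + c ^ 2) := by
  have hc : 0 ≤ c := (sq_nonneg _).trans hU
  have hM := Vale.Agent.P146.H325.fr_nonneg M
  have hu := vn_nonneg U
  set m : q → ℝ := fun p => ∑ l, U l * M p l with hm
  have e1 : ∀ i j, (M * H) i j = (M * D) i j - x * (m i * U j) := by
    intro i j
    rw [mul_apply, mul_apply, hm]
    simp only [Finset.sum_mul, Finset.mul_sum, ← Finset.sum_sub_distrib]
    exact Finset.sum_congr rfl fun l _ => by rw [hH]; ring
  have e2 : fr (M * H) - fr (M * D) =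
      -(2 * x) * (∑ i, ∑ j, (M * D) i j * (m i * U j)) + x ^ 2 * (vn m * vn U) := by
    unfold fr vn
    rw [Finset.sum_mul_sum, Finset.mul_sum, Finset.mul_sum, ← Finset.sum_sub_distrib,
      ← Finset.sum_add_distrib]
    refine Finset.sum_congr rfl fun i _ => ?_
    rw [Finset.mul_sum, Finset.mul_sum, ← Finset.sum_sub_distrib, ← Finset.sum_add_distrib]
    refine Finset.sum_congr rfl fun j _ => ?_
    rw [e1]
    ring
  have h1 : vn m ≤ fr M * vn U := vn_mulVec M U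
  have h2 : (∑ i, ∑ j, (M * D) i j * (m i * U j)) ^ 2 ≤ (fr M * c) ^ 2 := by
    refine (cs_form (M * D) m U).trans ?_
    have h3 : fr (M * D) ≤ fr M * c := (fr_mul_le M D).trans (mul_le_mul_of_nonneg_left hD hM)
    have h4 : vn m * vn U ≤ fr M * c := by
      calc vn m * vn U ≤ (fr M * vn U) * vn U := mul_le_mul_of_nonneg_right h1 hu
        _ = fr M * vn U ^ 2 := by ring
        _ ≤ fr M * c := mul_le_mul_of_nonneg_left hU hM
    rw [sq]
    exact mul_le_mul h3 h4 (mul_nonneg (vn_nonneg _) hu) (mul_nonneg hM hc)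
  have h5 : |∑ i, ∑ j, (M * D) i j * (m i * U j)| ≤ fr M * c :=
    abs_le_of_sq_le_sq h2 (mul_nonneg hM hc)
  have h6 : vn m * vn U ≤ fr M * c := by
    calc vn m * vn U ≤ (fr M * vn U) * vn U := mul_le_mul_of_nonneg_right h1 hu
      _ = fr M * vn U ^ 2 := by ring
      _ ≤ fr M * c := mul_le_mul_of_nonneg_left hU hM
  have h7 : 0 ≤ vn m * vn U := mul_nonneg (vn_nonneg _) hu
  have h8 : fr M * c ≤ 1 / 2 * (fr M ^ 2 + c ^ 2) := by nlinarith [sq_nonneg (fr M - c)]
  rw [e2]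
  have h9 : |-(2 * x) * (∑ i, ∑ j, (M * D) i j * (m i * U j)) + x ^ 2 * (vn m * vn U)| ≤
      2 * x * (fr M * c) + x * (fr M * c) := by
    refine (abs_add_le _ _).trans (add_le_add ?_ ?_)
    · rw [abs_mul, abs_neg, abs_of_nonneg (by positivity : 0 ≤ 2 * x)]
      exact mul_le_mul_of_nonneg_left h5 (by positivity)
    · rw [abs_of_nonneg (mul_nonneg (sq_nonneg x) h7)]
      have hxx : x ^ 2 ≤ x := by nlinarith
      exact mul_le_mul hxx h6 h7 hx
  refine h9.trans ?_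
  nlinarith [mul_le_mul_of_nonneg_left h8 hx]

lemma MH_eq (i j : Fin n) : MH k x b l s w i j =
    MD k x b l s w i j - x * (VU k x b l s w i * VU k x b l s w j) := rfl

lemma pert_MH (hx : 0 ≤ x) (hx1 : x ≤ 1) (M : Matrix (Fin n) (Fin n) ℝ) :
    |fr (M * MH k x b l s w) - fr (M * MD k x b l s w)| ≤
      3 / 2 * x * (fr M ^ 2 + fr (MC k x b l s w) ^ 2) := by
  exact fr_pert M _ _ _ hx hx1 (fr_MD_le hx hx1) vn_VU_le MH_eq

lemma mt_MD (hx : 0 ≤ x) (p q : Fin n) :
    Mt k (SkS (n := n)) x (row b) l fun s w => MD k x b l s w p q := by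
  have h1 : Mt k (SkS (n := n)) x (row b) l fun s w => Cm k x b l p q s w :=
    mt_rl (ob_av k SkS x (pr p q)) hx
  obtain ⟨G', hG⟩ := ob_avav k (SkS (n := n)) x (pr p b) (pr q b)
  have h2 : Mt k (SkS (n := n)) x (row b) l fun s w => Em k x b l p q s w := mt_rl hG hx
  have h3 := h1.add (h2.const_mul (-(1 - x)))
  refine cast ?_ h3
  congr 1
  funext s w
  unfold MD
  ring

/-- **Growth.** -/
theorem grow (hx : 0 ≤ x) (hx1 : x ≤ 1)
    {M : (Pair n ⊕ Pair n → ℝ) → Matrix (Fin n) (Fin n) ℝ}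
    (hM : ∀ p q, Wt (row b) fun w => M w p q) (hT : ∀ w, (M w)ᵀ = M w) {t1 t2 B : ℝ}
    (h1 : 0 < t1) (h12 : t1 ≤ t2) (h2 : t2 ≤ 1)
    (hB : ∀ s ∈ Set.Icc (0 : ℝ) t2, ∫ w, Nm k x b l s w *
      (fr (M w) ^ 2 + fr (MC k x b l s w) ^ 2) ∂(gI (Pair n ⊕ Pair n)) ≤ B) :
    (∫ w, Fq k x b l l l (fun w => M w * M w) t1 w ∂(gI (Pair n ⊕ Pair n))) +
        (t2 - t1) / t1 * ((∫ w, Fq k x b l l l (fun w => M w * M w) t1 w
          ∂(gI (Pair n ⊕ Pair n))) - ∫ w, Fq k x b l l l (fun w => M w * M w) 0 w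
          ∂(gI (Pair n ⊕ Pair n))) ≤
      (∫ w, Fq k x b l l l (fun w => M w * M w) t2 w ∂(gI (Pair n ⊕ Pair n))) +
        3 * k ^ 2 * x * (t2 - t1) * B := by
  have hk : 0 ≤ k ^ 2 := sq_nonneg k
  have hN : ∀ s w, 0 ≤ Nm k x b l s w := fun s w => (N1_pos k SkS x (row b) l s w).le
  obtain ⟨D, hD⟩ := kf_Fq (k := k) hx l l l (wt_mul hM hM)
  have hL : ∀ s w, (∑ p, ∑ q, (M w * M w) p q *
      (Nm k x b l s w * drift k x b l l l p q s w)) =
      k ^ 2 * (Nm k x b l s w * fr (M w * MH k x b l s w)) := by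
    intro s w
    simp only [drift_22, pull2]
    rw [tr_form MH_T _ MH_T, fr_eq_trace, transpose_mul, hT, MH_T,
      show MH k x b l s w * (M w * M w) * MH k x b l s w =
        MH k x b l s w * M w * (M w * MH k x b l s w) by simp only [Matrix.mul_assoc],
      Matrix.trace_mul_comm (MH k x b l s w * M w)]
    ring
  -- the martingale part
  set a : ℝ → ℝ := fun s => ∫ w, Nm k x b l s w * fr (M w * MD k x b l s w)
    ∂(gI (Pair n ⊕ Pair n)) with ha
  have amono : MonotoneOn a (Set.Icc 0 1) := by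
    have h := mono_sq (k := k) (S := SkS (n := n)) (A0 := row b) (l := l)
      (Finset.univ : Finset (Fin n × Fin n))
      (f := fun pq s w => ∑ r, M w pq.1 r * MD k x b l s w r pq.2) hx
      (fun pq _ => Mt.sum Finset.univ fun r _ => (mt_MD hx r pq.2).wt (hM pq.1 r))
    have e : a = fun s => ∫ w, Nl k SkS x (row b) l (fun _ => 1) s w *
        ∑ pq : Fin n × Fin n, (∑ r, M w pq.1 r * MD k x b l s w r pq.2) ^ 2
          ∂(gI (Pair n ⊕ Pair n)) := by
      funext s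
      simp only [ha]
      congr 1
      funext w
      rw [Fintype.sum_prod_type]
      rfl
    rw [e]
    exact h
  -- growth facts
  have egM : ∀ p q, EG fun w => M w p q := fun p q => (hM p q).eg
  have egN : ∀ s ∈ Set.Icc (0 : ℝ) 1, EG (Nm k x b l s) := fun s hs => eg_N (row b) l hs
  have egC : ∀ s ∈ Set.Icc (0 : ℝ) 1, ∀ p q, EG (Cm k x b l p q s) := fun s hs p q =>
    eg_rl (row b) l (ob_av k SkS x (pr p q)) hx hs
  have egE : ∀ s ∈ Set.Icc (0 : ℝ) 1, ∀ p q, EG (Em k x b l p q s) := fun s hs p q => by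
    obtain ⟨G', hG⟩ := ob_avav k (SkS (n := n)) x (pr p b) (pr q b)
    exact eg_rl (row b) l hG hx hs
  have egD : ∀ s ∈ Set.Icc (0 : ℝ) 1, ∀ p q, EG fun w => MD k x b l s w p q := fun s hs p q =>
    (egC s hs p q).sub ((egE s hs p q).const_mul _)
  have egH : ∀ s ∈ Set.Icc (0 : ℝ) 1, ∀ p q, EG fun w => MH k x b l s w p q := fun s hs p q =>
    (egD s hs p q).sub (((egC s hs p b).mul (egC s hs q b)).const_mul _)
  have frM : ∀ {A : (Pair n ⊕ Pair n → ℝ) → Matrix (Fin n) (Fin n) ℝ},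
      (∀ p q, EG fun v => A v p q) → EG fun v => fr (A v) := fun hA =>
    EG.sum _ fun p _ => EG.sum _ fun q _ => (hA p q).pow 2
  have mulM : ∀ {A B : (Pair n ⊕ Pair n → ℝ) → Matrix (Fin n) (Fin n) ℝ},
      (∀ p q, EG fun v => A v p q) → (∀ p q, EG fun v => B v p q) →
        ∀ p q, EG fun v => (A v * B v) p q := fun hA hB p q => by
    simp only [Matrix.mul_apply]
    exact EG.sum _ fun r _ => (hA p r).mul (hB r q)
  have i1 : ∀ s ∈ Set.Icc (0 : ℝ) 1, Integrable (fun w => Nm k x b l s w *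
      fr (M w * MH k x b l s w)) (gI (Pair n ⊕ Pair n)) := fun s hs =>
    ((egN s hs).mul (frM (mulM egM (egH s hs)))).integrable
  have i2 : ∀ s ∈ Set.Icc (0 : ℝ) 1, Integrable (fun w => Nm k x b l s w *
      fr (M w * MD k x b l s w)) (gI (Pair n ⊕ Pair n)) := fun s hs =>
    ((egN s hs).mul (frM (mulM egM (egD s hs)))).integrable
  have i3 : ∀ s ∈ Set.Icc (0 : ℝ) 1, Integrable (fun w => 3 / 2 * x * (Nm k x b l s w *
      (fr (M w) ^ 2 + fr (MC k x b l s w) ^ 2))) (gI (Pair n ⊕ Pair n)) := fun s hs =>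
    (((egN s hs).mul (((frM egM).pow 2).add ((frM (egC s hs)).pow 2))).const_mul _).integrable
  -- comparison of the rates
  have cmp : ∀ s ∈ Set.Icc (0 : ℝ) t2,
      |(∫ w, Nm k x b l s w * fr (M w * MH k x b l s w) ∂(gI (Pair n ⊕ Pair n))) - a s| ≤
        3 / 2 * x * B := by
    intro s hs
    have hs1 : s ∈ Set.Icc (0 : ℝ) 1 := ⟨hs.1, hs.2.trans h2⟩
    rw [ha]
    simp only
    rw [← integral_sub (i1 s hs1) (i2 s hs1), ← Real.norm_eq_abs]
    refine (norm_integral_le_integral_norm _).trans ?_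
    refine (integral_mono ((i1 s hs1).sub (i2 s hs1)).norm (i3 s hs1) fun w => ?_).trans ?_
    · simp only [Pi.sub_apply]
      rw [Real.norm_eq_abs, ← mul_sub, abs_mul, abs_of_nonneg (hN s w)]
      refine (mul_le_mul_of_nonneg_left (pert_MH hx hx1 (M w)) (hN s w)).trans (le_of_eq ?_)
      ring
    · rw [integral_const_mul]
      exact mul_le_mul_of_nonneg_left (hB s hs) (by positivity)
  have iL : ∀ s, (∫ w, (∑ p, ∑ q, (M w * M w) p q *
      (Nm k x b l s w * drift k x b l l l p q s w)) ∂(gI (Pair n ⊕ Pair n))) =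
      k ^ 2 * ∫ w, Nm k x b l s w * fr (M w * MH k x b l s w) ∂(gI (Pair n ⊕ Pair n)) := by
    intro s
    simp only [hL]
    rw [integral_const_mul]
  have up := KF.sub_le hD le_rfl h1.le (h12.trans h2) (M := k ^ 2 * (a t1 + 3 / 2 * x * B))
    (fun s hs => by
      rw [iL]
      refine mul_le_mul_of_nonneg_left ?_ hk
      have c1 := (abs_le.1 (cmp s ⟨hs.1, hs.2.trans h12⟩)).2
      have c2 := amono ⟨hs.1, hs.2.trans (h12.trans h2)⟩ ⟨h1.le, h12.trans h2⟩ hs.2
      linarith)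
  have lo := KF.sub_le (hD.const_mul (-1)) h1.le h12 h2 (M := -(k ^ 2 * (a t1 - 3 / 2 * x * B)))
    (fun s hs => by
      rw [integral_const_mul, iL]
      have c1 := (abs_le.1 (cmp s ⟨h1.le.trans hs.1, hs.2⟩)).1
      have c2 := amono ⟨h1.le, h12.trans h2⟩ ⟨h1.le.trans hs.1, hs.2.trans h2⟩ hs.1
      have c3 : a t1 - 3 / 2 * x * B ≤ ∫ w, Nm k x b l s w * fr (M w * MH k x b l s w)
        ∂(gI (Pair n ⊕ Pair n)) := by linarith
      have c4 := mul_le_mul_of_nonneg_left c3 hk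
      linarith)
  simp only [integral_const_mul] at lo
  set g : ℝ → ℝ := fun s => ∫ w, Fq k x b l l l (fun w => M w * M w) s w
    ∂(gI (Pair n ⊕ Pair n)) with hg
  have up' : g t1 - g 0 ≤ t1 * (k ^ 2 * (a t1 + 3 / 2 * x * B)) := by
    rw [sub_zero] at up
    exact up
  have lo' : -1 * g t2 - -1 * g t1 ≤ (t2 - t1) * -(k ^ 2 * (a t1 - 3 / 2 * x * B)) := lo
  show g t1 + (t2 - t1) / t1 * (g t1 - g 0) ≤ g t2 + 3 * k ^ 2 * x * (t2 - t1) * B
  have h3 : (t2 - t1) / t1 * (g t1 - g 0) ≤ (t2 - t1) * (k ^ 2 * (a t1 + 3 / 2 * x * B)) := by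
    have h4 : 0 ≤ (t2 - t1) / t1 := div_nonneg (by linarith) h1.le
    refine (mul_le_mul_of_nonneg_left up' h4).trans (le_of_eq ?_)
    field_simp
  nlinarith

end Vale.Agent.P146.H325
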