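import Vale.Agent.P146.H425.Gauss

/-!
Gaussian smoothing with vector variances: `Tc c F u = E F(u + √c z)`, the semigroup property.
-/

open MeasureTheory ProbabilityTheory

namespace Vale.Agent.P146.H325

open Vale.Agent.P157.Lv Vale.Agent.P146.H425

variable {ι : Type} [Fintype ι]

/-- Gaussian smoothing with the vector variance `c`. -/
noncomputable def Tc (c : ι → ℝ) (F : (ι → ℝ) → ℝ) (u : ι → ℝ) : ℝ :=
  ∫ z, F (fun e => u e + √(c e) * z e) ∂(gI ι)

/-- rotation invariance with vector coefficients -/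
lemma mp_mixv {α β : ι → ℝ} (h : ∀ i, α i ^ 2 + β i ^ 2 = 1) :
    MeasurePreserving (fun p : (ι → ℝ) × (ι → ℝ) => fun i => α i * p.1 i + β i * p.2 i)
      ((gI ι).prod (gI ι)) (gI ι) := by
  have h1 := MeasureTheory.measurePreserving_arrowProdEquivProdArrow ℝ ℝ ι
    (fun _ => gaussianReal 0 1) (fun _ => gaussianReal 0 1)
  have h2 : MeasurePreserving (fun q : ι → ℝ × ℝ => fun i => α i * (q i).1 + β i * (q i).2)
      (Measure.pi fun _ => (gaussianReal 0 1).prod (gaussianReal 0 1)) (gI ι) := by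
    refine ⟨by fun_prop, ?_⟩
    have hsf : ∀ i, SigmaFinite (((gaussianReal 0 1).prod (gaussianReal 0 1)).map
        (fun p : ℝ × ℝ => α i * p.1 + β i * p.2)) := by
      intro i
      rw [map_mix_one (h i)]
      infer_instance
    have h3 := Measure.pi_map_pi (μ := fun _ : ι => (gaussianReal 0 1).prod (gaussianReal 0 1))
      (f := fun i (p : ℝ × ℝ) => α i * p.1 + β i * p.2)
      (by
        intro i
        exact (by fun_prop : Measurable fun p : ℝ × ℝ => α i * p.1 + β i * p.2).aemeasurable)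
    rw [h3]
    congr 1
    funext i
    exact map_mix_one (h i)
  have h4 := h2.comp (h1.symm)
  exact h4

lemma norm_aff_le (u : ι → ℝ) (c z : ι → ℝ) {K : ℝ} (hK : ∀ e, |c e| ≤ K) :
    ‖fun e => u e + c e * z e‖ ≤ ‖u‖ + K * ‖z‖ := by
  by_cases hne : Nonempty ι
  · have hK0 : 0 ≤ K := (abs_nonneg _).trans (hK hne.some)
    rw [pi_norm_le_iff_of_nonneg (by positivity)]
    intro e
    refine (norm_add_le _ _).trans (add_le_add (norm_le_pi_norm u e) ?_)
    rw [norm_mul, Real.norm_eq_abs]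
    exact mul_le_mul (hK e) (norm_le_pi_norm z e) (norm_nonneg _) hK0
  · have h0 : ∀ v : ι → ℝ, ‖v‖ = 0 := by
      intro v
      have : v = 0 := by
        funext e
        exact (hne ⟨e⟩).elim
      rw [this, norm_zero]
    rw [h0, h0, h0]
    simp

/-- bound of the coefficients -/
noncomputable def bK (c : ι → ℝ) : ℝ := ∑ e, |c e|

lemma le_bK (c : ι → ℝ) (e : ι) : |c e| ≤ bK c :=
  Finset.single_le_sum (f := fun e => |c e|) (fun _ _ => abs_nonneg _) (Finset.mem_univ e)

lemma bK_nonneg (c : ι → ℝ) : 0 ≤ bK c := Finset.sum_nonneg fun _ _ => abs_nonneg _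

lemma EG.aff {F : (ι → ℝ) → ℝ} (hF : EG F) (u c : ι → ℝ) :
    EG fun z => F (fun e => u e + c e * z e) := by
  obtain ⟨C, k, hC, hk, hb⟩ := hF.bdd
  refine ⟨hF.meas.comp (by fun_prop), C * Real.exp (k * ‖u‖), k * bK c, by positivity,
    mul_nonneg hk (bK_nonneg c), fun z => (hb _).trans ?_⟩
  rw [mul_assoc, ← Real.exp_add]
  gcongr
  have h3 := norm_aff_le u c z (le_bK c)
  nlinarith [mul_le_mul_of_nonneg_left h3 hk]

lemma EG.integrable_aff {F : (ι → ℝ) → ℝ} (hF : EG F) (u c : ι → ℝ) :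
    Integrable (fun z => F (fun e => u e + c e * z e)) (gI ι) := (EG.aff hF u c).integrable

lemma EG.Tc {F : (ι → ℝ) → ℝ} (hF : EG F) (c : ι → ℝ) : EG (Tc c F) := by
  obtain ⟨C, k, hC, hk, hb⟩ := hF.bdd
  set c' : ι → ℝ := fun e => √(c e) with hc'
  have hA0 : 0 ≤ ∫ z : ι → ℝ, Real.exp (k * bK c' * ‖z‖) ∂(gI ι) :=
    integral_nonneg fun w => (Real.exp_pos _).le
  refine ⟨?_, C * ∫ z : ι → ℝ, Real.exp (k * bK c' * ‖z‖) ∂(gI ι), k, mul_nonneg hC hA0, hk,
    fun u => ?_⟩
  · have : StronglyMeasurable (Function.uncurry fun (u z : ι → ℝ) =>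
        F (fun e => u e + √(c e) * z e)) := by
      refine Measurable.stronglyMeasurable ?_
      exact hF.meas.comp (by fun_prop)
    exact this.integral_prod_right.measurable
  · have h1 : |H325.Tc c F u| ≤ ∫ z, |F (fun e => u e + √(c e) * z e)| ∂(gI ι) := by
      rw [← Real.norm_eq_abs]
      exact (norm_integral_le_integral_norm _)
    refine h1.trans ?_
    have h2 : ∫ z, |F (fun e => u e + √(c e) * z e)| ∂(gI ι) ≤
        ∫ z, C * Real.exp (k * ‖u‖) * Real.exp (k * bK c' * ‖z‖) ∂(gI ι) := by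
      refine integral_mono (EG.integrable_aff hF.abs u c') ((integrable_exp_norm _).const_mul _)
        fun z => ?_
      refine (hb _).trans ?_
      rw [mul_assoc, ← Real.exp_add]
      gcongr
      have h3 := norm_aff_le u c' z (le_bK c')
      nlinarith [mul_le_mul_of_nonneg_left h3 hk]
    refine h2.trans (le_of_eq ?_)
    rw [integral_const_mul]
    ring

/-- two Gaussian steps are one, with vector coefficients -/
lemma rotv {F : (ι → ℝ) → ℝ} (hF : EG F) {a b c : ι → ℝ} (h : ∀ e, a e ^ 2 + b e ^ 2 = c e ^ 2)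
    (u : ι → ℝ) :
    ∫ z, (∫ z', F (fun e => u e + a e * z e + b e * z' e) ∂(gI ι)) ∂(gI ι) =
      ∫ z, F (fun e => u e + c e * z e) ∂(gI ι) := by
  set α : ι → ℝ := fun e => if c e = 0 then 1 else a e / c e with hα
  set β : ι → ℝ := fun e => if c e = 0 then 0 else b e / c e with hβ
  have hαβ : ∀ e, α e ^ 2 + β e ^ 2 = 1 := by
    intro e
    by_cases hc : c e = 0
    · simp [hα, hβ, hc]
    · simp only [hα, hβ, if_neg hc]
      rw [div_pow, div_pow, ← add_div, h, div_self (pow_ne_zero 2 hc)]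
  have hca : ∀ e, c e * α e = a e := by
    intro e
    by_cases hc : c e = 0
    · have := h e
      rw [hc] at this
      have ha : a e = 0 := by nlinarith [sq_nonneg (a e), sq_nonneg (b e)]
      simp [hα, hc, ha]
    · simp only [hα, if_neg hc]
      rw [mul_div_cancel₀ _ hc]
  have hcb : ∀ e, c e * β e = b e := by
    intro e
    by_cases hc : c e = 0
    · have := h e
      rw [hc] at this
      have hb : b e = 0 := by nlinarith [sq_nonneg (a e), sq_nonneg (b e)]
      simp [hβ, hc, hb]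
    · simp only [hβ, if_neg hc]
      rw [mul_div_cancel₀ _ hc]
  have h2 := mp_mixv (ι := ι) hαβ
  have eg := EG.aff hF u c
  have h3 : Integrable (fun q : (ι → ℝ) × (ι → ℝ) =>
      F (fun e => u e + c e * (α e * q.1 e + β e * q.2 e))) ((gI ι).prod (gI ι)) :=
    MeasurePreserving.integrable_comp_of_integrable (g := fun z : ι → ℝ => F (fun e => u e + c e * z e))
      h2 eg.integrable
  have h4 : ∫ z, F (fun e => u e + c e * z e) ∂(gI ι) =
      ∫ q : (ι → ℝ) × (ι → ℝ), F (fun e => u e + c e * (α e * q.1 e + β e * q.2 e))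
        ∂((gI ι).prod (gI ι)) := by
    conv_lhs => rw [← h2.map_eq]
    rw [integral_map h2.measurable.aemeasurable]
    rw [h2.map_eq]
    exact eg.meas.aestronglyMeasurable
  rw [h4, integral_prod _ h3]
  refine integral_congr_ae (Filter.Eventually.of_forall fun z => ?_)
  refine integral_congr_ae (Filter.Eventually.of_forall fun z' => ?_)
  simp only
  congr 1
  funext e
  rw [← hca e, ← hcb e]
  ring

/-- the semigroup property -/
lemma Tc_Tc {F : (ι → ℝ) → ℝ} (hF : EG F) {a b : ι → ℝ} (ha : ∀ e, 0 ≤ a e) (hb : ∀ e, 0 ≤ b e)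
    (u : ι → ℝ) : Tc a (Tc b F) u = Tc (fun e => a e + b e) F u := by
  unfold Tc
  refine rotv hF (fun e => ?_) u
  rw [Real.sq_sqrt (ha e), Real.sq_sqrt (hb e), Real.sq_sqrt (add_nonneg (ha e) (hb e))]

lemma Tc_zero (F : (ι → ℝ) → ℝ) (u : ι → ℝ) : Tc (fun _ => 0) F u = F u := by
  unfold Tc
  simp

lemma Tc_add {F G : (ι → ℝ) → ℝ} (hF : EG F) (hG : EG G) (c u : ι → ℝ) :
    Tc c (fun u => F u + G u) u = Tc c F u + Tc c G u :=
  integral_add (EG.integrable_aff hF u _) (EG.integrable_aff hG u _)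

lemma Tc_sub {F G : (ι → ℝ) → ℝ} (hF : EG F) (hG : EG G) (c u : ι → ℝ) :
    Tc c (fun u => F u - G u) u = Tc c F u - Tc c G u :=
  integral_sub (EG.integrable_aff hF u _) (EG.integrable_aff hG u _)

lemma Tc_const_mul (k : ℝ) (F : (ι → ℝ) → ℝ) (c u : ι → ℝ) :
    Tc c (fun u => k * F u) u = k * Tc c F u := integral_const_mul _ _

lemma Tc_sum {κ : Type*} (s : Finset κ) {F : κ → (ι → ℝ) → ℝ} (hF : ∀ i ∈ s, EG (F i))
    (c u : ι → ℝ) : Tc c (fun u => ∑ i ∈ s, F i u) u = ∑ i ∈ s, Tc c (F i) u :=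
  integral_finsetSum _ fun i hi => EG.integrable_aff (hF i hi) u _

lemma Tc_const (k : ℝ) (c u : ι → ℝ) : Tc c (fun _ => k) u = k := by
  unfold Tc
  simp

lemma Tc_mono {F G : (ι → ℝ) → ℝ} (hF : EG F) (hG : EG G) (h : ∀ u, F u ≤ G u) (c u : ι → ℝ) :
    Tc c F u ≤ Tc c G u :=
  integral_mono (EG.integrable_aff hF u _) (EG.integrable_aff hG u _) fun _ => h _

lemma Tc_nonneg {F : (ι → ℝ) → ℝ} (h : ∀ u, 0 ≤ F u) (c u : ι → ℝ) : 0 ≤ Tc c F u :=
  integral_nonneg fun _ => h _

lemma Tc_pos {F : (ι → ℝ) → ℝ} (hF : EG F) (h : ∀ u, 0 < F u) (c u : ι → ℝ) : 0 < Tc c F u := by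
  unfold Tc
  rw [integral_pos_iff_support_of_nonneg (fun w => (h _).le) (EG.integrable_aff hF u _)]
  have : (Function.support fun z : ι → ℝ => F (fun e => u e + √(c e) * z e)) = Set.univ :=
    Set.eq_univ_of_forall fun w => (h _).ne'
  rw [this, measure_univ]
  exact one_pos

/-- Functions which do not depend on the smoothed coordinates can be taken out. -/
lemma Tc_mul_left {φ : (ι → ℝ) → ℝ} {c : ι → ℝ}
    (hφ : ∀ u z : ι → ℝ, φ (fun e => u e + √(c e) * z e) = φ u) (F : (ι → ℝ) → ℝ) (u : ι → ℝ) :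
    Tc c (fun u => φ u * F u) u = φ u * Tc c F u := by
  unfold Tc
  rw [← integral_const_mul]
  refine integral_congr_ae (Filter.Eventually.of_forall fun z => ?_)
  simp only [hφ]

/-- sign flips -/
lemma mp_flip {ε : ι → ℝ} (hε : ∀ i, ε i ^ 2 = 1) :
    MeasurePreserving (fun z : ι → ℝ => fun i => ε i * z i) (gI ι) (gI ι) := by
  refine ⟨by fun_prop, ?_⟩
  have h1 : ∀ i, (gaussianReal 0 1).map (fun x => ε i * x) = gaussianReal 0 1 := by
    intro i
    rw [gaussianReal_map_const_mul]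
    congr 1
    · simp
    · ext
      simp [hε i]
  have hsf : ∀ i, SigmaFinite ((gaussianReal 0 1).map (fun x => ε i * x)) := by
    intro i
    rw [h1 i]
    infer_instance
  have h3 := Measure.pi_map_pi (μ := fun _ : ι => gaussianReal 0 1)
    (f := fun i (x : ℝ) => ε i * x) (by
      intro i
      exact (by fun_prop : Measurable fun x : ℝ => ε i * x).aemeasurable)
  rw [h3]
  congr 1
  funext i
  exact h1 i

lemma int_flip {ε : ι → ℝ} (hε : ∀ i, ε i ^ 2 = 1) {F : (ι → ℝ) → ℝ} (hF : Measurable F) :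
    ∫ z, F (fun i => ε i * z i) ∂(gI ι) = ∫ z, F z ∂(gI ι) := by
  have h2 := mp_flip hε
  conv_rhs => rw [← h2.map_eq]
  rw [integral_map h2.measurable.aemeasurable]
  rw [h2.map_eq]
  exact hF.aestronglyMeasurable

end Vale.Agent.P146.H325
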