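import Vale.Agent.P146.H325.Kap
import Vale.Agent.P146.H325.Fo

/-!
Plan R1, row (KAP): the assembly under the normalized mean `En`.
-/

open MeasureTheory ProbabilityTheory

namespace Vale.Agent.P146.R1C

open Vale.Agent.P157.Lv Vale.Agent.P146.H425 Vale.Agent.P146.H712 Vale.Agent.P146.H332
  Vale.Agent.P146.H325 Vale.Agent.P146.H816 Vale.Agent.P146.R1

set_option linter.unusedSectionVars false

/-- **One bulk.** From the fixed bulk inequality for all `c`, the lower bound of the nonlinear part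
(`κ' α ≤ E` when `bad < 1`) and the bound of the errors. -/
theorem kap_point {G Y P E α κ' bad X1 X2 Er : ℝ} (hY : 0 ≤ Y) (hE : 0 ≤ E)
    (hPα : P ≤ α) (hκ : 0 ≤ κ') (hκ1 : κ' ≤ 1) (hb : 0 ≤ bad) (hX1 : 0 ≤ X1)
    (hfb : ∀ c, 0 ≤ c → c ≤ 1 / 2 → 2 * c * P ≤ E → c / 4 * Y ≤ G + 2 * c * X1 + X2)
    (hK : bad < 1 → κ' * α ≤ E) (hEr : κ' * X1 + X2 ≤ Er) :
    κ' / 8 * (1 - bad) * Y ≤ G + Er := by
  rcases lt_or_ge bad 1 with h1 | h1
  · have h2 := hK h1
    have h3 : 0 ≤ κ' * (1 - bad) := mul_nonneg hκ (by linarith)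
    have h4 : κ' * (1 - bad) ≤ κ' := by nlinarith
    have h5 := hfb (κ' / 2 * (1 - bad)) (by linarith) (by linarith) (by
      rcases le_or_gt P 0 with hP | hP
      · nlinarith
      · calc 2 * (κ' / 2 * (1 - bad)) * P = κ' * (1 - bad) * P := by ring
          _ ≤ κ' * P := mul_le_mul_of_nonneg_right h4 hP.le
          _ ≤ κ' * α := mul_le_mul_of_nonneg_left hPα hκ
          _ ≤ E := h2)
    have h6 : 2 * (κ' / 2 * (1 - bad)) * X1 ≤ κ' * X1 := by
      calc 2 * (κ' / 2 * (1 - bad)) * X1 = κ' * (1 - bad) * X1 := by ring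
        _ ≤ κ' * X1 := mul_le_mul_of_nonneg_right h4 hX1
    calc κ' / 8 * (1 - bad) * Y = κ' / 2 * (1 - bad) / 4 * Y := by ring
      _ ≤ G + 2 * (κ' / 2 * (1 - bad)) * X1 + X2 := h5
      _ ≤ G + Er := by linarith
  · have h2 := hfb 0 le_rfl (by norm_num) (by simpa using hE)
    have h3 : κ' / 8 * (1 - bad) * Y ≤ 0 :=
      mul_nonpos_of_nonpos_of_nonneg
        (mul_nonpos_of_nonneg_of_nonpos (by linarith) (by linarith)) hY
    have h4 : 0 ≤ κ' * X1 := mul_nonneg hκ hX1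
    have h5 : (0 : ℝ) / 4 * Y = 0 := by ring
    have h6 : 2 * 0 * X1 = 0 := by ring
    rw [h5, h6] at h2
    linarith

section en

variable {κ X : Type} [Fintype κ] [DecidableEq κ] [Fintype X] [DecidableEq X] {q : Par}
  {F : (κ → ℝ) → ℝ} {D : κ → (κ → ℝ) → ℝ} {B L : ℝ}

/-- **The sum over the pairs, (KAP).** -/
theorem kap_en (hc : C11 F D B L) (hx : 0 < q.x) {G Y bad Er : X → X → (K4 κ → ℝ) → ℝ}
    (eG : ∀ b b', EG (G b b')) (eY : ∀ b b', EG (Y b b')) (eb : ∀ b b', EG (bad b b'))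
    (eE : ∀ b b', EG (Er b b')) {g DD e1 e2 K : ℝ} (hg : 0 ≤ g)
    (hpt : ∀ b b', b' ≠ b → ∀ w, g * (1 - bad b b' w) * Y b b' w ≤ G b b' w + Er b b' w)
    (n1 : ∑ b, ∑ b' ∈ Finset.univ.erase b, En q F (G b b') ≤ DD + e1)
    (n2 : K ≤ (∑ b, ∑ b' ∈ Finset.univ.erase b, En q F (Y b b')) +
      2 * (∑ b, ∑ b' ∈ Finset.univ.erase b, En q F (G b b')) + e2) :
    g * K ≤ (1 + 2 * g) * (DD + e1) + g * e2 +
      (∑ b, ∑ b' ∈ Finset.univ.erase b, En q F (Er b b')) +
      g * (∑ b, ∑ b' ∈ Finset.univ.erase b, En q F fun w => bad b b' w * Y b b' w) := by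
  have h3 : g * (∑ b, ∑ b' ∈ Finset.univ.erase b, En q F (Y b b')) ≤
      (∑ b, ∑ b' ∈ Finset.univ.erase b, En q F (G b b')) +
      (∑ b, ∑ b' ∈ Finset.univ.erase b, En q F (Er b b')) +
      g * (∑ b, ∑ b' ∈ Finset.univ.erase b, En q F fun w => bad b b' w * Y b b' w) := by
    rw [← sum_pairs_mul, ← sum_pairs_mul, ← sum_pairs_add, ← sum_pairs_add]
    refine Finset.sum_le_sum fun b _ => Finset.sum_le_sum fun b' hb' => ?_
    have hb := Finset.ne_of_mem_erase hb'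
    rw [← En_const_mul, ← En_const_mul, ← En_add hc hx (eG b b') (eE b b'),
      ← En_add hc hx ((eG b b').add (eE b b')) (((eb b b').mul (eY b b')).const_mul g)]
    refine En_mono hc hx ((eY b b').const_mul g)
      (((eG b b').add (eE b b')).add (((eb b b').mul (eY b b')).const_mul g)) fun w => ?_
    have h4 := hpt b b' hb w
    have h5 : g * (1 - bad b b' w) * Y b b' w =
      g * Y b b' w - g * (bad b b' w * Y b b' w) := by ring
    rw [h5] at h4
    linarith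
  have h5 := mul_le_mul_of_nonneg_left n2 hg
  have h6 := mul_le_mul_of_nonneg_left n1 (by linarith : 0 ≤ 1 + 2 * g)
  nlinarith [h3, h5, h6]

/-- the indicator -/
lemma eg_chi {f : (K4 κ → ℝ) → ℝ} (hf : EG f) (M : ℝ) :
    EG fun w => if M < f w then (1 : ℝ) else 0 := by
  refine EG.of_bdd (C := 1) ?_ fun w => ?_
  · exact Measurable.ite (measurableSet_lt measurable_const hf.meas) measurable_const
      measurable_const
  · split_ifs <;> simp

/-- averages of bounded functions which are rarely large -/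
lemma Av_le_chi {f : (K4 κ → ℝ) → ℝ} (hf : EG f) {M K : ℝ} (hM : 0 ≤ M) (hK : ∀ w, f w ≤ K)
    (R : Finset (K4 κ)) (w : K4 κ → ℝ) :
    Av R f w ≤ M + K * Av R (fun w => if M < f w then (1 : ℝ) else 0) w := by
  have h1 : Av R f w ≤ Av R (fun w => M + K * (if M < f w then (1 : ℝ) else 0)) w := by
    refine H712.Av_mono hf ((EG.const M).add ((eg_chi hf M).const_mul K)) (fun w => ?_) w
    split_ifs with h
    · have := hK w
      linarith
    · linarith [not_lt.1 h]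
  rw [H816.Av_add (EG.const _) ((eg_chi hf M).const_mul K), H816.Av_const,
    H816.Av_const_mul] at h1
  exact h1

/-- **The bad part of one pair.** `f1`, `f2` = the two `fr C_i`; `hlow` = the law change. -/
theorem bad_pair (hc : C11 F D B L) (hx : 0 < q.x) {bad Y f1 f2 : (K4 κ → ℝ) → ℝ} (eb : EG bad)
    (eY : EG Y) (ef1 : EG f1) (ef2 : EG f2) {R : Finset (K4 κ)} {c Kb K M δ ε : ℝ}
    (hb0 : ∀ w, 0 ≤ bad w) (hbK : ∀ w, bad w ≤ Kb) (hc0 : 0 ≤ c) (hM : 0 ≤ M) (hK : 0 ≤ K)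
    (hf1 : ∀ w, 0 ≤ f1 w) (hf1K : ∀ w, f1 w ≤ K) (hf2 : ∀ w, 0 ≤ f2 w) (hf2K : ∀ w, f2 w ≤ K)
    (hY : ∀ w, Y w ≤ c * (Av R f1 w * Av R f2 w))
    (hδ1 : En q F (fun w => if M < f1 w then (1 : ℝ) else 0) ≤ δ)
    (hδ2 : En q F (fun w => if M < f2 w then (1 : ℝ) else 0) ≤ δ)
    (hlow : ∀ f : (K4 κ → ℝ) → ℝ, EG f → (∀ w, 0 ≤ f w) → (∀ w, f w ≤ 1) →
      En q F (Av R f) ≤ 2 * En q F f + ε) :
    En q F (fun w => bad w * Y w) ≤
      c * (M ^ 2 * En q F bad + 2 * Kb * K ^ 2 * (2 * δ + ε)) := by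
  set x1 : (K4 κ → ℝ) → ℝ := fun w => if M < f1 w then (1 : ℝ) else 0 with hx1
  set x2 : (K4 κ → ℝ) → ℝ := fun w => if M < f2 w then (1 : ℝ) else 0 with hx2
  have e1 : EG x1 := eg_chi ef1 M
  have e2 : EG x2 := eg_chi ef2 M
  have p1 : ∀ w, 0 ≤ x1 w := fun w => by simp only [hx1]; split_ifs <;> norm_num
  have p2 : ∀ w, 0 ≤ x2 w := fun w => by simp only [hx2]; split_ifs <;> norm_num
  have u1 : ∀ w, x1 w ≤ 1 := fun w => by simp only [hx1]; split_ifs <;> norm_num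
  have u2 : ∀ w, x2 w ≤ 1 := fun w => by simp only [hx2]; split_ifs <;> norm_num
  have hKb : 0 ≤ Kb := (hb0 0).trans (hbK 0)
  have key : ∀ w, bad w * Y w ≤
      c * M ^ 2 * bad w + c * Kb * K ^ 2 * (Av R x1 w + Av R x2 w) := by
    intro w
    have a1 := Av_le_chi ef1 hM hf1K R w
    have a2 := Av_le_chi ef2 hM hf2K R w
    have b1 : 0 ≤ Av R f1 w := H816.Av_nonneg hf1 w
    have b2 : 0 ≤ Av R f2 w := H816.Av_nonneg hf2 w
    have c1 : Av R f1 w ≤ K := by
      have := H712.Av_mono (R := R) ef1 (EG.const K) hf1K w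
      rwa [H816.Av_const] at this
    have c2 : Av R f2 w ≤ K := by
      have := H712.Av_mono (R := R) ef2 (EG.const K) hf2K w
      rwa [H816.Av_const] at this
    have d1 : 0 ≤ Av R x1 w := H816.Av_nonneg p1 w
    have d2 : 0 ≤ Av R x2 w := H816.Av_nonneg p2 w
    have h1 : Av R f1 w * Av R f2 w ≤ M ^ 2 + K ^ 2 * (Av R x1 w + Av R x2 w) := by
      rcases le_total K M with hKM | hKM
      · calc Av R f1 w * Av R f2 w ≤ M * M :=
              mul_le_mul (c1.trans hKM) (c2.trans hKM) b2 hM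
          _ ≤ _ := by nlinarith [mul_nonneg (sq_nonneg K) (add_nonneg d1 d2)]
      · calc Av R f1 w * Av R f2 w ≤ (M + K * Av R x1 w) * Av R f2 w :=
              mul_le_mul_of_nonneg_right a1 b2
          _ = M * Av R f2 w + K * Av R x1 w * Av R f2 w := by ring
          _ ≤ M * (M + K * Av R x2 w) + K * Av R x1 w * K := by
              refine add_le_add (mul_le_mul_of_nonneg_left a2 hM)
                (mul_le_mul_of_nonneg_left c2 (by positivity))
          _ ≤ _ := by nlinarith [mul_nonneg (mul_nonneg hK (sub_nonneg.2 hKM)) d2]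
    have h2 : bad w * Y w ≤ bad w * (c * (Av R f1 w * Av R f2 w)) :=
      mul_le_mul_of_nonneg_left (hY w) (hb0 w)
    have h3 : bad w * (c * (Av R f1 w * Av R f2 w)) ≤
        bad w * (c * (M ^ 2 + K ^ 2 * (Av R x1 w + Av R x2 w))) :=
      mul_le_mul_of_nonneg_left (mul_le_mul_of_nonneg_left h1 hc0) (hb0 w)
    have h4 : bad w * (c * (K ^ 2 * (Av R x1 w + Av R x2 w))) ≤
        Kb * (c * (K ^ 2 * (Av R x1 w + Av R x2 w))) :=
      mul_le_mul_of_nonneg_right (hbK w) (by positivity)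
    calc bad w * Y w ≤ bad w * (c * (M ^ 2 + K ^ 2 * (Av R x1 w + Av R x2 w))) := h2.trans h3
      _ = c * M ^ 2 * bad w + bad w * (c * (K ^ 2 * (Av R x1 w + Av R x2 w))) := by ring
      _ ≤ c * M ^ 2 * bad w + Kb * (c * (K ^ 2 * (Av R x1 w + Av R x2 w))) := by linarith
      _ = _ := by ring
  have eA1 : EG (Av R x1) := eg_Av R e1
  have eA2 : EG (Av R x2) := eg_Av R e2
  refine (En_mono hc hx (eb.mul eY) ((eb.const_mul _).add ((eA1.add eA2).const_mul _))
    key).trans ?_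
  rw [En_add hc hx (eb.const_mul _) ((eA1.add eA2).const_mul _), En_const_mul, En_const_mul,
    En_add hc hx eA1 eA2]
  have l1 := hlow x1 e1 p1 u1
  have l2 := hlow x2 e2 p2 u2
  have h5 : c * Kb * K ^ 2 * (En q F (Av R x1) + En q F (Av R x2)) ≤
      c * Kb * K ^ 2 * (2 * (2 * δ + ε)) :=
    mul_le_mul_of_nonneg_left (by linarith) (by positivity)
  nlinarith [h5]

/-- Cauchy–Schwarz for partial averages -/
lemma Av_cs {f g : (K4 κ → ℝ) → ℝ} (hf : EG f) (hg : EG g) (R : Finset (K4 κ)) (w : K4 κ → ℝ) :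
    Av R (fun w => f w * g w) w ^ 2 ≤ Av R (fun w => f w ^ 2) w * Av R (fun w => g w ^ 2) w := by
  set a := Av R (fun w => f w ^ 2) w with ha
  set b := Av R (fun w => g w ^ 2) w with hb
  set c := Av R (fun w => f w * g w) w with hc
  have ha0 : 0 ≤ a := H816.Av_nonneg (fun _ => sq_nonneg _) w
  have hb0 : 0 ≤ b := H816.Av_nonneg (fun _ => sq_nonneg _) w
  have key : ∀ t : ℝ, 0 ≤ a * t ^ 2 + 2 * c * t + b := by
    intro t
    have h1 : 0 ≤ Av R (fun w => (t * f w + g w) ^ 2) w := H816.Av_nonneg (fun _ => sq_nonneg _) w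
    have h2 : Av R (fun w => (t * f w + g w) ^ 2) w = a * t ^ 2 + 2 * c * t + b := by
      have e1 : (fun w => (t * f w + g w) ^ 2) = fun w => t ^ 2 * f w ^ 2 +
          (2 * t * (f w * g w) + g w ^ 2) := by
        funext w
        ring
      rw [e1, H816.Av_add ((hf.pow 2).const_mul _) (((hf.mul hg).const_mul _).add (hg.pow 2)),
        H816.Av_add ((hf.mul hg).const_mul _) (hg.pow 2), H816.Av_const_mul, H816.Av_const_mul]
      rw [ha, hb, hc]
      ring
    linarith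
  have h3 := discrim_le_zero (a := a) (b := 2 * c) (c := b) (fun t => by
    have := key t
    nlinarith)
  unfold discrim at h3
  nlinarith

/-- the mixed moments of two vector fields -/
lemma mixed_le {u v : (K4 κ → ℝ) → X → ℝ} (eu : ∀ i, EG fun w => u w i)
    (ev : ∀ i, EG fun w => v w i) (R : Finset (K4 κ)) (w : K4 κ → ℝ) :
    ∑ i, ∑ j, (Av R (fun w => u w i * v w j) w) ^ 2 ≤
      Av R (fun w => ∑ i, u w i ^ 2) w * Av R (fun w => ∑ i, v w i ^ 2) w := by
  rw [H816.Av_sum R Finset.univ fun i _ => (eu i).pow 2,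
    H816.Av_sum R Finset.univ fun i _ => (ev i).pow 2, Finset.sum_mul_sum]
  exact Finset.sum_le_sum fun i _ => Finset.sum_le_sum fun j _ => Av_cs (eu i) (ev j) R w

/-- the antisymmetric part of a matrix -/
lemma anti_le (N : Matrix X X ℝ) : fr (N - N.transpose) ≤ 4 * fr N := by
  have h1 : fr (N - N.transpose) ≤ ∑ i, ∑ j, (2 * N i j ^ 2 + 2 * N j i ^ 2) := by
    unfold fr
    refine Finset.sum_le_sum fun i _ => Finset.sum_le_sum fun j _ => ?_
    rw [Matrix.sub_apply, Matrix.transpose_apply]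
    nlinarith [sq_nonneg (N i j + N j i)]
  have h2 : ∑ i, ∑ j, (2 * N i j ^ 2 + 2 * N j i ^ 2) = 4 * fr N := by
    have h3 : ∑ i, ∑ j, 2 * N j i ^ 2 = ∑ i, ∑ j, 2 * N i j ^ 2 := Finset.sum_comm
    have h4 : ∑ i, ∑ j, 2 * N i j ^ 2 = 2 * fr N := by
      unfold fr
      simp only [Finset.mul_sum]
    calc ∑ i, ∑ j, (2 * N i j ^ 2 + 2 * N j i ^ 2) =
          (∑ i, ∑ j, 2 * N i j ^ 2) + ∑ i, ∑ j, 2 * N j i ^ 2 := by
          simp only [Finset.sum_add_distrib]
      _ = 4 * fr N := by rw [h3, h4]; ring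
  linarith

end en

end Vale.Agent.P146.R1C
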