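import Vale.Agent.P146.H329.Bk2
import Vale.Agent.P146.H332.ErS
import Vale.Agent.P146.H712.BtFn
import Vale.Agent.P146.H325.KapS

/-!
Plan R1, row (KAP), for a position system: the bulk inequality with its errors summed. The only
input is the lower bound of the nonlinear part of the row field, on the good bulks.
-/

open MeasureTheory ProbabilityTheory

namespace Vale.Agent.P146.R1S

open Vale.Agent.P157.Lv Vale.Agent.P146.H425 Vale.Agent.P146.H325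
  Vale.Agent.P146.H712 Vale.Agent.P146.R1 Vale.Agent.P146.R1C Matrix
  Vale.Agent.P146.H633 Vale.Agent.P146.H329
open Vale.Agent.P146.H332 hiding Nf Gf

set_option linter.unusedSectionVars false

variable {n : ℕ} {β A δ T ρ : ℝ} {q : Par} {S : CS n (kk n β) q.x}

lemma AN_le (h : NumS S A δ T ρ ((n : ℝ) ^ 200)⁻¹) : A * NN n β ρ ≤ (n : ℝ) ^ 4 := by
  have hA := h.fo.A1
  have hn := h.fo.n0
  have hN := h.fo.N0
  have h1 : A ≤ A ^ 40 := le_self_pow₀ hA (by norm_num)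
  have h2 := h.fo.ρA
  have h3 := h.fo.ρn
  have h5 : β ^ 2 * (n : ℝ) ≤ n * n := mul_le_mul_of_nonneg_right h.fo.βn (by linarith)
  have h0 : (0 : ℝ) ≤ n * n := by positivity
  have h6 : A ≤ (n : ℝ) ^ 2 := by
    rw [pow_two]
    linarith
  calc A * NN n β ρ ≤ (n : ℝ) ^ 2 * (n : ℝ) ^ 2 :=
        mul_le_mul h6 h.fo.NN_le hN.le (by positivity)
    _ = _ := by ring

/-- **One bulk: the fixed bulk inequality with the errors `ErS`.** -/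
theorem kap_joint {Γ κ t : ℝ} (h : NumS S A δ T ρ ((n : ℝ) ^ 200)⁻¹) (hn3 : 3 ≤ n)
    (hFn : ∀ s, Cum.Fn (kk n β) SkS (uu q.x s S.F) (S.mu s) Γ) (hκ : 0 < κ) (hκ1 : κ ≤ 1)
    (ht : 1 ≤ t) {b b' : Fin n} (hb : b ≠ b') (w : K4 (Pair n) → ℝ) {bad : ℝ} (hb0 : 0 ≤ bad)
    (hK : bad < 1 → ∀ v, Bv S q.s1 b b' (P2 q w) v →
      κ / A * (NN n β ρ / (n : ℝ) ^ 2) * ee S q.s1 b b' (P2 q w) ≤
        Net (kk n β) (S.A q.s1) (S.H q.s1) q.s1 b b' v (P2 q w)) :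
    κ / (8 * A) * (NN n β ρ / (n : ℝ) ^ 2) * (1 - bad) *
      fr (Nd S q b b' w - (Nd S q b b' w)ᵀ) ≤ Gb S q b b' w +
        ErS S q (κ / A * (NN n β ρ / (n : ℝ) ^ 2)) (36 * Γ ^ 6) t (A * NN n β ρ) b b' w := by
  have hq := h.fo.ok
  have hs1 := h.s1p
  have hs2 : 0 < q.s2 := hs1.trans_le hq.h12
  have hs11 := h.s1le
  have hs21 := hq.h2
  have hA := h.fo.A1
  have hn := h.fo.n0
  have hβ := h.fo.β0
  have hN := h.fo.N0
  have hk := h.fo.kk0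
  have ht0 : 0 < t := by linarith
  obtain ⟨v, hv⟩ := exists_Bv S q.s1 hn3 b b' (P2 q w)
  set κ' := κ / A * (NN n β ρ / (n : ℝ) ^ 2) with hκ'
  have hr1 : NN n β ρ / (n : ℝ) ^ 2 ≤ 1 := by
    rw [div_le_one (by positivity)]
    exact h.fo.NN_le
  have hκA : κ / A ≤ 1 := by
    rw [div_le_one (by linarith)]
    linarith
  have hκ0 : 0 ≤ κ' := by positivity
  have hκ'1 : κ' ≤ 1 := by
    rw [hκ']
    exact mul_le_one₀ hκA (by positivity) hr1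
  have hη : 0 < (t⁻¹) ^ 2 := by positivity
  -- the six numbers
  set Th1 := ThA S q.s1 b b' (P2 q w) with hTh1
  set F1 := FA S q.s1 b b' (P2 q w) with hF1
  set F2 := FA S q.s2 b b' (P3 q w) with hF2
  set Q1 := QA S q.s1 b b' (P2 q w) with hQ1
  set Q2 := QA S q.s2 b b' (P3 q w) with hQ2
  set K1 := KA S q.s1 b b' (P2 q w) with hK1
  set K2 := KA S q.s2 b b' (P3 q w) with hK2
  have nTh1 : 0 ≤ Th1 := ThA_nonneg S q.s1 b b' _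
  have nF1 : 0 ≤ F1 := FA_nonneg S q.s1 b b' _
  have nF2 : 0 ≤ F2 := FA_nonneg S q.s2 b b' _
  have nQ1 : 0 ≤ Q1 := QA_nonneg S q.s1 b b' _
  have nQ2 : 0 ≤ Q2 := QA_nonneg S q.s2 b b' _
  have nK1 : 0 ≤ K1 := KA_nonneg S q.s1 b b' _
  have nK2 : 0 ≤ K2 := KA_nonneg S q.s2 b b' _
  have a0 := bk_a0 S hs1 hs11 b b' (P2 q w)
  have d0 := bk_a0 S hs2 hs21 b b' (P3 q w)
  have a1 := bk_a1 (hFn q.s1) hs1 hs11 hb (P2 q w)
  have d1 := bk_a1 (hFn q.s2) hs2 hs21 hb (P3 q w)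
  have e0 := bk_e0 hv hs1 hs11
  have e1 := bk_e1 hv (hFn q.s1) hs1 hs11 hη
  rw [← hF1] at a0
  rw [← hF2] at d0
  rw [← hQ1, ← hK1] at a1
  rw [← hQ2, ← hK2] at d1
  rw [← hTh1, ← hF1] at e0
  rw [← hTh1, ← hQ1, ← hK1] at e1
  have eη : (((t⁻¹) ^ 2)⁻¹) ^ 3 = t ^ 6 := by
    field_simp
  rw [eη] at e1
  have sq : ∀ {z : ℝ}, 0 ≤ z → √z ^ 2 = z := fun hz => Real.sq_sqrt hz
  have m0 : 0 ≤ min (9 * √Th1) F1 := le_min (by positivity) nF1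
  have z0 : 0 ≤ kk n β ^ 2 * min (9 * √Th1) F1 := mul_nonneg (sq_nonneg (kk n β)) m0
  have z1 : 0 ≤ 36 * Γ ^ 6 * kk n β ^ 6 * (t ^ 6 * (36 * Th1) + 3 * (t⁻¹) ^ 2 * (2 * Q1 + 2 * K1)) := by
    positivity
  have z2 : 0 ≤ kk n β ^ 2 * F1 := by positivity
  have z3 : 0 ≤ kk n β ^ 2 * F2 := by positivity
  have z4 : 0 ≤ 36 * Γ ^ 6 * kk n β ^ 6 * (2 * Q1 + 2 * K1) := by positivity
  have z5 : 0 ≤ 36 * Γ ^ 6 * kk n β ^ 6 * (2 * Q2 + 2 * K2) := by positivity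
  have hYn : A * NN n β ρ ≤ (n : ℝ) ^ 4 := AN_le h
  have hY1 : 1 ≤ A * NN n β ρ := one_le_mul_of_one_le_of_one_le hA h.NN1
  have er := er_point S hk (by linarith) q (g := κ') (c := 36 * Γ ^ 6) (t := t)
    (Y := A * NN n β ρ) (ε0 := √(kk n β ^ 2 * min (9 * √Th1) F1))
    (ε1 := √(36 * Γ ^ 6 * kk n β ^ 6 * (t ^ 6 * (36 * Th1) + 3 * (t⁻¹) ^ 2 * (2 * Q1 + 2 * K1))))
    (α0 := √(kk n β ^ 2 * F1)) (α1 := √(36 * Γ ^ 6 * kk n β ^ 6 * (2 * Q1 + 2 * K1)))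
    (δ0 := √(kk n β ^ 2 * F2)) (δ1 := √(36 * Γ ^ 6 * kk n β ^ 6 * (2 * Q2 + 2 * K2)))
    hκ0 hκ'1 ht (by positivity) hY1 hYn b b' w (Real.sqrt_nonneg _) (Real.sqrt_nonneg _)
    (Real.sqrt_nonneg _)
    (by
      rw [sq z0]
      exact mul_le_mul_of_nonneg_left (min_le_left _ _) (sq_nonneg (kk n β)))
    (by
      rw [sq z0]
      exact mul_le_mul_of_nonneg_left (min_le_right _ _) (sq_nonneg (kk n β)))
    (by rw [sq z2]; exact le_rfl)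
    (by rw [sq z3]; exact le_rfl)
    (by
      rw [sq z1]
      refine le_of_eq ?_
      show 36 * Γ ^ 6 * kk n β ^ 6 * (t ^ 6 * (36 * Th1) + 3 * (t⁻¹) ^ 2 * (2 * Q1 + 2 * K1)) =
        kk n β ^ 6 * (36 * Γ ^ 6 * (36 * t ^ 6 * Th1 + 6 * (t⁻¹) ^ 2 * (Q1 + K1)))
      ring)
    (by
      rw [sq z4]
      refine le_of_eq ?_
      show 36 * Γ ^ 6 * kk n β ^ 6 * (2 * Q1 + 2 * K1) = kk n β ^ 6 * (36 * Γ ^ 6 * (2 * (Q1 + K1)))
      ring)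
    (by
      rw [sq z5]
      refine le_of_eq ?_
      show 36 * Γ ^ 6 * kk n β ^ 6 * (2 * Q2 + 2 * K2) = kk n β ^ 6 * (36 * Γ ^ 6 * (2 * (Q2 + K2)))
      ring)
  have key := kap_bulk hq hs1 hb w hv.v1 (κ' := κ') (bad := bad)
    (ε0 := √(kk n β ^ 2 * min (9 * √Th1) F1))
    (ε1 := √(36 * Γ ^ 6 * kk n β ^ 6 * (t ^ 6 * (36 * Th1) + 3 * (t⁻¹) ^ 2 * (2 * Q1 + 2 * K1))))
    (α0 := √(kk n β ^ 2 * F1)) (α1 := √(36 * Γ ^ 6 * kk n β ^ 6 * (2 * Q1 + 2 * K1)))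
    (δ0 := √(kk n β ^ 2 * F2)) (δ1 := √(36 * Γ ^ 6 * kk n β ^ 6 * (2 * Q2 + 2 * K2)))
    (Er := ErS S q κ' (36 * Γ ^ 6) t (A * NN n β ρ) b b' w)
    (Real.sqrt_nonneg _) (Real.sqrt_nonneg _) (Real.sqrt_nonneg _) (Real.sqrt_nonneg _)
    (Real.sqrt_nonneg _) (Real.sqrt_nonneg _)
    (by rw [sq z2]; exact a0) (by rw [sq z4]; exact a1) (by rw [sq z3]; exact d0)
    (by rw [sq z5]; exact d1) (by rw [sq z0]; exact e0) (by rw [sq z1]; exact e1)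
    hκ0 hκ'1 hb0 (integral_nonneg fun y => sq_nonneg _) (fun hbad => hK hbad v hv)
    (by
      refine le_trans ?_ er
      have : 0 ≤ κ' * ((√(kk n β ^ 2 * min (9 * √Th1) F1) ^ 2 +
        √(36 * Γ ^ 6 * kk n β ^ 6 * (t ^ 6 * (36 * Th1) + 3 * (t⁻¹) ^ 2 * (2 * Q1 + 2 * K1))) ^ 2) *
          √(kk n β ^ 2 * F2) ^ 2) := by positivity
      linarith)
  have eκ : κ / (8 * A) * (NN n β ρ / (n : ℝ) ^ 2) = κ' / 8 := by
    rw [hκ']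
    field_simp
  rw [eκ]
  exact key

end Vale.Agent.P146.R1S
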