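import Vale.Agent.P146.H325.KapO

/-!
Plan R1, row (KAP), for a position system: the conclusion, from the lower bound of the nonlinear
part of the row field on the good bulks and the measure of the bad bulks.
-/

open MeasureTheory ProbabilityTheory

namespace Vale.Agent.P146.R1S

open Vale.Agent.P157.Lv Vale.Agent.P146.H425 Vale.Agent.P146.H325
  Vale.Agent.P146.H712 Vale.Agent.P146.R1 Vale.Agent.P146.R1C Matrix
  Vale.Agent.P146.H633 Vale.Agent.P146.H329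
open Vale.Agent.P146.H332 hiding Nf Gf

set_option linter.unusedSectionVars false

variable {n : ℕ} {β A δ T ρ : ℝ} {q : Par} {S : CS n (kk n β) q.x}

/-- the constant of the sum of the errors -/
noncomputable def cE (β Γ : ℝ) : ℝ := 200 * β ^ 4 + 40000 * (36 * Γ ^ 6) * β ^ 8

/-- **(KAP) for a position system.** -/
theorem kap_out_S {Γ κ C e0 : ℝ} {m : ℕ} (h : NumS S A δ T ρ ((n : ℝ) ^ 200)⁻¹) (hn3 : 3 ≤ n)
    (hFn : ∀ s, Cum.Fn (kk n β) SkS (uu q.x s S.F) (S.mu s) Γ)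
    (hKR : ∀ s z, rt S.DA s z ≤ (n : ℝ) ^ 20) (hκ : 0 < κ) (hκ1 : κ ≤ 1) (hC : 0 ≤ C)
    (hP : NN n β ρ ^ 2 / (4 * A ^ 3) ≤
      En q S.F (fun w => fr (S.A q.s1 (P2 q w) * S.A q.s2 (P3 q w) -
        S.A q.s2 (P3 q w) * S.A q.s1 (P2 q w))))
    (hu : 1 / (q.x ^ 2 * ρ * T) + 1 / (n * T) ≤ 1) (he0 : 0 ≤ e0)
    {bad : Fin n → Fin n → (K4 (Pair n) → ℝ) → ℝ} (eb : ∀ b b', EG (bad b b'))
    (hb0 : ∀ b b' w, 0 ≤ bad b b' w) (hb1 : ∀ b b' w, bad b b' w ≤ 1)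
    (hK : ∀ b b', b' ≠ b → ∀ w, bad b b' w < 1 → ∀ v, Bv S q.s1 b b' (P2 q w) v →
      κ / A * (NN n β ρ / (n : ℝ) ^ 2) * ee S q.s1 b b' (P2 q w) ≤
        Net (kk n β) (S.A q.s1) (S.H q.s1) q.s1 b b' v (P2 q w))
    (hbad : ∑ b, ∑ b' ∈ Finset.univ.erase b, En q S.F (bad b b') ≤ C * A ^ m *
      ((1 / (q.x ^ 2 * ρ * T) + 1 / (n * T)) ^ ((1 : ℝ) / 8) + e0 +
        q.x * √(NN n β ρ / (n : ℝ) ^ 2) + √(1 / (n * T)) + 1 / n) * (n : ℝ) ^ 2) :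
    NN n β ρ / (n : ℝ) ^ 2 ≤
      192 * ((C + cE β Γ + cO β) * (1 + 28 * β ^ 4)) / κ * A ^ (m + 12) *
      (√(1 / (n * T)) + q.x * √(NN n β ρ / (n : ℝ) ^ 2) +
        ((1 / (q.x ^ 2 * ρ * T) + 1 / (n * T)) ^ ((1 : ℝ) / 8) + e0) *
          (NN n β ρ / (n : ℝ) ^ 2) + 1 / n) := by
  have hq := h.fo.ok
  have hA := h.fo.A1
  have hn := h.fo.n0
  have hβ := h.fo.β0
  have hN := h.fo.N0
  have hx := hq.x0
  have hT := h.fo.Tp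
  have hρ := h.fo.ρ1
  have hρ0 : 0 < ρ := by linarith
  have hn0 : (0 : ℝ) < n := by linarith
  have hu0 : 0 < 1 / (q.x ^ 2 * ρ * T) + 1 / (n * T) := by positivity
  obtain ⟨ϑ, hϑ0, hϑ1, hϑ, ht8⟩ : ∃ ϑ : ℝ, 0 < ϑ ∧ ϑ ≤ 1 ∧
      ϑ = (1 / (q.x ^ 2 * ρ * T) + 1 / (n * T)) ^ ((1 : ℝ) / 8) ∧
      ϑ⁻¹ ^ 8 * (1 / (q.x ^ 2 * ρ * T) + 1 / (n * T)) ≤ 1 := by
    generalize 1 / (q.x ^ 2 * ρ * T) + 1 / (n * T) = u at hu hu0
    refine ⟨_, Real.rpow_pos_of_pos hu0 _, Real.rpow_le_one hu0.le hu (by norm_num), rfl, ?_⟩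
    have h8 : (u ^ ((1 : ℝ) / 8)) ^ 8 = u := by
      rw [← Real.rpow_natCast, ← Real.rpow_mul hu0.le]
      norm_num
    rw [inv_pow, h8, inv_mul_cancel₀ hu0.ne']
  rw [← hϑ] at hbad ⊢
  have ht : 1 ≤ ϑ⁻¹ := (one_le_inv₀ hϑ0).2 hϑ1
  have hκA : κ / A ≤ 1 := by
    rw [div_le_one (by linarith)]
    linarith
  have hr0 : 0 ≤ NN n β ρ / (n : ℝ) ^ 2 := by positivity
  have hg0 : 0 ≤ κ / A * (NN n β ρ / (n : ℝ) ^ 2) := by positivity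
  have hgN : κ / A * (NN n β ρ / (n : ℝ) ^ 2) ≤ NN n β ρ / (n : ℝ) ^ 2 :=
    mul_le_of_le_one_left hr0 hκA
  have hΓ : 0 ≤ 36 * Γ ^ 6 := by positivity
  have hcE : 0 ≤ cE β Γ := by
    unfold cE
    positivity
  have hE := er_sum S h.fo h.law hKR hg0 hgN hΓ ht ht8
  rw [inv_inv] at hE
  have hpow : A ^ m ≤ A ^ (m + 3) := pow_le_pow_right₀ hA (by omega)
  have hpow3 : A ^ 3 ≤ A ^ (m + 3) := pow_le_pow_right₀ hA (by omega)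
  have key := kap_S (C := C + cE β Γ) (κ := κ) (m := m + 3) (ϑ := ϑ + e0) (bad := bad)
    (Er := fun b b' w => ErS S q (κ / A * (NN n β ρ / (n : ℝ) ^ 2)) (36 * Γ ^ 6) ϑ⁻¹
      (A * NN n β ρ) b b' w) (by linarith) hκ hκ1 h eb (fun b b' => eg_ErS S q _ _ _ _ b b')
    hb0 hb1 (fun b b' hb w => kap_joint h hn3 hFn hκ hκ1 ht hb.symm w (hb0 b b' w)
      (fun h1 v hv => hK b b' hb w h1 v hv)) (by linarith) hP ?_ ?_
  · exact key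
  · refine hE.trans ?_
    have h1 : 200 * β ^ 4 + 40000 * (36 * Γ ^ 6) * β ^ 8 ≤ C + cE β Γ := by
      unfold cE
      linarith
    have h2 : ϑ ≤ ϑ + e0 := by linarith
    calc (200 * β ^ 4 + 40000 * (36 * Γ ^ 6) * β ^ 8) *
          (A ^ 3 * (NN n β ρ / (n : ℝ) ^ 2) * NN n β ρ ^ 2 * ϑ) =
          (200 * β ^ 4 + 40000 * (36 * Γ ^ 6) * β ^ 8) * A ^ 3 *
            (NN n β ρ / (n : ℝ) ^ 2 * ϑ) * NN n β ρ ^ 2 := by ring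
      _ ≤ _ := by gcongr
  · refine hbad.trans ?_
    have h1 : C ≤ C + cE β Γ := by linarith
    gcongr

end Vale.Agent.P146.R1S
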