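import Vale.Agent.P146.H325.PerB3
import Vale.Agent.P146.H332.Tch
import Vale.Agent.P146.H816.KeyR
import Vale.Agent.P146.H946.Tow

/-!
The two-point inequality: the sum over the sites.
-/

open MeasureTheory ProbabilityTheory

namespace Vale.Agent.P146.H325

open Vale.Agent.P157.Lv Vale.Agent.P146.H425 Vale.Agent.P146.H332 Matrix

set_option linter.unusedSectionVars false

variable {n : ℕ} {k x : ℝ} {t1 t2 : ℝ}

/-- the mixed functional -/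
noncomputable def TT (n : ℕ) (k x t1 t2 : ℝ) : ℝ :=
  II k x t1 t2 fun w : Pair n ⊕ Pair n → ℝ => fr (AA k x t1 (v1 t1 w) * AA k x t2 (v2 t1 t2 w))

lemma sum_tA : ∑ b : Fin n, tA k x b t1 t2 = TT n k x t1 t2 := by
  unfold tA TT
  rw [← II_sum Finset.univ fun b _ => eg_qv (eg_mulM eg_A1 eg_A2) eg_U1 eg_U2]
  congr 1
  funext w
  exact H816.sum_qv_AB (AA_T _ _)

lemma sum_tB : ∑ b : Fin n, tB k x b t1 t2 = TT n k x t1 t2 := by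
  unfold tB TT
  rw [← II_sum Finset.univ fun b _ => eg_qv (eg_mulM eg_A2 eg_A2) eg_U1 eg_U1]
  congr 1
  funext w
  exact H816.sum_qv_BB (AA_T _ _) (AA_T _ _)

lemma sum_tC : ∑ b : Fin n, tC k x b t1 t2 = TT n k x t1 t2 := by
  unfold tC TT
  rw [← II_sum Finset.univ fun b _ => eg_qv (eg_mulM eg_A1 eg_A1) eg_U2 eg_U2]
  congr 1
  funext w
  have h := H816.sum_qv_BB (A := AA k x t2 (v2 t1 t2 w)) (B := AA k x t1 (v1 t1 w))
    (AA_T _ _) (AA_T _ _)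
  refine h.trans ?_
  rw [← fr_transpose, transpose_mul, AA_T, AA_T]

lemma sum_tG1 : ∑ b : Fin n, tG1 k x b t1 t2 = II k x t1 t2 fun w : Pair n ⊕ Pair n → ℝ =>
    fr (AA k x t1 (v1 t1 w)) ^ 2 - fr (AA k x t1 (v1 t1 w) * AA k x t1 (v1 t1 w)) := by
  have e : ∀ b : Fin n, EG fun w : Pair n ⊕ Pair n → ℝ =>
      fr (AA k x t1 (v1 t1 w)) * vn (UU k x b t1 (v1 t1 w)) -
      qv (AA k x t1 (v1 t1 w) * AA k x t1 (v1 t1 w))
        (UU k x b t1 (v1 t1 w)) (UU k x b t1 (v1 t1 w)) := fun b =>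
    ((eg_frM eg_A1).mul (EG.sum _ fun p _ => (eg_U1 p).pow 2)).sub
      (eg_qv (eg_mulM eg_A1 eg_A1) eg_U1 eg_U1)
  unfold tG1
  rw [← II_sum Finset.univ fun b _ => e b]
  congr 1
  funext w
  exact H816.sum_qv_AA (AA_T _ _)

lemma sum_tG2 : ∑ b : Fin n, tG2 k x b t1 t2 = II k x t1 t2 fun w : Pair n ⊕ Pair n → ℝ =>
    fr (AA k x t2 (v2 t1 t2 w)) ^ 2 -
      fr (AA k x t2 (v2 t1 t2 w) * AA k x t2 (v2 t1 t2 w)) := by
  have e : ∀ b : Fin n, EG fun w : Pair n ⊕ Pair n → ℝ =>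
      fr (AA k x t2 (v2 t1 t2 w)) * vn (UU k x b t2 (v2 t1 t2 w)) -
      qv (AA k x t2 (v2 t1 t2 w) * AA k x t2 (v2 t1 t2 w))
        (UU k x b t2 (v2 t1 t2 w)) (UU k x b t2 (v2 t1 t2 w)) := fun b =>
    ((eg_frM eg_A2).mul (EG.sum _ fun p _ => (eg_U2 p).pow 2)).sub
      (eg_qv (eg_mulM eg_A2 eg_A2) eg_U2 eg_U2)
  unfold tG2
  rw [← II_sum Finset.univ fun b _ => e b]
  congr 1
  funext w
  exact H816.sum_qv_AA (AA_T _ _)

lemma TT_nonneg : 0 ≤ TT n k x t1 t2 := II_nonneg fun _ => fr_nonneg _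

lemma TT_ge (h0 : 0 ≤ t1) (h12 : t1 ≤ t2) (h2 : t2 ≤ 1) (hk : k ≠ 0) (hx : 0 < x)
    (hx1 : x ≤ 1) (hn : 0 < n) (l' : Lvl (Pair n)) :
    (n : ℝ) ^ 4 * Z0 n k x * Mg k x l' t1 -
      (n : ℝ) ^ 4 * Z0 n k x * (4 / (k ^ 2 * x ^ 2 * (n : ℝ) ^ 2) * Rg1 k x l' t1) ≤
      TT n k x t1 t2 := by
  refine le_trans ?_ (H946.T_ge (n := n) (k := k) (x := x) h0 h12 h2)
  have h := II_rank1 (k := k) h0 h12 h2 hk hx hx1 hn l'
  rw [II_sub ((eg_frM eg_A1).pow 2) (eg_frM (eg_mulM eg_A1 eg_A1)),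
    II_A1 (k := k) h0 h12 h2 hx.le hn l'] at h
  linarith

/-- the sum over the sites -/
theorem sum_sites (hx : 0 ≤ x) (hx1 : x ≤ 1) (h0 : 0 < t1) (h12 : t1 ≤ t2) (h2 : t2 ≤ 1)
    (hn : 0 < n) (l' : Lvl (Pair n)) {kap lam eta : ℝ}
    (hkap : kap = (t2 - t1) / t1) (hk1 : kap ≤ 1) (hlam : lam = 1 / (1 + kap / 2))
    (he : 0 < eta) :
    TT n k x t1 t2 - lam / 2 * TT n k x t1 t2 - 1 / (2 * lam * (1 + kap)) * TT n k x t1 t2 ≤
      (∑ b : Fin n, tG1 k x b t1 t2) + (∑ b : Fin n, tG2 k x b t1 t2) +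
        n * (3 / 2 * Z0 n k x) +
        n * (132 * k ^ 2 * x * ((n : ℝ) ^ 4 * Z0 n k x * Mg k x l' t2)) +
        n * (22 * eta * ((n : ℝ) ^ 4 * Z0 n k x * Mg k x l' t2)) +
        5 / eta * ((∑ b : Fin n, td1 k x b t1 t2) + ∑ b : Fin n, td2 k x b t1 t2) := by
  have h := Finset.sum_le_sum (s := (Finset.univ : Finset (Fin n))) fun b _ =>
    perB (k := k) hx hx1 h0 h12 h2 hn l' b hkap hk1 hlam he
  simp only [Finset.sum_add_distrib, Finset.sum_sub_distrib, ← Finset.mul_sum, sum_tA, sum_tB,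
    sum_tC, Finset.sum_const, Finset.card_univ, Fintype.card_fin, nsmul_eq_mul] at h
  refine h.trans (le_of_eq ?_)
  ring

/-- **The two-point inequality.** -/
theorem key {β : ℝ} (hβ : β ≠ 0) (hn : 0 < n) (hk : k = β / √n) (hx : 0 < x) (hx1 : x ≤ 1)
    (l' : Lvl (Pair n)) {th : ℝ} (h0 : 0 < t1) (h12 : t1 < t2) (h2 : t2 ≤ 1)
    (h21 : t2 ≤ 2 * t1) (hth : 0 < th) (hth1 : th ≤ 1) :
    (t2 - t1) / t1 * Mg k x l' t1 ≤ 1000 * (1 + β ^ 2 + 1 / β ^ 2) * (((n : ℝ) ^ 3)⁻¹ +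
      (x + th) * Mg k x l' t2 + x ^ 8 / th ^ 7 +
      (Rg1 k x l' t1 + Rg1 k x l' t2) / (th * n) +
      (Rg1 k x l' t1 + Rg1 k x l' t2) / (x ^ 2 * n)) := by
  have hn' : (0 : ℝ) < n := Nat.cast_pos.2 hn
  have hn1 : (1 : ℝ) ≤ n := by exact_mod_cast hn
  have hk0 : k ≠ 0 := by
    rw [hk]
    exact div_ne_zero hβ (Real.sqrt_pos.2 hn').ne'
  have hk2 : k ^ 2 = β ^ 2 / n := by rw [hk, div_pow, Real.sq_sqrt hn'.le]
  have hkap : 0 < (t2 - t1) / t1 := div_pos (by linarith) h0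
  have hkap1 : (t2 - t1) / t1 ≤ 1 := by
    rw [div_le_one h0]
    linarith
  have hrho : 0 < th ^ 2 / (x ^ 2 * n) := by positivity
  have hm : Mg k x l' t1 ≤ Mg k x l' t2 :=
    Mg_mono l' hx.le ⟨h0.le, h12.le.trans h2⟩ ⟨h0.le.trans h12.le, h2⟩ h12.le
  have hs := sum_sites (k := k) hx.le hx1 h0 h12.le h2 hn l' (lam := 1 / (1 + (t2 - t1) / t1 / 2))
    rfl hkap1 rfl (eta := th / n) (by positivity)
  rw [sum_tG1, sum_tG2] at hs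
  exact H816.key_real (n := (n : ℝ)) (be := β) (k := k) (x := x) (th := th)
    (rho := th ^ 2 / (x ^ 2 * n)) (Z0 := Z0 n k x) (D0 := (n : ℝ) ^ 4 * Z0 n k x)
    (T := TT n k x t1 t2) hn1 hβ hk2 hx hx1 hth hth1 hkap hkap1 rfl rfl (Z0p k x) rfl
    (Mg_nonneg l' t1) hm (Rg1_nonneg l' t1) (Rg1_nonneg l' t2) hs
    (II_rank1 h0.le h12.le h2 hk0 hx hx1 hn l') (II_rank2 h0.le h12.le h2 hk0 hx hx1 hn l')
    (touchII_1 h0.le h12.le h2 hx.le hn l' hrho) (touchII_2 h0.le h12.le h2 hx.le hn l' hrho)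
    TT_nonneg (TT_ge h0.le h12.le h2 hk0 hx hx1 hn l')

end Vale.Agent.P146.H325
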