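import Vale.Agent.P146.H325.Two
import Vale.Agent.P146.H332.KX

/-!
Martingales of the tilted law of a level, monotonicity of their moments in the share.
-/

open MeasureTheory ProbabilityTheory

namespace Vale.Agent.P146.H325

open Vale.Agent.P157.Lv Vale.Agent.P146.H425 Vale.Agent.P146.H332

set_option linter.unusedSectionVars false

variable {ι : Type} [Fintype ι] [DecidableEq ι] {X : Type} [Fintype X] [Nonempty X]
  {k : ℝ} {S : ι → X → ℝ} {x : ℝ} {A0 : Finset ι} {l : Lvl ι}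

/-- the density of a level -/
lemma den (k : ℝ) (S : ι → X → ℝ) {x : ℝ} (hx : 0 ≤ x) (A0 : Finset ι) (l : Lvl ι) :
    Den (act A0) (Nl k S x A0 l fun _ => 1) (ext fun e => Nl k S x A0 l (one' k S x e)) :=
  ⟨(ob_one k S x).kfN A0 l, N1_lower k S x A0 hx l⟩

/-- martingales of the level `l` -/
def Mt (k : ℝ) (S : ι → X → ℝ) (x : ℝ) (A0 : Finset ι) (l : Lvl ι)
    (f : ℝ → (ι ⊕ ι → ℝ) → ℝ) : Prop :=
  ∃ D, KX (act A0) (Nl k S x A0 l fun _ => 1) (ext fun e => Nl k S x A0 l (one' k S x e)) f D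
    (fun _ _ => 0)

lemma mt_rl {F : (ι → ℝ) → ℝ} {F' : ι → (ι → ℝ) → ℝ} (h : Ob k S x F F') (hx : 0 ≤ x) :
    Mt k S x A0 l (rl k S x A0 l F) :=
  ⟨_, (KX.ratio (den k S hx A0 l) (h.kfN A0 l)).congr
    (fun s w => by unfold rl; rw [div_eq_mul_inv]) (fun e he s w => rfl) fun s w => rfl⟩

lemma Mt.add {f g : ℝ → (ι ⊕ ι → ℝ) → ℝ} (hf : Mt k S x A0 l f) (hg : Mt k S x A0 l g) :
    Mt k S x A0 l (fun s w => f s w + g s w) := by
  obtain ⟨D, h⟩ := hf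
  obtain ⟨D', h'⟩ := hg
  exact ⟨_, (h.add h').congr (fun _ _ => rfl) (fun _ _ _ _ => rfl) fun s w => by simp⟩

lemma Mt.wt {f : ℝ → (ι ⊕ ι → ℝ) → ℝ} (hf : Mt k S x A0 l f) {Y : (ι ⊕ ι → ℝ) → ℝ}
    (hY : Wt A0 Y) : Mt k S x A0 l (fun s w => Y w * f s w) := by
  obtain ⟨D, h⟩ := hf
  exact ⟨_, ((KX.weight hY.eg hY.ind).mul h).congr (fun _ _ => rfl) (fun _ _ _ _ => rfl)
    fun s w => by simp⟩

lemma Mt.const_mul {f : ℝ → (ι ⊕ ι → ℝ) → ℝ} (hf : Mt k S x A0 l f) (c : ℝ) :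
    Mt k S x A0 l (fun s w => c * f s w) := hf.wt (Wt.const c)

lemma Mt.sum {κ : Type*} (T : Finset κ) {f : κ → ℝ → (ι ⊕ ι → ℝ) → ℝ}
    (hf : ∀ i ∈ T, Mt k S x A0 l (f i)) : Mt k S x A0 l (fun s w => ∑ i ∈ T, f i s w) := by
  choose! D hD using hf
  exact ⟨_, (KX.sum T hD).congr (fun _ _ => rfl) (fun _ _ _ _ => rfl) fun s w => by simp⟩

/-- expectations of functions with nonnegative generator are nondecreasing -/
lemma mono_of_L {f L : ℝ → (ι ⊕ ι → ℝ) → ℝ} {D : ι ⊕ ι → ℝ → (ι ⊕ ι → ℝ) → ℝ}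
    (hx : 0 ≤ x) (h : KX (act A0) (Nl k S x A0 l fun _ => 1)
      (ext fun e => Nl k S x A0 l (one' k S x e)) f D L)
    (hL : ∀ s w, 0 ≤ L s w) :
    MonotoneOn (fun s => ∫ w, Nl k S x A0 l (fun _ => 1) s w * f s w ∂(gI (ι ⊕ ι)))
      (Set.Icc 0 1) := by
  refine monotoneOn_of_deriv_nonneg (convex_Icc 0 1) (h.cont (den k S hx A0 l)) ?_ ?_
  · intro s hs
    rw [interior_Icc] at hs
    exact (h.deriv (den k S hx A0 l) hs).differentiableAt.differentiableWithinAt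
  · intro s hs
    rw [interior_Icc] at hs
    rw [(h.deriv (den k S hx A0 l) hs).deriv]
    exact integral_nonneg fun w => mul_nonneg (N1_pos k S x A0 l s w).le (hL s w)

/-- second moments -/
lemma mono_sq {κ : Type*} (T : Finset κ) {f : κ → ℝ → (ι ⊕ ι → ℝ) → ℝ} (hx : 0 ≤ x)
    (hf : ∀ i ∈ T, Mt k S x A0 l (f i)) :
    MonotoneOn (fun s => ∫ w, Nl k S x A0 l (fun _ => 1) s w * ∑ i ∈ T, f i s w ^ 2
      ∂(gI (ι ⊕ ι))) (Set.Icc 0 1) := by
  choose! D hD using hf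
  refine mono_of_L hx (KX.sum T fun i hi => (hD i hi).sq) fun s w => ?_
  refine Finset.sum_nonneg fun i _ => ?_
  rw [mul_zero, zero_add]
  exact Finset.sum_nonneg fun e _ => sq_nonneg _

/-- fourth moments -/
lemma mono_sq_sq {κ : Type*} (T : Finset κ) {f : κ → ℝ → (ι ⊕ ι → ℝ) → ℝ} (hx : 0 ≤ x)
    (hf : ∀ i ∈ T, Mt k S x A0 l (f i)) :
    MonotoneOn (fun s => ∫ w, Nl k S x A0 l (fun _ => 1) s w * (∑ i ∈ T, f i s w ^ 2) ^ 2
      ∂(gI (ι ⊕ ι))) (Set.Icc 0 1) := by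
  choose! D hD using hf
  refine mono_of_L hx (KX.sum T fun i hi => (hD i hi).sq).sq fun s w => ?_
  refine add_nonneg (mul_nonneg (mul_nonneg zero_le_two ?_) ?_) ?_
  · exact Finset.sum_nonneg fun i _ => sq_nonneg _
  · refine Finset.sum_nonneg fun i _ => ?_
    rw [mul_zero, zero_add]
    exact Finset.sum_nonneg fun e _ => sq_nonneg _
  · exact Finset.sum_nonneg fun e _ => sq_nonneg _

/-- quadratic forms of martingales with positive semidefinite weights -/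
lemma mono_psd {κ : Type} [Fintype κ] {f : κ → ℝ → (ι ⊕ ι → ℝ) → ℝ} (hx : 0 ≤ x)
    (hf : ∀ i, Mt k S x A0 l (f i)) {Y : κ → κ → (ι ⊕ ι → ℝ) → ℝ}
    (hY : ∀ i j, Wt A0 (Y i j)) (hp : ∀ w (v : κ → ℝ), 0 ≤ ∑ i, ∑ j, Y i j w * (v i * v j)) :
    MonotoneOn (fun s => ∫ w, Nl k S x A0 l (fun _ => 1) s w *
      ∑ i, ∑ j, Y i j w * (f i s w * f j s w) ∂(gI (ι ⊕ ι))) (Set.Icc 0 1) := by
  choose D hD using hf
  have h1 := KX.sum (Finset.univ : Finset κ) fun i _ => KX.sum (Finset.univ : Finset κ) fun j _ =>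
    (KX.weight (Z := Nl k S x A0 l fun _ => 1)
      (DZ := ext fun e => Nl k S x A0 l (one' k S x e)) (hY i j).eg (hY i j).ind).mul
        ((hD i).mul (hD j))
  refine mono_of_L hx (h1.congr (fun s w => rfl) (fun _ _ _ _ => rfl)
    (L' := fun s w => ∑ i, ∑ j, Y i j w * ∑ e ∈ act A0, D i e s w * D j e s w)
      fun s w => ?_) fun s w => ?_
  · refine Finset.sum_congr rfl fun i _ => Finset.sum_congr rfl fun j _ => ?_
    simp
  · have : ∑ i, ∑ j, Y i j w * ∑ e ∈ act A0, D i e s w * D j e s w =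
        ∑ e ∈ act A0, ∑ i, ∑ j, Y i j w * (D i e s w * D j e s w) := by
      simp only [Finset.mul_sum]
      exact (Finset.sum_congr rfl fun i _ => Finset.sum_comm).trans Finset.sum_comm
    rw [this]
    exact Finset.sum_nonneg fun e _ => hp w fun i => D i e s w

end Vale.Agent.P146.H325
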