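import Vale.Agent.P146.H325.Eqs
import Vale.Agent.P146.H325.Grow
import Vale.Agent.P146.H332.R2G

/-!
The inequality of one site.
-/

open MeasureTheory ProbabilityTheory

namespace Vale.Agent.P146.H325

open Vale.Agent.P157.Lv Vale.Agent.P146.H425 Vale.Agent.P146.H332 Matrix

set_option linter.unusedSectionVars false

variable {n : ℕ} {k x : ℝ} {b : Fin n} {t1 t2 : ℝ}

lemma L1_eq (n : ℕ) (t1 : ℝ) : H332.L1 n t1 = L1 n t1 := rfl

lemma L2_eq (n : ℕ) (t1 t2 : ℝ) : H332.L2 n t1 t2 = L2 n t1 t2 := rfl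

lemma eg_Fq (hx : 0 ≤ x) (d i j : Lvl (Pair n))
    {Y : (Pair n ⊕ Pair n → ℝ) → Matrix (Fin n) (Fin n) ℝ}
    (hY : ∀ p q, Wt (row b) fun w => Y w p q) {s : ℝ} (hs : s ∈ Set.Icc (0 : ℝ) 1) :
    EG (Fq k x b d i j Y s) := by
  obtain ⟨D, hD⟩ := kf_Fq (k := k) hx d i j hY
  exact hD.gf.eg hs

lemma eg_Fi (hx : 0 ≤ x) (d i : Lvl (Pair n)) {c : (Pair n ⊕ Pair n → ℝ) → ℝ}
    (hc : Wt (row b) c) {s : ℝ} (hs : s ∈ Set.Icc (0 : ℝ) 1) :
    EG (Fi k x b d i c s) := by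
  obtain ⟨D, hD⟩ := kf_Fi (k := k) hx d i hc
  exact hD.gf.eg hs

/-- the total mass of a row density -/
lemma mass (h0 : 0 ≤ t1) (h12 : t1 ≤ t2) (h2 : t2 ≤ 1) (hx : 0 ≤ x) (b : Fin n) {s : ℝ}
    (hs : s ∈ Set.Icc (0 : ℝ) 1) :
    ∫ w, Nm k x b (L2 n t1 t2) s w ∂(gI (Pair n ⊕ Pair n)) = Z0 n k x := by
  have h1 : ∀ s ∈ Set.Icc (0 : ℝ) 1, ∫ w, Nm k x b (L2 n t1 t2) s w ∂(gI (Pair n ⊕ Pair n)) =
      ∫ w, Nm k x b (L2 n t1 t2) 0 w ∂(gI (Pair n ⊕ Pair n)) := by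
    intro s hs
    have h := Ob.weight_const (row b) (L2 n t1 t2) (ob_one k (SkS (n := n)) x)
      (φ := fun _ => 1) (EG.const 1) (fun _ _ _ _ => rfl) le_rfl hs.1 hs.2
    simpa [Nm] using h
  rw [h1 s hs, ← h1 t2 ⟨h0.trans h12, h2⟩]
  have h := int_MA (k := k) (x := x) (at_L2 h0 h12 (row b)) (h0.trans h12) hx (L2 n t1 t2)
    (Φ := fun _ => 1) (EG.const 1)
  simp only [mul_one] at h
  rw [int_Nl k SkS x (L2 n t1 t2) t2 ⟨h0.trans h12, h2⟩] at h
  exact h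

section

variable (hx : 0 ≤ x) (h0 : 0 < t1) (h12 : t1 ≤ t2) (h2 : t2 ≤ 1) (hn : 0 < n)
include hx h0 h12 h2 hn

/-- the sum of the fourth moments -/
lemma Qt_le (l' : Lvl (Pair n)) (b : Fin n) {s : ℝ} (hs0 : 0 ≤ s) (hs : s ≤ t1) :
    ∫ w, Nm k x b (L2 n t1 t2) s w * Qt k x b (L1 n t1) (L2 n t1 t2) s w
      ∂(gI (Pair n ⊕ Pair n)) ≤ 4 * ((n : ℝ) ^ 4 * Z0 n k x * Mg k x l' t2) := by
  have hs1 : s ∈ Set.Icc (0 : ℝ) 1 := ⟨hs0, hs.trans (h12.trans h2)⟩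
  have h00 : (0 : ℝ) ∈ Set.Icc (0 : ℝ) 1 := ⟨le_rfl, zero_le_one⟩
  have egN : EG (Nm k x b (L2 n t1 t2) s) := eg_N (row b) _ hs1
  have eC : ∀ (l : Lvl (Pair n)) {s : ℝ}, s ∈ Set.Icc (0 : ℝ) 1 →
      EG fun w => fr (MC k x b l s w) ^ 2 := fun l s hs =>
    (EG.sum _ fun p _ => EG.sum _ fun q _ =>
      (eg_rl (row b) l (ob_av k SkS x (pr p q)) hx hs).pow 2).pow 2
  have i1 := (egN.mul (eC (L1 n t1) h00)).integrable
  have i2 := (egN.mul (eC (L2 n t1 t2) h00)).integrable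
  have i3 := (egN.mul (eC (L1 n t1) hs1)).integrable
  have i4 := (egN.mul (eC (L2 n t1 t2) hs1)).integrable
  have e : ∀ w, Nm k x b (L2 n t1 t2) s w * Qt k x b (L1 n t1) (L2 n t1 t2) s w =
      Nm k x b (L2 n t1 t2) s w * fr (MC k x b (L1 n t1) 0 w) ^ 2 +
      Nm k x b (L2 n t1 t2) s w * fr (MC k x b (L2 n t1 t2) 0 w) ^ 2 +
      Nm k x b (L2 n t1 t2) s w * fr (MC k x b (L1 n t1) s w) ^ 2 +
      Nm k x b (L2 n t1 t2) s w * fr (MC k x b (L2 n t1 t2) s w) ^ 2 := by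
    intro w
    unfold Qt
    ring
  simp only [e]
  have i12 : Integrable (fun w => Nm k x b (L2 n t1 t2) s w * fr (MC k x b (L1 n t1) 0 w) ^ 2 +
      Nm k x b (L2 n t1 t2) s w * fr (MC k x b (L2 n t1 t2) 0 w) ^ 2)
      (gI (Pair n ⊕ Pair n)) := i1.add i2
  have i123 : Integrable (fun w => Nm k x b (L2 n t1 t2) s w * fr (MC k x b (L1 n t1) 0 w) ^ 2 +
      Nm k x b (L2 n t1 t2) s w * fr (MC k x b (L2 n t1 t2) 0 w) ^ 2 +
      Nm k x b (L2 n t1 t2) s w * fr (MC k x b (L1 n t1) s w) ^ 2)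
      (gI (Pair n ⊕ Pair n)) := i12.add i3
  rw [integral_add i123 i4, integral_add i12 i3, integral_add i1 i2]
  have b1 := row0_L1_le (k := k) h0.le h12 h2 hx hn l' b hs1
  have b2 := row0_L2_le (k := k) h0.le h12 h2 hx hn l' b hs1
  have b3 := row_L1_le (k := k) h0.le h12 h2 hx hn l' b hs0 hs
  have b4 := row_L2_le (k := k) h0.le h12 h2 hx hn l' b hs0 (hs.trans h12)
  have hm : Mg k x l' t1 ≤ Mg k x l' t2 :=
    Mg_mono l' hx ⟨h0.le, h12.trans h2⟩ ⟨h0.le.trans h12, h2⟩ h12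
  have hD : 0 ≤ (n : ℝ) ^ 4 * Z0 n k x := mul_nonneg (by positivity) (Z0p k x).le
  have hm2 := mul_le_mul_of_nonneg_left hm hD
  rw [L1_eq, L2_eq] at b1 b3
  rw [L2_eq] at b2 b4
  linarith

/-- the derivative inequality, integrated -/
lemma tot_le (hx1 : x ≤ 1) {lam : ℝ} (hl : 0 < lam) (hl1 : lam ≤ 1) (l' : Lvl (Pair n))
    (b : Fin n) :
    ∫ w, Tot k x b lam (L1 n t1) (L2 n t1 t2) t1 w ∂(gI (Pair n ⊕ Pair n)) ≤
      Z0 n k x + t1 * (112 * k ^ 2 * x * ((n : ℝ) ^ 4 * Z0 n k x * Mg k x l' t2)) := by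
  obtain ⟨D, L, hK, hL⟩ := kf_Tot (k := k) (b := b) hx hx1 hl hl1 (L1 n t1) (L2 n t1 t2)
  have h00 : (0 : ℝ) ∈ Set.Icc (0 : ℝ) 1 := ⟨le_rfl, zero_le_one⟩
  have h := KF.sub_le hK le_rfl h0.le (h12.trans h2)
    (M := 112 * k ^ 2 * x * ((n : ℝ) ^ 4 * Z0 n k x * Mg k x l' t2)) (fun s hs => by
      have hs1 : s ∈ Set.Icc (0 : ℝ) 1 := ⟨hs.1, hs.2.trans (h12.trans h2)⟩
      have egN : EG (Nm k x b (L2 n t1 t2) s) := eg_N (row b) _ hs1
      have eC : ∀ (l : Lvl (Pair n)) {s : ℝ}, s ∈ Set.Icc (0 : ℝ) 1 →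
          EG fun w => fr (MC k x b l s w) ^ 2 := fun l s hs =>
        (EG.sum _ fun p _ => EG.sum _ fun q _ =>
          (eg_rl (row b) l (ob_av k SkS x (pr p q)) hx hs).pow 2).pow 2
      have eQ : EG fun w => Qt k x b (L1 n t1) (L2 n t1 t2) s w :=
        (((eC _ h00).add (eC _ h00)).add (eC _ hs1)).add (eC _ hs1)
      refine (integral_mono (hK.gL.eg hs1).integrable
        ((egN.mul eQ).const_mul (28 * k ^ 2 * x)).integrable (hL s)).trans ?_
      rw [integral_const_mul]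
      have h3 := Qt_le hx h0 h12 h2 hn (k := k) l' b hs.1 hs.2
      have h4 : 0 ≤ 28 * k ^ 2 * x := by positivity
      have h5 := mul_le_mul_of_nonneg_left h3 h4
      linarith)
  have h3 : ∫ w, Tot k x b lam (L1 n t1) (L2 n t1 t2) 0 w ∂(gI (Pair n ⊕ Pair n)) ≤
      Z0 n k x := by
    rw [← mass h0.le h12 h2 hx b h00]
    exact integral_mono (hK.gf.eg h00).integrable (eg_N (row b) _ h00).integrable
      fun w => Tot_zero_le hl _ _ w
  rw [sub_zero] at h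
  linarith

omit hn in
lemma psd_fr (M : Matrix (Fin n) (Fin n) ℝ) (hM : Mᵀ = M) (v : Fin n → ℝ) :
    0 ≤ ∑ i, ∑ j, ((if i = j then fr M else 0) - (M * M) i j) * (v i * v j) := by
  have h1 : ∀ i j, M i j = M j i := fun i j => by
    conv_lhs => rw [← hM]
    rfl
  have h2 : ∑ i, ∑ j, ((if i = j then fr M else 0) - (M * M) i j) * (v i * v j) =
      fr M * vn v - vn (fun p => ∑ l, v l * M p l) := by
    simp only [sub_mul, Finset.sum_sub_distrib, ite_mul, zero_mul, Finset.sum_ite_eq,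
      Finset.mem_univ, if_true]
    congr 1
    · unfold vn
      rw [Finset.mul_sum]
      exact Finset.sum_congr rfl fun i _ => by ring
    · unfold vn
      simp only [sq, Finset.sum_mul_sum]
      have e : ∀ i j, (M * M) i j * (v i * v j) =
          ∑ p, v i * M p i * (v j * M p j) := by
        intro i j
        rw [mul_apply, Finset.sum_mul]
        exact Finset.sum_congr rfl fun p _ => by rw [h1 i p]; ring
      simp only [e]
      exact (Finset.sum_congr rfl fun i _ => Finset.sum_comm).trans Finset.sum_comm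
  rw [h2]
  have := vn_mulVec M v
  linarith

/-- monotonicity of the commutator functional of the upper level -/
lemma g2_mono (b : Fin n) :
    (∫ w, Fi k x b (L2 n t1 t2) (L2 n t1 t2) (fun w => fr (M0 k x b (L2 n t1 t2) w)) t1 w
        ∂(gI (Pair n ⊕ Pair n))) -
      ∫ w, Fq k x b (L2 n t1 t2) (L2 n t1 t2) (L2 n t1 t2)
        (fun w => M0 k x b (L2 n t1 t2) w * M0 k x b (L2 n t1 t2) w) t1 w
          ∂(gI (Pair n ⊕ Pair n)) ≤
      II k x t1 t2 fun w => fr (BB k x b t2 (v2 t1 t2 w)) * vn (UU k x b t2 (v2 t1 t2 w)) -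
        qv (BB k x b t2 (v2 t1 t2 w) * BB k x b t2 (v2 t1 t2 w))
          (UU k x b t2 (v2 t1 t2 w)) (UU k x b t2 (v2 t1 t2 w)) := by
  set l := L2 n t1 t2 with hl
  have ht1 : t1 ∈ Set.Icc (0 : ℝ) 1 := ⟨h0.le, h12.trans h2⟩
  have ht2 : t2 ∈ Set.Icc (0 : ℝ) 1 := ⟨h0.le.trans h12, h2⟩
  have w2 := wt_MC (k := k) (b := b) hx l
  have hm := mono_psd (k := k) (S := SkS (n := n)) (A0 := row b) (l := l)
    (f := fun p s w => VU k x b l s w p) hx
    (fun p => mt_rl (ob_av k SkS x (pr p b)) hx)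
    (Y := fun i j w => (if i = j then fr (M0 k x b l w) else 0) -
      (M0 k x b l w * M0 k x b l w) i j)
    (fun i j => by
      refine Wt.sub ?_ (wt_mul w2 w2 i j)
      by_cases hij : i = j
      · simp only [hij, if_true]; exact wt_fr w2
      · simp only [hij, if_false]; exact Wt.const 0)
    (fun w v => psd_fr hx h0 h12 h2 (M0 k x b l w) MC_T v)
  have hm2 := hm ht1 ht2 h12
  simp only at hm2
  have e0 : ∀ s w, ∑ i, ∑ j, ((if i = j then fr (M0 k x b l w) else 0) -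
      (M0 k x b l w * M0 k x b l w) i j) * (VU k x b l s w i * VU k x b l s w j) =
      fr (M0 k x b l w) * vn (VU k x b l s w) -
        qv (M0 k x b l w * M0 k x b l w) (VU k x b l s w) (VU k x b l s w) := by
    intro s w
    unfold qv vn
    simp only [sub_mul, Finset.sum_sub_distrib, ite_mul, zero_mul, Finset.sum_ite_eq,
      Finset.mem_univ, if_true]
    congr 1
    rw [Finset.mul_sum]
    exact Finset.sum_congr rfl fun i _ => by ring
  simp only [e0] at hm2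
  have h3 := eqG2 (k := k) (x := x) (b := b) h0.le h12 h2
  rw [← h3]
  refine le_trans (le_of_eq ?_) hm2
  rw [← integral_sub (eg_Fi hx l l (wt_fr w2) ht1).integrable
    (eg_Fq hx l l l (wt_mul w2 w2) ht1).integrable]
  congr 1
  funext w
  rw [Fi_eq, Fq_eq]
  unfold Nm
  ring

end

end Vale.Agent.P146.H325
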