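import Vale.Agent.P146.H325.PerB

/-!
The inequality of one site, with the bulk matrices.
-/

open MeasureTheory ProbabilityTheory

namespace Vale.Agent.P146.H325

open Vale.Agent.P157.Lv Vale.Agent.P146.H425 Vale.Agent.P146.H332 Matrix

set_option linter.unusedSectionVars false

variable {n : ℕ} {k x : ℝ} {b : Fin n} {t1 t2 : ℝ}

/-- (A) -/
noncomputable def hA (k x : ℝ) (b : Fin n) (t1 t2 : ℝ) : ℝ :=
  II k x t1 t2 fun w => qv (BB k x b t1 (v1 t1 w) * BB k x b t2 (v2 t1 t2 w))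
    (UU k x b t1 (v1 t1 w)) (UU k x b t2 (v2 t1 t2 w))

/-- (B) -/
noncomputable def hB (k x : ℝ) (b : Fin n) (t1 t2 : ℝ) : ℝ :=
  II k x t1 t2 fun w => qv (BB k x b t2 (v2 t1 t2 w) * BB k x b t2 (v2 t1 t2 w))
    (UU k x b t1 (v1 t1 w)) (UU k x b t1 (v1 t1 w))

/-- (C) -/
noncomputable def hC (k x : ℝ) (b : Fin n) (t1 t2 : ℝ) : ℝ :=
  II k x t1 t2 fun w => qv (BB k x b t1 (v1 t1 w) * BB k x b t1 (v1 t1 w))
    (UU k x b t2 (v2 t1 t2 w)) (UU k x b t2 (v2 t1 t2 w))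

/-- (G1) -/
noncomputable def hG1 (k x : ℝ) (b : Fin n) (t1 t2 : ℝ) : ℝ :=
  II k x t1 t2 fun w => fr (BB k x b t1 (v1 t1 w)) * vn (UU k x b t1 (v1 t1 w)) -
    qv (BB k x b t1 (v1 t1 w) * BB k x b t1 (v1 t1 w))
      (UU k x b t1 (v1 t1 w)) (UU k x b t1 (v1 t1 w))

/-- (G2) -/
noncomputable def hG2 (k x : ℝ) (b : Fin n) (t1 t2 : ℝ) : ℝ :=
  II k x t1 t2 fun w => fr (BB k x b t2 (v2 t1 t2 w)) * vn (UU k x b t2 (v2 t1 t2 w)) -
    qv (BB k x b t2 (v2 t1 t2 w) * BB k x b t2 (v2 t1 t2 w))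
      (UU k x b t2 (v2 t1 t2 w)) (UU k x b t2 (v2 t1 t2 w))

/-- the functional (C) at the share `t1` -/
noncomputable def gC (k x : ℝ) (b : Fin n) (t1 t2 s : ℝ) : ℝ :=
  ∫ w, Fq k x b (L2 n t1 t2) (L2 n t1 t2) (L2 n t1 t2)
    (fun w => M0 k x b (L1 n t1) w * M0 k x b (L1 n t1) w) s w ∂(gI (Pair n ⊕ Pair n))

lemma int7 {α : Type*} [MeasurableSpace α] {μ : Measure α} {f1 f2 f3 f4 f5 f6 f7 : α → ℝ}
    (c2 c3 : ℝ) (i1 : Integrable f1 μ) (i2 : Integrable f2 μ) (i3 : Integrable f3 μ)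
    (i4 : Integrable f4 μ) (i5 : Integrable f5 μ) (i6 : Integrable f6 μ)
    (i7 : Integrable f7 μ) :
    ∫ w, (f1 w - c2 * f2 w - c3 * f3 w - (f4 w - f5 w) - (f6 w - f7 w)) ∂μ =
      (∫ w, f1 w ∂μ) - c2 * (∫ w, f2 w ∂μ) - c3 * (∫ w, f3 w ∂μ) -
        ((∫ w, f4 w ∂μ) - ∫ w, f5 w ∂μ) - ((∫ w, f6 w ∂μ) - ∫ w, f7 w ∂μ) := by
  have j2 : Integrable (fun w => c2 * f2 w) μ := i2.const_mul c2
  have j3 : Integrable (fun w => c3 * f3 w) μ := i3.const_mul c3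
  have j12 : Integrable (fun w => f1 w - c2 * f2 w) μ := i1.sub j2
  have j123 : Integrable (fun w => f1 w - c2 * f2 w - c3 * f3 w) μ := j12.sub j3
  have j45 : Integrable (fun w => f4 w - f5 w) μ := i4.sub i5
  have j67 : Integrable (fun w => f6 w - f7 w) μ := i6.sub i7
  have j5 : Integrable (fun w => f1 w - c2 * f2 w - c3 * f3 w - (f4 w - f5 w)) μ := j123.sub j45
  rw [integral_sub j5 j67, integral_sub j123 j45, integral_sub j12 j3, integral_sub i1 j2,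
    integral_sub i4 i5, integral_sub i6 i7, integral_const_mul, integral_const_mul]

section

variable (hx : 0 ≤ x) (h0 : 0 < t1) (h12 : t1 ≤ t2) (h2 : t2 ≤ 1)
include hx h0 h12 h2

/-- the total functional at the share `t1` -/
lemma tot_split (lam : ℝ) (b : Fin n) :
    ∫ w, Tot k x b lam (L1 n t1) (L2 n t1 t2) t1 w ∂(gI (Pair n ⊕ Pair n)) =
      hA k x b t1 t2 - lam / 2 * hB k x b t1 t2 - 1 / (2 * lam) * gC k x b t1 t2 t1 -
        hG1 k x b t1 t2 -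
        ((∫ w, Fi k x b (L2 n t1 t2) (L2 n t1 t2) (fun w => fr (M0 k x b (L2 n t1 t2) w)) t1 w
          ∂(gI (Pair n ⊕ Pair n))) -
        ∫ w, Fq k x b (L2 n t1 t2) (L2 n t1 t2) (L2 n t1 t2)
          (fun w => M0 k x b (L2 n t1 t2) w * M0 k x b (L2 n t1 t2) w) t1 w
            ∂(gI (Pair n ⊕ Pair n))) := by
  have ht1 : t1 ∈ Set.Icc (0 : ℝ) 1 := ⟨h0.le, h12.trans h2⟩
  have w1 := wt_MC (k := k) (b := b) hx (L1 n t1)
  have w2 := wt_MC (k := k) (b := b) hx (L2 n t1 t2)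
  have i1 := (eg_Fq (k := k) hx (L2 n t1 t2) (L1 n t1) (L2 n t1 t2) (wt_mul w1 w2) ht1).integrable
  have i2 := (eg_Fq (k := k) hx (L2 n t1 t2) (L1 n t1) (L1 n t1) (wt_mul w2 w2) ht1).integrable
  have i3 := (eg_Fq (k := k) hx (L2 n t1 t2) (L2 n t1 t2) (L2 n t1 t2)
    (wt_mul w1 w1) ht1).integrable
  have i4 := (eg_Fi (k := k) hx (L2 n t1 t2) (L1 n t1) (wt_fr w1) ht1).integrable
  have i5 := (eg_Fq (k := k) hx (L2 n t1 t2) (L1 n t1) (L1 n t1) (wt_mul w1 w1) ht1).integrable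
  have i6 := (eg_Fi (k := k) hx (L2 n t1 t2) (L2 n t1 t2) (wt_fr w2) ht1).integrable
  have i7 := (eg_Fq (k := k) hx (L2 n t1 t2) (L2 n t1 t2) (L2 n t1 t2)
    (wt_mul w2 w2) ht1).integrable
  unfold Tot
  refine (int7 (lam / 2) (1 / (2 * lam)) i1 i2 i3 i4 i5 i6 i7).trans ?_
  rw [eqA hx h0.le h12 h2, eqB h0.le h12 h2, eqG1 h0.le h12 h2]
  rfl

lemma gC_zero (b : Fin n) : gC k x b t1 t2 0 = Z0 n k x := by
  have h00 : (0 : ℝ) ∈ Set.Icc (0 : ℝ) 1 := ⟨le_rfl, zero_le_one⟩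
  unfold gC
  simp only [Fq_zero, M0_mul, mul_one]
  exact mass h0.le h12 h2 hx b h00

lemma gC_grow (hx1 : x ≤ 1) (hn : 0 < n) (l' : Lvl (Pair n)) (b : Fin n) :
    gC k x b t1 t2 t1 + (t2 - t1) / t1 * (gC k x b t1 t2 t1 - Z0 n k x) ≤
      hC k x b t1 t2 +
        3 * k ^ 2 * x * (t2 - t1) * (2 * ((n : ℝ) ^ 4 * Z0 n k x * Mg k x l' t2)) := by
  have w1 := wt_MC (k := k) (b := b) hx (L1 n t1)
  have h00 : (0 : ℝ) ∈ Set.Icc (0 : ℝ) 1 := ⟨le_rfl, zero_le_one⟩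
  have h := grow (k := k) (x := x) (b := b) (l := L2 n t1 t2) hx hx1
    (M := fun w => M0 k x b (L1 n t1) w) w1 (fun w => MC_T) (B := 2 * ((n : ℝ) ^ 4 * Z0 n k x *
      Mg k x l' t2)) h0 h12 h2 (fun s hs => by
      have hs1 : s ∈ Set.Icc (0 : ℝ) 1 := ⟨hs.1, hs.2.trans h2⟩
      have egN : EG (Nm k x b (L2 n t1 t2) s) := eg_N (row b) _ hs1
      have eC : ∀ (l : Lvl (Pair n)) {s : ℝ}, s ∈ Set.Icc (0 : ℝ) 1 →
          EG fun w => fr (MC k x b l s w) ^ 2 := fun l s hs =>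
        (EG.sum _ fun p _ => EG.sum _ fun q _ =>
          (eg_rl (row b) l (ob_av k SkS x (pr p q)) hx hs).pow 2).pow 2
      simp only [mul_add]
      rw [integral_add (egN.mul (eC (L1 n t1) h00)).integrable
        (egN.mul (eC (L2 n t1 t2) hs1)).integrable]
      have b1 := row0_L1_le (k := k) h0.le h12 h2 hx hn l' b hs1
      have b4 := row_L2_le (k := k) h0.le h12 h2 hx hn l' b hs.1 hs.2
      have hm : Mg k x l' t1 ≤ Mg k x l' t2 :=
        Mg_mono l' hx ⟨h0.le, h12.trans h2⟩ ⟨h0.le.trans h12, h2⟩ h12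
      have hD : 0 ≤ (n : ℝ) ^ 4 * Z0 n k x := mul_nonneg (by positivity) (Z0p k x).le
      have hm2 := mul_le_mul_of_nonneg_left hm hD
      rw [L1_eq, L2_eq] at b1
      rw [L2_eq] at b4
      linarith)
  have e0 := gC_zero hx h0 h12 h2 (k := k) b
  unfold gC at e0
  have e2 := eqC (k := k) (x := x) (b := b) h0.le h12 h2
  rw [e0, e2] at h
  exact h

/-- **The inequality of one site, bulk matrices.** -/
theorem perB0 (hx1 : x ≤ 1) (hn : 0 < n) (l' : Lvl (Pair n)) (b : Fin n) {kap lam : ℝ}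
    (hkap : kap = (t2 - t1) / t1) (hk1 : kap ≤ 1) (hlam : lam = 1 / (1 + kap / 2)) :
    hA k x b t1 t2 - lam / 2 * hB k x b t1 t2 -
        1 / (2 * lam * (1 + kap)) * hC k x b t1 t2 ≤
      hG1 k x b t1 t2 + hG2 k x b t1 t2 + 3 / 2 * Z0 n k x +
        132 * k ^ 2 * x * ((n : ℝ) ^ 4 * Z0 n k x * Mg k x l' t2) := by
  have hk0 : 0 ≤ kap := by rw [hkap]; exact div_nonneg (by linarith) h0.le
  have hl : 0 < lam := by rw [hlam]; positivity
  have hl1 : lam ≤ 1 := by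
    rw [hlam]
    rw [div_le_one (by positivity)]
    linarith
  have hZ := (Z0p (n := n) k x).le
  have hM := Mg_nonneg (k := k) (x := x) l' t2
  set D := (n : ℝ) ^ 4 * Z0 n k x * Mg k x l' t2 with hD
  have hD0 : 0 ≤ D := mul_nonneg (mul_nonneg (by positivity) hZ) hM
  have hkx : 0 ≤ k ^ 2 * x := by positivity
  have a1 := tot_le hx h0 h12 h2 hn (k := k) hx1 hl hl1 l' b
  rw [tot_split hx h0 h12 h2 lam b] at a1
  have a2 := g2_mono hx h0 h12 h2 hn (k := k) b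
  have a3 := gC_grow hx h0 h12 h2 (k := k) hx1 hn l' b
  rw [← hkap] at a3
  rw [← hD] at a1 a3
  have a2' : _ ≤ hG2 k x b t1 t2 := a2
  -- the growth
  have hp : 0 < 2 * lam * (1 + kap) := by positivity
  set c := 1 / (2 * lam * (1 + kap)) with hc
  have hc0 : 0 ≤ c := by positivity
  have ec : c = (2 + kap) / (4 * (1 + kap)) := by
    rw [hc, hlam]
    field_simp
    ring
  have hc1 : c ≤ 1 / 2 := by
    rw [ec, div_le_iff₀ (by positivity)]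
    linarith
  have e1 : 1 / (2 * lam) = c * (1 + kap) := by
    rw [hc]
    field_simp
  have a4 : c * ((1 + kap) * gC k x b t1 t2 t1) ≤
      c * (hC k x b t1 t2 + kap * Z0 n k x + 3 * k ^ 2 * x * (t2 - t1) * (2 * D)) :=
    mul_le_mul_of_nonneg_left (by linarith) hc0
  have a5 : c * (kap * Z0 n k x) ≤ 1 / 2 * Z0 n k x := by
    have : c * kap ≤ 1 / 2 * 1 := mul_le_mul hc1 hk1 hk0 (by norm_num)
    rw [mul_one] at this
    calc c * (kap * Z0 n k x) = (c * kap) * Z0 n k x := by ring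
      _ ≤ 1 / 2 * Z0 n k x := mul_le_mul_of_nonneg_right this hZ
  have a6 : c * (3 * k ^ 2 * x * (t2 - t1) * (2 * D)) ≤ 3 * (k ^ 2 * x) * D := by
    have h1 : (t2 - t1) * (k ^ 2 * x * D) ≤ 1 * (k ^ 2 * x * D) :=
      mul_le_mul_of_nonneg_right (by linarith) (mul_nonneg hkx hD0)
    have h3 : 0 ≤ (t2 - t1) * (k ^ 2 * x * D) :=
      mul_nonneg (by linarith) (mul_nonneg hkx hD0)
    have h4 := mul_le_mul_of_nonneg_right hc1 h3
    have e5 : c * (3 * k ^ 2 * x * (t2 - t1) * (2 * D)) =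
        6 * (c * ((t2 - t1) * (k ^ 2 * x * D))) := by ring
    have e6 : 3 * (k ^ 2 * x) * D = 3 * (k ^ 2 * x * D) := by ring
    rw [e5, e6]
    linarith
  have a7 : t1 * (112 * k ^ 2 * x * D) ≤ 112 * (k ^ 2 * x) * D := by
    have h1 : t1 * (k ^ 2 * x * D) ≤ 1 * (k ^ 2 * x * D) :=
      mul_le_mul_of_nonneg_right (by linarith) (mul_nonneg hkx hD0)
    have e5 : t1 * (112 * k ^ 2 * x * D) = 112 * (t1 * (k ^ 2 * x * D)) := by ring
    have e6 : 112 * (k ^ 2 * x) * D = 112 * (k ^ 2 * x * D) := by ring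
    rw [e5, e6]
    linarith
  have a8 : 0 ≤ k ^ 2 * x * D := mul_nonneg hkx hD0
  rw [e1] at a1
  have a9 : 132 * k ^ 2 * x * D = 132 * (k ^ 2 * x * D) := by ring
  rw [a9]
  have e4 : c * ((1 + kap) * gC k x b t1 t2 t1) = c * (1 + kap) * gC k x b t1 t2 t1 := by ring
  linarith

end

end Vale.Agent.P146.H325
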