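import Vale.Agent.P146.H325.PerB2
import Vale.Agent.P146.H816.Err

/-!
The inequality of one site, with the full matrices.
-/

open MeasureTheory ProbabilityTheory

namespace Vale.Agent.P146.H325

open Vale.Agent.P157.Lv Vale.Agent.P146.H425 Vale.Agent.P146.H332 Matrix

set_option linter.unusedSectionVars false

variable {n : ℕ} {k x : ℝ} {b : Fin n} {t1 t2 : ℝ}

lemma AA_comm (t : ℝ) (v : Pair n → ℝ) (p q : Fin n) : AA k x t v p q = AA k x t v q p := by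
  unfold AA
  rw [pr_comm]

lemma AA_T (t : ℝ) (v : Pair n → ℝ) : (AA k x t v)ᵀ = AA k x t v := by
  ext p q
  exact AA_comm t v q p

/-- every position is a position of the lower level -/
lemma exists_v1 {t : ℝ} (ht : 0 < t) (v : Pair n → ℝ) :
    ∃ w : Pair n ⊕ Pair n → ℝ, v1 t w = v := by
  refine ⟨Sum.elim (fun e => v e / √t) 0, ?_⟩
  funext e
  have h : √t ≠ 0 := (Real.sqrt_pos.2 ht).ne'
  simp only [v1, Sum.elim_inl]
  field_simp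

lemma vn_UU_le {t : ℝ} (ht : 0 < t) (v : Pair n → ℝ) :
    vn (UU k x b t v) ^ 2 ≤ fr (AA k x t v) := by
  obtain ⟨w, rfl⟩ := exists_v1 ht v
  rw [← VU_L1, ← MC_L1 (b := b)]
  exact vn_VU_le

/-! ### full functionals -/

/-- (A) -/
noncomputable def tA (k x : ℝ) (b : Fin n) (t1 t2 : ℝ) : ℝ :=
  II k x t1 t2 fun w => qv (AA k x t1 (v1 t1 w) * AA k x t2 (v2 t1 t2 w))
    (UU k x b t1 (v1 t1 w)) (UU k x b t2 (v2 t1 t2 w))

/-- (B) -/
noncomputable def tB (k x : ℝ) (b : Fin n) (t1 t2 : ℝ) : ℝ :=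
  II k x t1 t2 fun w => qv (AA k x t2 (v2 t1 t2 w) * AA k x t2 (v2 t1 t2 w))
    (UU k x b t1 (v1 t1 w)) (UU k x b t1 (v1 t1 w))

/-- (C) -/
noncomputable def tC (k x : ℝ) (b : Fin n) (t1 t2 : ℝ) : ℝ :=
  II k x t1 t2 fun w => qv (AA k x t1 (v1 t1 w) * AA k x t1 (v1 t1 w))
    (UU k x b t2 (v2 t1 t2 w)) (UU k x b t2 (v2 t1 t2 w))

/-- (G1) -/
noncomputable def tG1 (k x : ℝ) (b : Fin n) (t1 t2 : ℝ) : ℝ :=
  II k x t1 t2 fun w => fr (AA k x t1 (v1 t1 w)) * vn (UU k x b t1 (v1 t1 w)) -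
    qv (AA k x t1 (v1 t1 w) * AA k x t1 (v1 t1 w))
      (UU k x b t1 (v1 t1 w)) (UU k x b t1 (v1 t1 w))

/-- (G2) -/
noncomputable def tG2 (k x : ℝ) (b : Fin n) (t1 t2 : ℝ) : ℝ :=
  II k x t1 t2 fun w => fr (AA k x t2 (v2 t1 t2 w)) * vn (UU k x b t2 (v2 t1 t2 w)) -
    qv (AA k x t2 (v2 t1 t2 w) * AA k x t2 (v2 t1 t2 w))
      (UU k x b t2 (v2 t1 t2 w)) (UU k x b t2 (v2 t1 t2 w))

/-- touch at the lower level -/
noncomputable def td1 (k x : ℝ) (b : Fin n) (t1 t2 : ℝ) : ℝ :=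
  II k x t1 t2 fun w => fr (AA k x t1 (v1 t1 w) - BB k x b t1 (v1 t1 w))

/-- touch at the upper level -/
noncomputable def td2 (k x : ℝ) (b : Fin n) (t1 t2 : ℝ) : ℝ :=
  II k x t1 t2 fun w => fr (AA k x t2 (v2 t1 t2 w) - BB k x b t2 (v2 t1 t2 w))

/-- fourth moment -/
noncomputable def W1 (n : ℕ) (k x t1 t2 : ℝ) : ℝ :=
  II k x t1 t2 fun w : Pair n ⊕ Pair n → ℝ => fr (AA k x t1 (v1 t1 w)) ^ 2

/-- fourth moment -/
noncomputable def W2 (n : ℕ) (k x t1 t2 : ℝ) : ℝ :=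
  II k x t1 t2 fun w : Pair n ⊕ Pair n → ℝ => fr (AA k x t2 (v2 t1 t2 w)) ^ 2

/-- fourth moment -/
noncomputable def Y1 (k x : ℝ) (b : Fin n) (t1 t2 : ℝ) : ℝ :=
  II k x t1 t2 fun w => fr (BB k x b t1 (v1 t1 w)) ^ 2

/-- fourth moment -/
noncomputable def Y2 (k x : ℝ) (b : Fin n) (t1 t2 : ℝ) : ℝ :=
  II k x t1 t2 fun w => fr (BB k x b t2 (v2 t1 t2 w)) ^ 2

/-! ### fourth moments -/

section

variable (hx : 0 ≤ x) (h0 : 0 < t1) (h12 : t1 ≤ t2) (h2 : t2 ≤ 1) (hn : 0 < n)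
include hx h0 h12 h2 hn

lemma fA1_le (l' : Lvl (Pair n)) :
    W1 n k x t1 t2 ≤ (n : ℝ) ^ 4 * Z0 n k x * Mg k x l' t1 := by
  have b : Fin n := ⟨0, hn⟩
  have h := eqN (k := k) (x := x) (b := b) h0.le h12 h2
    (Φ := fun w => fr (AA k x t1 (v1 t1 w)) ^ 2) ((eg_frM eg_A1).pow 2) (fun e _ w t => by
      simp only [v1_inr])
  unfold W1
  rw [← h]
  have h3 := row_L1_le (k := k) h0.le h12 h2 hx hn l' b h0.le le_rfl
  rw [L1_eq, L2_eq] at h3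
  simp only [MC_L1] at h3
  exact h3

lemma fA2_le (l' : Lvl (Pair n)) :
    W2 n k x t1 t2 ≤ (n : ℝ) ^ 4 * Z0 n k x * Mg k x l' t2 := by
  have b : Fin n := ⟨0, hn⟩
  have eG : EG fun v : Pair n → ℝ => ND k x t2 v * fr (AA k x t2 v) ^ 2 :=
    (eg_ND t2).mul ((eg_frM (eg_AA t2)).pow 2)
  have h := start2_one h0.le h12 h2 eG b
  unfold W2 II
  rw [h]
  have h3 := row_L2_le (k := k) h0.le h12 h2 hx hn l' b (h0.le.trans h12) le_rfl
  rw [L2_eq] at h3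
  simp only [MC_L2, Nm_L2] at h3
  exact h3

lemma fB1_le (l' : Lvl (Pair n)) (b : Fin n) :
    Y1 k x b t1 t2 ≤ (n : ℝ) ^ 4 * Z0 n k x * Mg k x l' t1 := by
  have h := eqN (k := k) (x := x) (b := b) h0.le h12 h2
    (Φ := fun w => fr (BB k x b t1 (v1 t1 w)) ^ 2) ((eg_frM eg_B1).pow 2) (fun e _ w t => by
      simp only [v1_inr])
  unfold Y1
  rw [← h]
  have h3 := row0_L1_le (k := k) h0.le h12 h2 hx hn l' b (s := t1) ⟨h0.le, h12.trans h2⟩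
  rw [L1_eq, L2_eq] at h3
  have e : ∀ w, fr (MC k x b (L1 n t1) 0 w) = fr (BB k x b t1 (v1 t1 w)) := fun w => by
    rw [← M0_L1]
  simp only [e] at h3
  exact h3

lemma fB2_le (l' : Lvl (Pair n)) (b : Fin n) :
    Y2 k x b t1 t2 ≤ (n : ℝ) ^ 4 * Z0 n k x * Mg k x l' t2 := by
  have hI : IR b fun w : Pair n ⊕ Pair n → ℝ => fr (BB k x b t2 (v2 t1 t2 w)) ^ 2 := by
    refine ir_of (g := fun w => (v1 t1 w, KK b (v2 t1 t2 w))) dat_ir
      (fun g => fr (BB k x b t2 g.2) ^ 2) fun w => ?_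
    simp only
    rw [B2_eq (t1 := t1) w]
  have h := eqN (k := k) (x := x) (b := b) h0.le h12 h2
    (Φ := fun w => fr (BB k x b t2 (v2 t1 t2 w)) ^ 2) ((eg_frM eg_B2).pow 2) hI
  unfold Y2
  rw [← h]
  have h3 := row0_L2_le (k := k) h0.le h12 h2 hx hn l' b (s := t1) ⟨h0.le, h12.trans h2⟩
  rw [L2_eq] at h3
  have e : ∀ w, fr (MC k x b (L2 n t1 t2) 0 w) = fr (BB k x b t2 (v2 t1 t2 w)) := fun w => by
    rw [← M0_L2]
  simp only [e] at h3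
  exact h3

end

/-! ### the errors -/

/-- the error term -/
noncomputable def Xe (k x : ℝ) (b : Fin n) (t1 t2 eta c1 c2 c3 c4 c5 c6 : ℝ)
    (w : Pair n ⊕ Pair n → ℝ) : ℝ :=
  eta * (c1 * fr (AA k x t1 (v1 t1 w)) ^ 2 + c2 * fr (AA k x t2 (v2 t1 t2 w)) ^ 2 +
    c3 * fr (BB k x b t1 (v1 t1 w)) ^ 2 + c4 * fr (BB k x b t2 (v2 t1 t2 w)) ^ 2) +
  1 / eta * (c5 * fr (AA k x t1 (v1 t1 w) - BB k x b t1 (v1 t1 w)) +
    c6 * fr (AA k x t2 (v2 t1 t2 w) - BB k x b t2 (v2 t1 t2 w)))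

lemma eg_Xe (eta c1 c2 c3 c4 c5 c6 : ℝ) : EG (Xe k x b t1 t2 eta c1 c2 c3 c4 c5 c6) :=
  ((((((eg_frM eg_A1).pow 2).const_mul c1).add (((eg_frM eg_A2).pow 2).const_mul c2)).add
    (((eg_frM eg_B1).pow 2).const_mul c3)).add (((eg_frM eg_B2).pow 2).const_mul c4)).const_mul
      eta |>.add ((((eg_frM (eg_subM eg_A1 eg_B1)).const_mul c5).add
        ((eg_frM (eg_subM eg_A2 eg_B2)).const_mul c6)).const_mul (1 / eta))

lemma II_Xe (eta c1 c2 c3 c4 c5 c6 : ℝ) :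
    II k x t1 t2 (Xe k x b t1 t2 eta c1 c2 c3 c4 c5 c6) =
      eta * (c1 * W1 n k x t1 t2 +
        c2 * W2 n k x t1 t2 +
        c3 * Y1 k x b t1 t2 +
        c4 * Y2 k x b t1 t2) +
      1 / eta * (c5 * td1 k x b t1 t2 + c6 * td2 k x b t1 t2) := by
  have e1 : EG fun w : Pair n ⊕ Pair n → ℝ => c1 * fr (AA k x t1 (v1 t1 w)) ^ 2 :=
    ((eg_frM eg_A1).pow 2).const_mul c1
  have e2 : EG fun w : Pair n ⊕ Pair n → ℝ => c2 * fr (AA k x t2 (v2 t1 t2 w)) ^ 2 :=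
    ((eg_frM eg_A2).pow 2).const_mul c2
  have e3 : EG fun w : Pair n ⊕ Pair n → ℝ => c3 * fr (BB k x b t1 (v1 t1 w)) ^ 2 :=
    ((eg_frM eg_B1).pow 2).const_mul c3
  have e4 : EG fun w : Pair n ⊕ Pair n → ℝ => c4 * fr (BB k x b t2 (v2 t1 t2 w)) ^ 2 :=
    ((eg_frM eg_B2).pow 2).const_mul c4
  have e5 : EG fun w : Pair n ⊕ Pair n → ℝ =>
      c5 * fr (AA k x t1 (v1 t1 w) - BB k x b t1 (v1 t1 w)) :=
    (eg_frM (eg_subM eg_A1 eg_B1)).const_mul c5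
  have e6 : EG fun w : Pair n ⊕ Pair n → ℝ =>
      c6 * fr (AA k x t2 (v2 t1 t2 w) - BB k x b t2 (v2 t1 t2 w)) :=
    (eg_frM (eg_subM eg_A2 eg_B2)).const_mul c6
  unfold Xe td1 td2 W1 W2 Y1 Y2
  rw [II_add ((((e1.add e2).add e3).add e4).const_mul eta) ((e5.add e6).const_mul (1 / eta)),
    II_const_mul, II_const_mul, II_add ((e1.add e2).add e3) e4, II_add (e1.add e2) e3,
    II_add e1 e2, II_add e5 e6]
  simp only [II_const_mul]

lemma diff_le {Φ Ψ : (Pair n ⊕ Pair n → ℝ) → ℝ} (h : EG Φ) (h' : EG Ψ)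
    {eta c1 c2 c3 c4 c5 c6 : ℝ}
    (hle : ∀ w, Φ w - Ψ w ≤ Xe k x b t1 t2 eta c1 c2 c3 c4 c5 c6 w) :
    II k x t1 t2 Φ - II k x t1 t2 Ψ ≤
      eta * (c1 * W1 n k x t1 t2 +
        c2 * W2 n k x t1 t2 +
        c3 * Y1 k x b t1 t2 +
        c4 * Y2 k x b t1 t2) +
      1 / eta * (c5 * td1 k x b t1 t2 + c6 * td2 k x b t1 t2) := by
  rw [← II_Xe, ← II_sub h h']
  exact II_mono (h.sub h') (eg_Xe _ _ _ _ _ _ _) hle

lemma qv_sub (Y Z : Matrix (Fin n) (Fin n) ℝ) (U V : Fin n → ℝ) :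
    qv Y U V - qv Z U V = ∑ p, ∑ r, (Y - Z) p r * (U p * V r) := by
  unfold qv
  rw [← Finset.sum_sub_distrib]
  refine Finset.sum_congr rfl fun p _ => ?_
  rw [← Finset.sum_sub_distrib]
  exact Finset.sum_congr rfl fun r _ => by rw [Matrix.sub_apply]; ring

section

variable (h0 : 0 < t1) (h12 : t1 ≤ t2) {eta : ℝ} (he : 0 < eta)
include h0 h12 he

lemma errA (b : Fin n) : tA k x b t1 t2 - hA k x b t1 t2 ≤
      eta * (1 * W1 n k x t1 t2 +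
        2 * W2 n k x t1 t2 +
        1 * Y1 k x b t1 t2 +
        0 * Y2 k x b t1 t2) +
      1 / eta * (1 * td1 k x b t1 t2 + 1 * td2 k x b t1 t2) := by
  refine diff_le (eg_qv (eg_mulM eg_A1 eg_A2) eg_U1 eg_U2)
    (eg_qv (eg_mulM eg_B1 eg_B2) eg_U1 eg_U2) fun w => ?_
  rw [qv_sub]
  refine (le_abs_self _).trans ((H816.err_mat (AA k x t1 (v1 t1 w)) (AA k x t2 (v2 t1 t2 w))
    (BB k x b t1 (v1 t1 w)) (BB k x b t2 (v2 t1 t2 w)) _ _ (vn_UU_le h0 _)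
    (vn_UU_le (h0.trans_le h12) _) he).trans (le_of_eq ?_))
  unfold Xe
  ring

lemma errB (b : Fin n) : hB k x b t1 t2 - tB k x b t1 t2 ≤
      eta * (2 * W1 n k x t1 t2 +
        1 * W2 n k x t1 t2 +
        0 * Y1 k x b t1 t2 +
        1 * Y2 k x b t1 t2) +
      1 / eta * (0 * td1 k x b t1 t2 + 2 * td2 k x b t1 t2) := by
  refine diff_le (eg_qv (eg_mulM eg_B2 eg_B2) eg_U1 eg_U1)
    (eg_qv (eg_mulM eg_A2 eg_A2) eg_U1 eg_U1) fun w => ?_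
  rw [← neg_sub, qv_sub]
  refine (neg_le_abs _).trans ((H816.err_mat (AA k x t2 (v2 t1 t2 w)) (AA k x t2 (v2 t1 t2 w))
    (BB k x b t2 (v2 t1 t2 w)) (BB k x b t2 (v2 t1 t2 w)) _ _ (vn_UU_le h0 _)
    (vn_UU_le h0 _) he).trans (le_of_eq ?_))
  unfold Xe
  ring

lemma errC (b : Fin n) : hC k x b t1 t2 - tC k x b t1 t2 ≤
      eta * (1 * W1 n k x t1 t2 +
        2 * W2 n k x t1 t2 +
        1 * Y1 k x b t1 t2 +
        0 * Y2 k x b t1 t2) +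
      1 / eta * (2 * td1 k x b t1 t2 + 0 * td2 k x b t1 t2) := by
  refine diff_le (eg_qv (eg_mulM eg_B1 eg_B1) eg_U2 eg_U2)
    (eg_qv (eg_mulM eg_A1 eg_A1) eg_U2 eg_U2) fun w => ?_
  rw [← neg_sub, qv_sub]
  refine (neg_le_abs _).trans ((H816.err_mat (AA k x t1 (v1 t1 w)) (AA k x t1 (v1 t1 w))
    (BB k x b t1 (v1 t1 w)) (BB k x b t1 (v1 t1 w)) _ _ (vn_UU_le (h0.trans_le h12) _)
    (vn_UU_le (h0.trans_le h12) _) he).trans (le_of_eq ?_))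
  unfold Xe
  ring

omit h0 h12 in
/-- pointwise error of the commutator functionals -/
lemma errG_pw {A M : Matrix (Fin n) (Fin n) ℝ} {U : Fin n → ℝ} (hU : vn U ^ 2 ≤ fr A) :
    (fr M * vn U - qv (M * M) U U) - (fr A * vn U - qv (A * A) U U) ≤
      eta * (5 * fr A ^ 2 + 2 * fr M ^ 2) + 1 / eta * (3 * fr (A - M)) := by
  have h1 := H816.err_id A M U hU he
  have h2 := H816.err_mat A A M M U U hU hU he
  rw [← qv_sub] at h2
  have h3 := (le_abs_self _).trans h1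
  have h4 := (le_abs_self _).trans h2
  have e : (fr M * vn U - qv (M * M) U U) - (fr A * vn U - qv (A * A) U U) =
      (fr M - fr A) * ∑ p, U p ^ 2 + (qv (A * A) U U - qv (M * M) U U) := by
    unfold vn
    ring
  rw [e]
  refine (add_le_add h3 h4).trans (le_of_eq ?_)
  ring

lemma errG1 (b : Fin n) : hG1 k x b t1 t2 - tG1 k x b t1 t2 ≤
      eta * (5 * W1 n k x t1 t2 +
        0 * W2 n k x t1 t2 +
        2 * Y1 k x b t1 t2 +
        0 * Y2 k x b t1 t2) +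
      1 / eta * (3 * td1 k x b t1 t2 + 0 * td2 k x b t1 t2) := by
  refine diff_le (((eg_frM eg_B1).mul (EG.sum _ fun p _ => (eg_U1 p).pow 2)).sub
      (eg_qv (eg_mulM eg_B1 eg_B1) eg_U1 eg_U1))
    (((eg_frM eg_A1).mul (EG.sum _ fun p _ => (eg_U1 p).pow 2)).sub
      (eg_qv (eg_mulM eg_A1 eg_A1) eg_U1 eg_U1)) fun w => ?_
  refine (errG_pw he (vn_UU_le h0 _)).trans (le_of_eq ?_)
  unfold Xe
  ring

lemma errG2 (b : Fin n) : hG2 k x b t1 t2 - tG2 k x b t1 t2 ≤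
      eta * (0 * W1 n k x t1 t2 +
        5 * W2 n k x t1 t2 +
        0 * Y1 k x b t1 t2 +
        2 * Y2 k x b t1 t2) +
      1 / eta * (0 * td1 k x b t1 t2 + 3 * td2 k x b t1 t2) := by
  refine diff_le (((eg_frM eg_B2).mul (EG.sum _ fun p _ => (eg_U2 p).pow 2)).sub
      (eg_qv (eg_mulM eg_B2 eg_B2) eg_U2 eg_U2))
    (((eg_frM eg_A2).mul (EG.sum _ fun p _ => (eg_U2 p).pow 2)).sub
      (eg_qv (eg_mulM eg_A2 eg_A2) eg_U2 eg_U2)) fun w => ?_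
  refine (errG_pw he (vn_UU_le (h0.trans_le h12) _)).trans (le_of_eq ?_)
  unfold Xe
  ring

end

/-- the end of the inequality of one site, reals -/
lemma perB_real {hA hB hC hG1 hG2 tA tB tC tG1 tG2 d1 d2 a1 a2 b1 b2 Z D W lam c eta K : ℝ}
    (h : hA - lam / 2 * hB - c * hC ≤ hG1 + hG2 + 3 / 2 * Z + K * D)
    (eA : tA - hA ≤ eta * (1 * a1 + 2 * a2 + 1 * b1 + 0 * b2) + 1 / eta * (1 * d1 + 1 * d2))
    (eB : hB - tB ≤ eta * (2 * a1 + 1 * a2 + 0 * b1 + 1 * b2) + 1 / eta * (0 * d1 + 2 * d2))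
    (eC : hC - tC ≤ eta * (1 * a1 + 2 * a2 + 1 * b1 + 0 * b2) + 1 / eta * (2 * d1 + 0 * d2))
    (eG1 : hG1 - tG1 ≤ eta * (5 * a1 + 0 * a2 + 2 * b1 + 0 * b2) + 1 / eta * (3 * d1 + 0 * d2))
    (eG2 : hG2 - tG2 ≤ eta * (0 * a1 + 5 * a2 + 0 * b1 + 2 * b2) + 1 / eta * (0 * d1 + 3 * d2))
    (ha1 : a1 ≤ W) (ha2 : a2 ≤ W) (hb1 : b1 ≤ W) (hb2 : b2 ≤ W) (hd1 : 0 ≤ d1) (hd2 : 0 ≤ d2)
    (hW : 0 ≤ W) (he : 0 < eta) (hl0 : 0 ≤ lam) (hl : lam ≤ 1) (hc0 : 0 ≤ c) (hc : c ≤ 1 / 2) :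
    tA - lam / 2 * tB - c * tC ≤ tG1 + tG2 + 3 / 2 * Z + K * D + 22 * eta * W +
      5 / eta * (d1 + d2) := by
  have hi : 0 < 1 / eta := by positivity
  have e5 : 5 / eta * (d1 + d2) = 5 * (1 / eta * d1) + 5 * (1 / eta * d2) := by
    field_simp
  have p1 : 0 ≤ 1 / eta * d1 := mul_nonneg hi.le hd1
  have p2 : 0 ≤ 1 / eta * d2 := mul_nonneg hi.le hd2
  have q1 := mul_le_mul_of_nonneg_left ha1 he.le
  have q2 := mul_le_mul_of_nonneg_left ha2 he.le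
  have q3 := mul_le_mul_of_nonneg_left hb1 he.le
  have q4 := mul_le_mul_of_nonneg_left hb2 he.le
  have q0 : 0 ≤ eta * W := mul_nonneg he.le hW
  have fA : tA - hA ≤ 4 * (eta * W) + (1 / eta * d1 + 1 / eta * d2) := by linarith
  have fB : hB - tB ≤ 4 * (eta * W) + 2 * (1 / eta * d2) := by linarith
  have fC : hC - tC ≤ 4 * (eta * W) + 2 * (1 / eta * d1) := by linarith
  have fG1 : hG1 - tG1 ≤ 7 * (eta * W) + 3 * (1 / eta * d1) := by linarith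
  have fG2 : hG2 - tG2 ≤ 7 * (eta * W) + 3 * (1 / eta * d2) := by linarith
  have gB : lam / 2 * (hB - tB) ≤ 1 / 2 * (4 * (eta * W) + 2 * (1 / eta * d2)) := by
    refine (mul_le_mul_of_nonneg_left fB (by positivity)).trans ?_
    exact mul_le_mul_of_nonneg_right (by linarith) (by positivity)
  have gC : c * (hC - tC) ≤ 1 / 2 * (4 * (eta * W) + 2 * (1 / eta * d1)) := by
    refine (mul_le_mul_of_nonneg_left fC hc0).trans ?_
    exact mul_le_mul_of_nonneg_right hc (by positivity)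
  rw [e5]
  have e6 : 22 * eta * W = 22 * (eta * W) := by ring
  rw [e6]
  linarith

/-- **The inequality of one site.** -/
theorem perB (hx : 0 ≤ x) (hx1 : x ≤ 1) (h0 : 0 < t1) (h12 : t1 ≤ t2) (h2 : t2 ≤ 1)
    (hn : 0 < n) (l' : Lvl (Pair n)) (b : Fin n) {kap lam eta : ℝ}
    (hkap : kap = (t2 - t1) / t1) (hk1 : kap ≤ 1) (hlam : lam = 1 / (1 + kap / 2))
    (he : 0 < eta) :
    tA k x b t1 t2 - lam / 2 * tB k x b t1 t2 -
        1 / (2 * lam * (1 + kap)) * tC k x b t1 t2 ≤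
      tG1 k x b t1 t2 + tG2 k x b t1 t2 + 3 / 2 * Z0 n k x +
        132 * k ^ 2 * x * ((n : ℝ) ^ 4 * Z0 n k x * Mg k x l' t2) +
        22 * eta * ((n : ℝ) ^ 4 * Z0 n k x * Mg k x l' t2) +
        5 / eta * (td1 k x b t1 t2 + td2 k x b t1 t2) := by
  have hk0 : 0 ≤ kap := by rw [hkap]; exact div_nonneg (by linarith) h0.le
  have hl : 0 < lam := by rw [hlam]; positivity
  have hl1 : lam ≤ 1 := by
    rw [hlam, div_le_one (by positivity)]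
    linarith
  have hc0 : 0 ≤ 1 / (2 * lam * (1 + kap)) := by positivity
  have hc1 : 1 / (2 * lam * (1 + kap)) ≤ 1 / 2 := by
    have ec : 1 / (2 * lam * (1 + kap)) = (2 + kap) / (4 * (1 + kap)) := by
      rw [hlam]
      field_simp
      ring
    rw [ec, div_le_iff₀ (by positivity)]
    linarith
  have hm : Mg k x l' t1 ≤ Mg k x l' t2 :=
    Mg_mono l' hx ⟨h0.le, h12.trans h2⟩ ⟨h0.le.trans h12, h2⟩ h12
  have hD : 0 ≤ (n : ℝ) ^ 4 * Z0 n k x := mul_nonneg (by positivity) (Z0p k x).le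
  have hm2 := mul_le_mul_of_nonneg_left hm hD
  exact perB_real (perB0 hx h0 h12 h2 hx1 hn l' b hkap hk1 hlam) (errA h0 h12 he b)
    (errB h0 h12 he b) (errC h0 h12 he b) (errG1 h0 h12 he b) (errG2 h0 h12 he b)
    ((fA1_le hx h0 h12 h2 hn l').trans hm2) (fA2_le hx h0 h12 h2 hn l')
    ((fB1_le hx h0 h12 h2 hn l' b).trans hm2) (fB2_le hx h0 h12 h2 hn l' b)
    (II_nonneg fun w => fr_nonneg _) (II_nonneg fun w => fr_nonneg _)
    (mul_nonneg hD (Mg_nonneg l' t2)) he hl.le hl1 hc0 hc1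

end Vale.Agent.P146.H325
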