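import Vale.Agent.P146.H325.Gibbs
import Vale.Agent.P146.H332.KFBase

/-!
Conditional expectations `r L F = E_x[F | level]` under the tilted law `∝ Z^x dγ`, in the class
`KF` of the heat calculus: gradients, generators, products of conditional expectations of two
levels.
-/

open MeasureTheory ProbabilityTheory

namespace Vale.Agent.P146.H325

open Vale.Agent.P157.Lv Vale.Agent.P146.H425 Vale.Agent.P146.H332

set_option linter.unusedSectionVars false

variable {ι : Type} [Fintype ι] [DecidableEq ι] {X : Type} [Fintype X] [Nonempty X]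

/-- The coefficients of a level outside of the active couplings. -/
structure Lvl (ι : Type) where
  a : ι → ℝ
  b : ι → ℝ
  c : ι → ℝ

variable (k : ℝ) (S : ι → X → ℝ) (x : ℝ) (A0 : Finset ι)

/-- unnormalised conditional expectation -/
noncomputable def Nl (l : Lvl ι) (F : (ι → ℝ) → ℝ) (s : ℝ) (w : ι ⊕ ι → ℝ) : ℝ :=
  P A0 l.a l.b l.c (fun u => Zx k S x u * F u) s w

/-- conditional expectation under the tilted law -/
noncomputable def rl (l : Lvl ι) (F : (ι → ℝ) → ℝ) (s : ℝ) (w : ι ⊕ ι → ℝ) : ℝ :=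
  Nl k S x A0 l F s w / Nl k S x A0 l (fun _ => 1) s w

/-- An observable `F` with `∂_e (Z^x F) = Z^x F' e`. -/
structure Ob (F : (ι → ℝ) → ℝ) (F' : ι → (ι → ℝ) → ℝ) : Prop where
  ex : ∃ F2, C2 (fun u => Zx k S x u * F u) (fun e u => Zx k S x u * F' e u) F2

/-- the logarithmic derivative of `Z^x` -/
noncomputable def one' (e : ι) (u : ι → ℝ) : ℝ := k * x * av k S (S e) u

lemma ob_one : Ob k S x (fun _ => 1) (one' k S x) :=
  ⟨_, (c2_Zx k S x).congr (fun u => (mul_one _).symm) (fun e u => by unfold one'; ring)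
    fun e u => rfl⟩

/-- the derivative of an average -/
noncomputable def av' (h : X → ℝ) (e : ι) (u : ι → ℝ) : ℝ :=
  k * (av k S (fun x => h x * S e x) u - (1 - x) * (av k S h u * av k S (S e) u))

lemma ob_av (h : X → ℝ) : Ob k S x (av k S h) (av' k S x h) := by
  obtain ⟨F2, h2⟩ := c2_Zav k S x h
  exact ⟨F2, h2.congr (fun u => rfl) (fun e u => by unfold av'; ring) fun e u => rfl⟩

lemma ob_avav (h g : X → ℝ) : ∃ F', Ob k S x (fun u => av k S h u * av k S g u) F' := by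
  refine ⟨fun e u => k * x * av k S (S e) u * (av k S h u * av k S g u) +
    (k * (av k S (fun x => h x * S e x) u - av k S h u * av k S (S e) u) * av k S g u +
      av k S h u * (k * (av k S (fun x => g x * S e x) u - av k S g u * av k S (S e) u))), ?_⟩
  exact ⟨_, ((c2_Zx k S x).mul ((c2_av k S h).mul (c2_av k S g))).congr (fun u => rfl)
    (fun e u => by ring) fun e u => rfl⟩

variable {k S x} in
lemma Ob.sub {F G : (ι → ℝ) → ℝ} {F' G' : ι → (ι → ℝ) → ℝ} (hF : Ob k S x F F')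
    (hG : Ob k S x G G') : Ob k S x (fun u => F u - G u) (fun e u => F' e u - G' e u) := by
  obtain ⟨F2, h⟩ := hF.ex
  obtain ⟨G2, g⟩ := hG.ex
  exact ⟨_, (h.sub g).congr (fun u => by ring) (fun e u => by ring) fun e u => rfl⟩

variable {k S x} in
lemma Ob.const_mul {F : (ι → ℝ) → ℝ} {F' : ι → (ι → ℝ) → ℝ} (c : ℝ) (hF : Ob k S x F F') :
    Ob k S x (fun u => c * F u) (fun e u => c * F' e u) := by
  obtain ⟨F2, h⟩ := hF.ex
  exact ⟨_, (h.const_mul c).congr (fun u => by ring) (fun e u => by ring) fun e u => rfl⟩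

lemma C2.sf {F : (ι → ℝ) → ℝ} {F1 F2 : ι → (ι → ℝ) → ℝ} (h : C2 F F1 F2) : SF A0 F F1 F2 :=
  ⟨h.eg, h.cont, fun e _ => h.eg1 e, fun e _ => h.c1 e, fun e _ => h.eg2 e, fun e _ => h.c2 e,
    h.fd, fun e _ => h.pd e⟩

/-- the active coordinates -/
abbrev act : Finset (ι ⊕ ι) := A0.map Function.Embedding.inl

/-- a family of derivatives, extended by zero -/
def ext (D : ι → ℝ → (ι ⊕ ι → ℝ) → ℝ) : ι ⊕ ι → ℝ → (ι ⊕ ι → ℝ) → ℝ :=
  Sum.elim D (fun _ _ _ => 0)

variable {k S x} in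
lemma Ob.kfN {F : (ι → ℝ) → ℝ} {F' : ι → (ι → ℝ) → ℝ} (h : Ob k S x F F') (l : Lvl ι) :
    KF (act A0) (Nl k S x A0 l F) (ext fun e => Nl k S x A0 l (F' e)) (fun _ _ => 0) := by
  obtain ⟨F2, h2⟩ := h.ex
  exact (C2.sf A0 h2).kf l.a l.b l.c

variable {k S x} in
lemma Ob.eg {F : (ι → ℝ) → ℝ} {F' : ι → (ι → ℝ) → ℝ} (h : Ob k S x F F') :
    EG fun u => Zx k S x u * F u := by
  obtain ⟨F2, h2⟩ := h.ex
  exact h2.eg

lemma Zx_lower (hx : 0 ≤ x) : ∃ c d : ℝ, 0 < c ∧ 0 ≤ d ∧
    ∀ y : ι → ℝ, c * Real.exp (-(d * ‖y‖)) ≤ Zx k S x y * 1 := by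
  obtain ⟨L, hL, h⟩ := lip_log k S
  refine ⟨Real.exp (x * Real.log (Zp k S 0)), x * L, Real.exp_pos _, by positivity, fun y => ?_⟩
  rw [← Real.exp_add, mul_one]
  unfold Zx
  refine Real.exp_le_exp.2 ?_
  have h1 := (abs_le.1 (h y 0)).1
  rw [sub_zero] at h1
  nlinarith [mul_le_mul_of_nonneg_left h1 hx]

lemma N1_lower (hx : 0 ≤ x) (l : Lvl ι) : ∃ c d : ℝ, 0 < c ∧ ∀ s ∈ Set.Icc (0 : ℝ) 1, ∀ w,
    c * Real.exp (-(d * ‖w‖)) ≤ Nl k S x A0 l (fun _ => 1) s w := by
  obtain ⟨c, d, hc, hd, h⟩ := Zx_lower k S x hx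
  obtain ⟨c', hc', h'⟩ := P_lower (A0 := A0) (ob_one k S x).eg hc hd h l.a l.b l.c
  exact ⟨c', _, hc', h'⟩

lemma N1_pos (l : Lvl ι) (s : ℝ) (w : ι ⊕ ι → ℝ) :
    0 < Nl k S x A0 l (fun _ => 1) s w := by
  unfold Nl P
  have e : ∀ z, pt A0 l.a l.b l.c s w z = fun e => u A0 l.a l.b s w e +
      (fun e => if e ∈ A0 then √(1 - s) else l.c e) e * z e := fun z => rfl
  have h1 : Integrable (fun z => Zx k S x (pt A0 l.a l.b l.c s w z) * 1) (gI ι) := by
    have := EG.integrable_aff (ob_one k S x).eg (u A0 l.a l.b s w)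
      (fun e => if e ∈ A0 then √(1 - s) else l.c e)
    exact this
  rw [integral_pos_iff_support_of_nonneg (fun w => by
    simp only [Pi.zero_apply, mul_one]; exact (Zx_pos k S x _).le) h1]
  have : (Function.support fun z : ι → ℝ => Zx k S x (pt A0 l.a l.b l.c s w z) * 1) =
      Set.univ := Set.eq_univ_of_forall fun w => by
        simp only [Function.mem_support, mul_one]
        exact (Zx_pos k S x _).ne'
  rw [this, measure_univ]
  exact one_pos

/-- integrability along the noise -/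
lemma int_pt {F : (ι → ℝ) → ℝ} (hF : EG F) (l : Lvl ι) (s : ℝ) (w : ι ⊕ ι → ℝ) :
    Integrable (fun z => F (pt A0 l.a l.b l.c s w z)) (gI ι) :=
  EG.integrable_aff hF (u A0 l.a l.b s w) (fun e => if e ∈ A0 then √(1 - s) else l.c e)

/-- the drift vector `θ_e = k x r(⟨S_e⟩)` of the tilted law -/
noncomputable def th (l : Lvl ι) (e : ι) (s : ℝ) (w : ι ⊕ ι → ℝ) : ℝ :=
  rl k S x A0 l (one' k S x e) s w

/-- the gradient of a conditional expectation -/
noncomputable def Dl (l : Lvl ι) (F : (ι → ℝ) → ℝ) (F' : ι → (ι → ℝ) → ℝ) (e : ι) (s : ℝ)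
    (w : ι ⊕ ι → ℝ) : ℝ :=
  rl k S x A0 l (F' e) s w - rl k S x A0 l F s w * th k S x A0 l e s w

variable {k S x} in
/-- **Conditional expectations are martingales of the tilted law.** -/
lemma Ob.kfr {F : (ι → ℝ) → ℝ} {F' : ι → (ι → ℝ) → ℝ} (h : Ob k S x F F') (hx : 0 ≤ x)
    (l : Lvl ι) :
    KF (act A0) (rl k S x A0 l F) (ext fun e => Dl k S x A0 l F F' e)
      (fun s w => -∑ e ∈ A0, th k S x A0 l e s w * Dl k S x A0 l F F' e s w) := by
  obtain ⟨c, d, hc, hlow⟩ := N1_lower k S x A0 hx l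
  have h1 := h.kfN A0 l
  have h2 := ((ob_one k S x).kfN A0 l).inv hc hlow
  refine (h1.mul h2).congr (fun s w => ?_) (fun j hj s w => ?_) (fun s w => ?_)
  · unfold rl
    rw [div_eq_mul_inv]
  · obtain ⟨e, he, rfl⟩ := Finset.mem_map.1 hj
    have hN := (N1_pos k S x A0 l s w).ne'
    simp only [ext, Function.Embedding.inl_apply, Sum.elim_inl, Dl, th, rl]
    field_simp
    ring
  · rw [Finset.sum_map, Finset.sum_map]
    simp only [ext, Function.Embedding.inl_apply, Sum.elim_inl, Dl, th, rl]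
    have hN := (N1_pos k S x A0 l s w).ne'
    rw [neg_zero, zero_div, zero_add, mul_zero, add_zero, Finset.mul_sum, ← Finset.sum_add_distrib,
      ← Finset.sum_neg_distrib]
    refine Finset.sum_congr rfl fun e _ => ?_
    field_simp
    ring

lemma N_th (l : Lvl ι) (e : ι) (s : ℝ) (w : ι ⊕ ι → ℝ) :
    Nl k S x A0 l (one' k S x e) s w =
      Nl k S x A0 l (fun _ => 1) s w * th k S x A0 l e s w := by
  unfold th rl
  rw [mul_div_cancel₀ _ (N1_pos k S x A0 l s w).ne']

variable {k S x} in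
/-- **The generator of a product of two conditional expectations**, with the density of the level
`d`. -/
theorem kf_two {F G : (ι → ℝ) → ℝ} {F' G' : ι → (ι → ℝ) → ℝ} (hF : Ob k S x F F')
    (hG : Ob k S x G G') (hx : 0 ≤ x) (d i j : Lvl ι) :
    ∃ D, KF (act A0)
      (fun s w => Nl k S x A0 d (fun _ => 1) s w * (rl k S x A0 i F s w * rl k S x A0 j G s w)) D
      (fun s w => Nl k S x A0 d (fun _ => 1) s w * ∑ e ∈ A0,
        (Dl k S x A0 i F F' e s w * Dl k S x A0 j G G' e s w +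
          (th k S x A0 d e s w - th k S x A0 i e s w) * Dl k S x A0 i F F' e s w *
            rl k S x A0 j G s w +
          (th k S x A0 d e s w - th k S x A0 j e s w) * Dl k S x A0 j G G' e s w *
            rl k S x A0 i F s w)) := by
  refine ⟨_, (((ob_one k S x).kfN A0 d).mul ((hF.kfr A0 hx i).mul (hG.kfr A0 hx j))).congr
    (fun s w => rfl) (fun j hj s w => rfl) (fun s w => ?_)⟩
  rw [Finset.sum_map, Finset.sum_map]
  simp only [ext, Function.Embedding.inl_apply, Sum.elim_inl]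
  simp only [N_th]
  rw [mul_zero, add_zero]
  simp only [mul_neg, Finset.mul_sum, ← Finset.sum_neg_distrib, ← Finset.sum_add_distrib]
  refine Finset.sum_congr rfl fun e _ => ?_
  ring

end Vale.Agent.P146.H325
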