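import Vale.Agent.P146.H325.Sk
import Vale.Agent.P146.H325.Cond

/-!
Row gradients in site form, and pointwise bounds: `0 ≤ H ≤ C` as quadratic forms, `|U|² ≤ ‖C‖`.
-/

open MeasureTheory ProbabilityTheory

namespace Vale.Agent.P146.H325

open Vale.Agent.P157.Lv Vale.Agent.P146.H425 Vale.Agent.P146.H332

set_option linter.unusedSectionVars false

variable {n : ℕ} {k x : ℝ} {b : Fin n} {l : Lvl (Pair n)} {s : ℝ} {w : Pair n ⊕ Pair n → ℝ}

lemma eb_av (h : (Fin n → ℤˣ) → ℝ) : EG fun u => Zx k (SkS (n := n)) x u * av k SkS h u :=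
  ebd (eg_av k SkS h)

lemma eb_avav (h g : (Fin n → ℤˣ) → ℝ) :
    EG fun u => Zx k (SkS (n := n)) x u * (av k SkS h u * av k SkS g u) :=
  ebd ((eg_av k SkS h).mul (eg_av k SkS g))

lemma Cm_comm (i j : Fin n) : Cm k x b l i j s w = Cm k x b l j i s w := by
  unfold Cm
  rw [pr_comm]

lemma Em_comm (i j : Fin n) : Em k x b l i j s w = Em k x b l j i s w := by
  unfold Em
  congr 1
  funext u
  ring

lemma Hm_comm (i j : Fin n) : Hm k x b l i j s w = Hm k x b l j i s w := by
  unfold Hm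
  rw [Cm_comm i j, Em_comm i j]
  ring

lemma av_pr_self (i : Fin n) (u : Pair n → ℝ) : av k SkS (pr i i) u = 1 := by
  rw [pr_self]
  exact av_one k SkS u

lemma Cm_self (i : Fin n) : Cm k x b l i i s w = 1 := by
  unfold Cm rS
  have e : (av k SkS (pr i i)) = fun _ => 1 := funext fun u => av_pr_self i u
  rw [e]
  exact rl_one

lemma Em_row (i : Fin n) : Em k x b l i b s w = Cm k x b l i b s w := by
  unfold Em Cm
  congr 1
  funext u
  rw [av_pr_self, mul_one]

lemma Hm_row (i : Fin n) : Hm k x b l i b s w = 0 := by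
  unfold Hm
  rw [Em_row, Cm_self]
  ring

lemma th_row {e : Pair n} (he : e ∈ row b) :
    th k SkS x (row b) l e s w = k * x * Cm k x b l (oth b e) b s w := by
  unfold th Cm
  have e1 : one' k SkS x e = fun u => (k * x) * av k SkS (pr (oth b e) b) u := by
    funext u
    unfold one'
    rw [SkS_oth he, pr_comm]
  rw [e1, rl_const_mul]

lemma Dl_row {e : Pair n} (he : e ∈ row b) (j : Fin n) :
    Dl k SkS x (row b) l (av k SkS (pr j b)) (av' k SkS x (pr j b)) e s w =
      k * Hm k x b l j (oth b e) s w := by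
  unfold Dl
  rw [th_row he]
  have e1 : av' k SkS x (pr j b) e = fun u => k * (av k SkS (pr j (oth b e)) u -
      (1 - x) * (av k SkS (pr j b) u * av k SkS (pr (oth b e) b) u)) := by
    funext u
    unfold av'
    rw [pr_mul_row he, SkS_oth he, pr_comm b]
  rw [e1, rl_const_mul, rl_sub (F := av k SkS (pr j (oth b e)))
    (G := fun u => (1 - x) * (av k SkS (pr j b) u * av k SkS (pr (oth b e) b) u))
    (eb_av _) (ebd (((eg_av k SkS _).mul (eg_av k SkS _)).const_mul _)), rl_const_mul]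
  unfold Hm Cm Em
  ring

/-! ### quadratic forms -/

/-- quadratic form -/
def qf (A : Fin n → Fin n → ℝ) (v : Fin n → ℝ) : ℝ := ∑ i, ∑ j, v i * A i j * v j

/-- the linear combination of the spins -/
def lin (v : Fin n → ℝ) (σ : Fin n → ℤˣ) : ℝ := ∑ i, v i * sp σ i

lemma av_lin_sq (v : Fin n → ℝ) (u : Pair n → ℝ) :
    av k SkS (fun σ => lin v σ ^ 2) u = ∑ i, ∑ j, v i * v j * av k SkS (pr i j) u := by
  have e1 : (fun σ : Fin n → ℤˣ => lin v σ ^ 2) =
      fun σ => ∑ i, ∑ j, (v i * v j) * pr i j σ := by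
    funext σ
    unfold lin pr
    rw [sq, Finset.sum_mul_sum]
    exact Finset.sum_congr rfl fun i _ => Finset.sum_congr rfl fun j _ => by ring
  rw [e1, av_sum]
  refine Finset.sum_congr rfl fun i _ => ?_
  rw [av_sum]
  exact Finset.sum_congr rfl fun j _ => av_mul _ _ _ _ _

lemma av_lin_row (v : Fin n → ℝ) (u : Pair n → ℝ) :
    av k SkS (fun σ => lin v σ * sp σ b) u = ∑ i, v i * av k SkS (pr i b) u := by
  have e1 : (fun σ : Fin n → ℤˣ => lin v σ * sp σ b) =
      fun σ => ∑ i, (v i) * pr i b σ := by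
    funext σ
    unfold lin pr
    rw [Finset.sum_mul]
    exact Finset.sum_congr rfl fun i _ => by ring
  rw [e1, av_sum]
  exact Finset.sum_congr rfl fun j _ => av_mul _ _ _ _ _

/-- general linear combinations of observables -/
lemma rl_qf {F : Fin n → Fin n → (Pair n → ℝ) → ℝ} (hF : ∀ i j, EG (F i j)) (v : Fin n → ℝ) :
    rl k (SkS (n := n)) x (row b) l (fun u => ∑ i, ∑ j, v i * v j * F i j u) s w =
      ∑ i, ∑ j, v i * v j * rl k SkS x (row b) l (F i j) s w := by
  rw [rl_sum (F := fun i u => ∑ j, v i * v j * F i j u) _ fun i _ =>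
    ebd (EG.sum _ fun j _ => (hF i j).const_mul _)]
  refine Finset.sum_congr rfl fun i _ => ?_
  rw [rl_sum (F := fun j u => v i * v j * F i j u) _ fun j _ => ebd ((hF i j).const_mul _)]
  exact Finset.sum_congr rfl fun j _ => rl_const_mul _

lemma qf_Cm (v : Fin n → ℝ) : qf (fun i j => Cm k x b l i j s w) v =
    rS k x b l (fun u => av k SkS (fun σ => lin v σ ^ 2) u) s w := by
  have e1 : (fun u => av k (SkS (n := n)) (fun σ => lin v σ ^ 2) u) =
      fun u => ∑ i, ∑ j, v i * v j * av k SkS (pr i j) u := funext fun u => av_lin_sq v u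
  unfold rS
  rw [e1, rl_qf fun i j => eg_av k SkS _]
  unfold qf Cm
  exact Finset.sum_congr rfl fun i _ => Finset.sum_congr rfl fun j _ => by ring

lemma qf_Em (v : Fin n → ℝ) : qf (fun i j => Em k x b l i j s w) v =
    rS k x b l (fun u => av k SkS (fun σ => lin v σ * sp σ b) u ^ 2) s w := by
  have e1 : (fun u => av k (SkS (n := n)) (fun σ => lin v σ * sp σ b) u ^ 2) =
      fun u => ∑ i, ∑ j, v i * v j * (av k SkS (pr i b) u * av k SkS (pr j b) u) := by
    funext u
    rw [av_lin_row, sq, Finset.sum_mul_sum]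
    exact Finset.sum_congr rfl fun i _ => Finset.sum_congr rfl fun j _ => by ring
  unfold rS
  rw [e1, rl_qf fun i j => (eg_av k SkS _).mul (eg_av k SkS _)]
  unfold qf Em
  exact Finset.sum_congr rfl fun i _ => Finset.sum_congr rfl fun j _ => by ring

lemma lin_Cm (v : Fin n → ℝ) : ∑ i, v i * Cm k x b l i b s w =
    rS k x b l (fun u => av k SkS (fun σ => lin v σ * sp σ b) u) s w := by
  have e1 : (fun u => av k (SkS (n := n)) (fun σ => lin v σ * sp σ b) u) =
      fun u => ∑ i, v i * av k SkS (pr i b) u := funext fun u => av_lin_row v u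
  unfold rS
  rw [e1, rl_sum (F := fun i u => v i * av k SkS (pr i b) u) _ fun i _ =>
    ebd ((eg_av k SkS _).const_mul _)]
  exact Finset.sum_congr rfl fun i _ => (rl_const_mul _).symm

lemma qf_Cm_nonneg (v : Fin n → ℝ) : 0 ≤ qf (fun i j => Cm k x b l i j s w) v := by
  rw [qf_Cm]
  exact rl_nonneg (ebd (eg_av k SkS _)) fun u => av_nonneg k SkS (fun σ => sq_nonneg _) u

lemma qf_Em_nonneg (v : Fin n → ℝ) : 0 ≤ qf (fun i j => Em k x b l i j s w) v := by
  rw [qf_Em]
  exact rl_nonneg (ebd ((eg_av k SkS _).pow 2)) fun u => sq_nonneg _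

lemma qf_Em_le (v : Fin n → ℝ) : qf (fun i j => Em k x b l i j s w) v ≤
    qf (fun i j => Cm k x b l i j s w) v := by
  rw [qf_Em, qf_Cm]
  refine rl_mono (ebd ((eg_av k SkS _).pow 2)) (ebd (eg_av k SkS _)) fun u => ?_
  refine (av_sq_le k SkS _ u).trans (le_of_eq ?_)
  congr 1
  funext σ
  rw [mul_pow, sp_sq, mul_one]

lemma sq_lin_le (v : Fin n → ℝ) : (∑ i, v i * Cm k x b l i b s w) ^ 2 ≤
    qf (fun i j => Em k x b l i j s w) v := by
  rw [lin_Cm, qf_Em]
  exact rl_sq_le (eg_av k SkS _)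

lemma qf_Hm (v : Fin n → ℝ) : qf (fun i j => Hm k x b l i j s w) v =
    qf (fun i j => Cm k x b l i j s w) v - (1 - x) * qf (fun i j => Em k x b l i j s w) v -
      x * (∑ i, v i * Cm k x b l i b s w) ^ 2 := by
  unfold qf Hm
  rw [sq, Finset.sum_mul_sum]
  simp only [Finset.mul_sum, ← Finset.sum_sub_distrib]
  exact Finset.sum_congr rfl fun i _ => Finset.sum_congr rfl fun j _ => by ring

lemma qf_Hm_nonneg (hx : 0 ≤ x) (hx1 : x ≤ 1) (v : Fin n → ℝ) :
    0 ≤ qf (fun i j => Hm k x b l i j s w) v := by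
  rw [qf_Hm]
  have h1 := qf_Em_le (k := k) (x := x) (b := b) (l := l) (s := s) (w := w) v
  have h2 := sq_lin_le (k := k) (x := x) (b := b) (l := l) (s := s) (w := w) v
  have h3 := mul_le_mul_of_nonneg_left h2 hx
  nlinarith

lemma qf_Hm_le (hx : 0 ≤ x) (hx1 : x ≤ 1) (v : Fin n → ℝ) :
    qf (fun i j => Hm k x b l i j s w) v ≤ qf (fun i j => Cm k x b l i j s w) v := by
  rw [qf_Hm]
  have h1 := qf_Em_nonneg (k := k) (x := x) (b := b) (l := l) (s := s) (w := w) v
  have h2 : 0 ≤ (1 - x) * qf (fun i j => Em k x b l i j s w) v :=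
    mul_nonneg (by linarith) h1
  have h3 : 0 ≤ x * (∑ i, v i * Cm k x b l i b s w) ^ 2 := mul_nonneg hx (sq_nonneg _)
  linarith

/-- the squared Frobenius norm -/
def fn (A : Fin n → Fin n → ℝ) : ℝ := ∑ i, ∑ j, A i j ^ 2

lemma fn_nonneg (A : Fin n → Fin n → ℝ) : 0 ≤ fn A :=
  Finset.sum_nonneg fun _ _ => Finset.sum_nonneg fun _ _ => sq_nonneg _

/-- a quadratic form is bounded by the Frobenius norm -/
lemma qf_sq_le (A : Fin n → Fin n → ℝ) (v : Fin n → ℝ) :
    qf A v ^ 2 ≤ fn A * (∑ i, v i ^ 2) ^ 2 := by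
  have h1 := Finset.sum_mul_sq_le_sq_mul_sq (Finset.univ : Finset (Fin n × Fin n))
    (fun p => A p.1 p.2) (fun p => v p.1 * v p.2)
  rw [← Finset.univ_product_univ, Finset.sum_product, Finset.sum_product, Finset.sum_product] at h1
  have e1 : ∑ i, ∑ j, A i j * (v i * v j) = qf A v := by
    unfold qf
    exact Finset.sum_congr rfl fun i _ => Finset.sum_congr rfl fun j _ => by ring
  have e2 : ∑ i, ∑ j, (v i * v j) ^ 2 = (∑ i, v i ^ 2) ^ 2 := by
    rw [sq (∑ i, v i ^ 2), Finset.sum_mul_sum]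
    exact Finset.sum_congr rfl fun i _ => Finset.sum_congr rfl fun j _ => by ring
  simp only at h1
  rw [e1, e2] at h1
  exact h1

/-- `|U|⁴ ≤ ‖C‖²` -/
lemma U_le : (∑ j, Cm k x b l j b s w ^ 2) ^ 2 ≤ fn fun i j => Cm k x b l i j s w := by
  set U : Fin n → ℝ := fun j => Cm k x b l j b s w with hU
  set a : ℝ := ∑ j, U j ^ 2 with ha
  have ha0 : 0 ≤ a := Finset.sum_nonneg fun _ _ => sq_nonneg _
  -- `qf C (U - t e_b) ≥ 0`
  have h1 : a ^ 2 ≤ qf (fun i j => Cm k x b l i j s w) U := by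
    have h2 := sq_lin_le (k := k) (x := x) (b := b) (l := l) (s := s) (w := w) U
    have h3 := qf_Em_le (k := k) (x := x) (b := b) (l := l) (s := s) (w := w) U
    have e : ∑ i, U i * Cm k x b l i b s w = a := by
      rw [ha, hU]
      exact Finset.sum_congr rfl fun i _ => by ring
    rw [e] at h2
    exact h2.trans h3
  have h4 := qf_sq_le (fun i j => Cm k x b l i j s w) U
  have h5 : a ^ 2 * a ^ 2 ≤ fn (fun i j => Cm k x b l i j s w) * a ^ 2 := by
    have h6 : a ^ 2 * a ^ 2 ≤ qf (fun i j => Cm k x b l i j s w) U ^ 2 := by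
      rw [sq (qf _ _)]
      exact mul_le_mul h1 h1 (sq_nonneg _) ((sq_nonneg _).trans h1)
    exact h6.trans h4
  rcases ha0.eq_or_lt with h | h
  · rw [← h]
    have := fn_nonneg fun i j => Cm k x b l i j s w
    simpa using this
  · exact le_of_mul_le_mul_right h5 (by positivity)

end Vale.Agent.P146.H325
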