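import Vale.Agent.P146.H325.Pos
import Vale.Agent.P146.H332.Conv

/-!
The full representation (integrals against `ND (v2 w)`) and the row representation.
-/

open MeasureTheory ProbabilityTheory

namespace Vale.Agent.P146.H325

open Vale.Agent.P157.Lv Vale.Agent.P146.H425 Vale.Agent.P146.H332 Matrix

set_option linter.unusedSectionVars false

variable {n : ℕ} {k x : ℝ} {b : Fin n} {t1 t2 : ℝ}

lemma v1_inr (e : Pair n) (w : Pair n ⊕ Pair n → ℝ) (t : ℝ) :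
    v1 t1 (Function.update w (Sum.inr e) t) = v1 t1 w := by
  funext j
  simp [v1]

lemma KK_v1_inl {e : Pair n} (he : e ∈ row b) (w : Pair n ⊕ Pair n → ℝ) (t : ℝ) :
    KK b (v1 t1 (Function.update w (Sum.inl e) t)) = KK b (v1 t1 w) := by
  funext j
  by_cases hj : j ∈ row b
  · simp [KK, hj]
  · have h1 : j ≠ e := fun h => hj (h ▸ he)
    simp [KK, v1, h1]

lemma KK_v2_inl {e : Pair n} (he : e ∈ row b) (w : Pair n ⊕ Pair n → ℝ) (t : ℝ) :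
    KK b (v2 t1 t2 (Function.update w (Sum.inl e) t)) = KK b (v2 t1 t2 w) := by
  funext j
  by_cases hj : j ∈ row b
  · simp [KK, hj]
  · have h1 : j ≠ e := fun h => hj (h ▸ he)
    simp [KK, v2, h1]

lemma KK_v2_inr {e : Pair n} (he : e ∈ row b) (w : Pair n ⊕ Pair n → ℝ) (t : ℝ) :
    KK b (v2 t1 t2 (Function.update w (Sum.inr e) t)) = KK b (v2 t1 t2 w) := by
  funext j
  by_cases hj : j ∈ row b
  · simp [KK, hj]
  · have h1 : j ≠ e := fun h => hj (h ▸ he)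
    simp [KK, v2, h1]

lemma BB_congr {t : ℝ} {v v' : Pair n → ℝ} (h : KK b v = KK b v') :
    BB k x b t v = BB k x b t v' := by
  unfold BB
  rw [h]

lemma eg_v1 {G : (Pair n → ℝ) → ℝ} (hG : EG G) (t1 : ℝ) :
    EG fun w : Pair n ⊕ Pair n → ℝ => G (v1 t1 w) := by
  have h := eg_u (A0 := (∅ : Finset (Pair n))) (a := fun _ => √t1) (b := 0) hG
    (s := 0) ⟨le_rfl, zero_le_one⟩
  refine cast ?_ h
  congr 1
  funext w
  congr 1
  funext e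
  simp [u, v1]

lemma eg_v2 {G : (Pair n → ℝ) → ℝ} (hG : EG G) (t1 t2 : ℝ) :
    EG fun w : Pair n ⊕ Pair n → ℝ => G (v2 t1 t2 w) := by
  have h := eg_u (A0 := (∅ : Finset (Pair n))) (a := (L2 n t1 t2).a) (b := (L2 n t1 t2).b) hG
    (s := 0) ⟨le_rfl, zero_le_one⟩
  simp only [v2_eq] at h
  exact h

lemma P_L2 {F : (Pair n → ℝ) → ℝ} (w : Pair n ⊕ Pair n → ℝ) :
    P ∅ (L2 n t1 t2).a (L2 n t1 t2).b (L2 n t1 t2).c (fun u => Zx k SkS x u * F u) 0 w =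
      ND k x t2 (v2 t1 t2 w) * RR k SkS x (cf t2) F (v2 t1 t2 w) := by
  rw [P_eq, v2_eq]
  have e : nz ∅ (L2 n t1 t2).c 0 = cf (n := n) t2 := by
    funext e
    simp [nz, cf, L2]
  rw [e]
  unfold RR ND
  rw [mul_div_cancel₀ _ (DD_pos k SkS x _ _).ne']

/-- (T1) for a general observable -/
lemma start1 (h0 : 0 ≤ t1) (h1 : t1 ≤ t2) (h2 : t2 ≤ 1) {F : (Pair n → ℝ) → ℝ} (hF : EG F)
    {φ : (Pair n ⊕ Pair n → ℝ) → ℝ} (hφ : EG φ)
    (hind : ∀ e ∈ row b, ∀ w t, φ (Function.update w (Sum.inr e) t) = φ w) :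
    ∫ w, φ w * (ND k x t2 (v2 t1 t2 w) * RR k SkS x (cf t2) F (v2 t1 t2 w))
        ∂(gI (Pair n ⊕ Pair n)) =
      ∫ w, φ w * (Nm k x b (L2 n t1 t2) t1 w * rl k SkS x (row b) (L2 n t1 t2) F t1 w)
        ∂(gI (Pair n ⊕ Pair n)) := by
  have h := conv_T1 (A0 := row b) (a := (L2 n t1 t2).a) (b := (L2 n t1 t2).b)
    (c := (L2 n t1 t2).c) (F := fun u => Zx k SkS x u * F u) (φ := φ) (ebd hF) hφ hind
    (t := t1) ⟨h0, h1.trans h2⟩ (fun e _ => rfl) (fun e _ => by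
      show √(t2 - t1) ^ 2 + √(1 - t2) ^ 2 = 1 - t1
      rw [Real.sq_sqrt (by linarith), Real.sq_sqrt (by linarith)]
      ring) (s0 := 0) ⟨le_rfl, zero_le_one⟩
  simp only [P_L2] at h
  rw [h]
  refine integral_congr_ae (Filter.Eventually.of_forall fun w => ?_)
  simp only
  unfold Nm
  rw [N_rl]
  rfl

/-- (T1) for the density -/
lemma start1_one (h0 : 0 ≤ t1) (h1 : t1 ≤ t2) (h2 : t2 ≤ 1)
    {φ : (Pair n ⊕ Pair n → ℝ) → ℝ} (hφ : EG φ)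
    (hind : ∀ e ∈ row b, ∀ w t, φ (Function.update w (Sum.inr e) t) = φ w) :
    ∫ w, φ w * ND k x t2 (v2 t1 t2 w) ∂(gI (Pair n ⊕ Pair n)) =
      ∫ w, φ w * Nm k x b (L2 n t1 t2) t1 w ∂(gI (Pair n ⊕ Pair n)) := by
  have h := start1 (k := k) (x := x) h0 h1 h2 (F := fun _ => 1) (EG.const 1) hφ hind
  have e1 : ∀ v, RR k (SkS (n := n)) x (cf t2) (fun _ => 1) v = 1 := fun v =>
    div_self (DD_pos k SkS x _ _).ne'
  have e2 : ∀ w, rl k SkS x (row b) (L2 n t1 t2) (fun _ => 1) t1 w = 1 := fun w => rl_one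
  simp only [e1, e2, mul_one] at h
  exact h

/-- (T2) -/
lemma start2 (h0 : 0 ≤ t1) (h1 : t1 ≤ t2) (h2 : t2 ≤ 1) {G : (Pair n → ℝ) → ℝ} (hG : EG G)
    {φ : (Pair n ⊕ Pair n → ℝ) → ℝ} (hφ : EG φ)
    (hl : ∀ e ∈ row b, ∀ w t, φ (Function.update w (Sum.inl e) t) = φ w)
    (hr : ∀ e ∈ row b, ∀ w t, φ (Function.update w (Sum.inr e) t) = φ w) :
    ∫ w, φ w * G (v2 t1 t2 w) ∂(gI (Pair n ⊕ Pair n)) =
      ∫ w, φ w * G (u (row b) (L2 n t1 t2).a (L2 n t1 t2).b t2 w) ∂(gI (Pair n ⊕ Pair n)) := by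
  have h := conv_T2 (A0 := row b) (a := (L2 n t1 t2).a) (b := (L2 n t1 t2).b) (G := G)
    (φ := φ) hG hφ hl hr (t := t2) ⟨h0.trans h1, h2⟩ (fun e _ => by
      show √t1 ^ 2 + √(t2 - t1) ^ 2 = t2
      rw [Real.sq_sqrt h0, Real.sq_sqrt (by linarith)]
      ring) (s0 := 0) ⟨le_rfl, zero_le_one⟩
  simp only [v2_eq] at h
  exact h

lemma start2_one (h0 : 0 ≤ t1) (h1 : t1 ≤ t2) (h2 : t2 ≤ 1) {G : (Pair n → ℝ) → ℝ}
    (hG : EG G) (b : Fin n) :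
    ∫ w, G (v2 t1 t2 w) ∂(gI (Pair n ⊕ Pair n)) =
      ∫ w, G (u (row b) (L2 n t1 t2).a (L2 n t1 t2).b t2 w) ∂(gI (Pair n ⊕ Pair n)) := by
  have h := start2 (b := b) h0 h1 h2 hG (φ := fun _ => 1) (EG.const 1) (fun _ _ _ _ => rfl)
    (fun _ _ _ _ => rfl)
  simpa using h

/-- (T3): the law of the lower level, row representation -/
lemma start3 (h0 : 0 ≤ t1) (h1 : t1 ≤ t2) (h2 : t2 ≤ 1)
    {φ : (Pair n ⊕ Pair n → ℝ) → ℝ} (hφ : EG φ)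
    (hind : ∀ e, ∀ w t, φ (Function.update w (Sum.inr e) t) = φ w) {s : ℝ}
    (hs : s ∈ Set.Icc (0 : ℝ) 1) :
    ∫ w, φ w * Nm k x b (L2 n t1 t2) s w ∂(gI (Pair n ⊕ Pair n)) =
      ∫ w, φ w * Nm k x b (L1 n t1) s w ∂(gI (Pair n ⊕ Pair n)) := by
  exact conv_T3 (A0 := row b) (a := (L2 n t1 t2).a) (b := (L2 n t1 t2).b)
    (c := (L2 n t1 t2).c) (c1 := (L1 n t1).c) (F := fun u => Zx k SkS x u * 1) (φ := φ)
    (ob_one k SkS x).eg hφ hind (fun e _ => by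
      show √(1 - t1) ^ 2 = √(t2 - t1) ^ 2 + √(1 - t2) ^ 2
      rw [Real.sq_sqrt (by linarith), Real.sq_sqrt (by linarith), Real.sq_sqrt (by linarith)]
      ring) hs

/-- (T3): the law of the lower level, full representation -/
lemma start3_full (h0 : 0 ≤ t1) (h1 : t1 ≤ t2) (h2 : t2 ≤ 1)
    {φ : (Pair n ⊕ Pair n → ℝ) → ℝ} (hφ : EG φ)
    (hind : ∀ e, ∀ w t, φ (Function.update w (Sum.inr e) t) = φ w) :
    ∫ w, φ w * ND k x t2 (v2 t1 t2 w) ∂(gI (Pair n ⊕ Pair n)) =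
      ∫ w, φ w * ND k x t1 (v1 t1 w) ∂(gI (Pair n ⊕ Pair n)) := by
  have h := conv_T3 (A0 := (∅ : Finset (Pair n))) (a := (L2 n t1 t2).a) (b := (L2 n t1 t2).b)
    (c := (L2 n t1 t2).c) (c1 := (L1 n t1).c) (F := fun u => Zx k SkS x u * 1) (φ := φ)
    (ob_one k SkS x).eg hφ hind (fun e _ => by
      show √(1 - t1) ^ 2 = √(t2 - t1) ^ 2 + √(1 - t2) ^ 2
      rw [Real.sq_sqrt (by linarith), Real.sq_sqrt (by linarith), Real.sq_sqrt (by linarith)]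
      ring) (s := t1) ⟨h0, h1.trans h2⟩
  have e1 : ∀ w, P ∅ (L2 n t1 t2).a (L2 n t1 t2).b (L2 n t1 t2).c
      (fun u => Zx k SkS x u * 1) t1 w = ND k x t2 (v2 t1 t2 w) := by
    intro w
    rw [P_eq, v2_eq]
    have e : nz ∅ (L2 n t1 t2).c t1 = cf (n := n) t2 := by
      funext e
      simp [nz, cf, L2]
    rw [e]
    rfl
  have e2 : ∀ w, P ∅ (L2 n t1 t2).a 0 (L1 n t1).c
      (fun u => Zx k SkS x u * 1) t1 w = ND k x t1 (v1 t1 w) := by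
    intro w
    have e3 := u_L1 (n := n) ∅ t1 w
    have e4 := nz_L1 (n := n) ∅ t1
    rw [P_eq, e4]
    show PP (cf t1) _ (u ∅ (L1 n t1).a (L1 n t1).b t1 w) = _
    rw [e3]
    rfl
  simp only [e1, e2] at h
  exact h

end Vale.Agent.P146.H325
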