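import Vale.Agent.P146.H325.Site

/-!
Row functionals `∑ Y_pq N_d U^i_p U^j_q` with weights depending on the bulk, their generators.
-/

open MeasureTheory ProbabilityTheory

namespace Vale.Agent.P146.H325

open Vale.Agent.P157.Lv Vale.Agent.P146.H425 Vale.Agent.P146.H332

set_option linter.unusedSectionVars false

/-- weights: functions of the inactive coordinates -/
structure Wt {ι : Type} [Fintype ι] [DecidableEq ι] (A0 : Finset ι) (Y : (ι ⊕ ι → ℝ) → ℝ) :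
    Prop where
  eg : EG Y
  ind : ∀ e ∈ act A0, ∀ y t, Y (Function.update y e t) = Y y

section wt

variable {ι : Type} [Fintype ι] [DecidableEq ι] {A0 : Finset ι} {Y Z : (ι ⊕ ι → ℝ) → ℝ}

lemma Wt.const (c : ℝ) : Wt A0 (fun _ : ι ⊕ ι → ℝ => c) := ⟨EG.const c, fun _ _ _ _ => rfl⟩

lemma Wt.mul (hY : Wt A0 Y) (hZ : Wt A0 Z) : Wt A0 fun w => Y w * Z w :=
  ⟨hY.eg.mul hZ.eg, fun e he y t => by rw [hY.ind e he, hZ.ind e he]⟩

lemma Wt.add (hY : Wt A0 Y) (hZ : Wt A0 Z) : Wt A0 fun w => Y w + Z w :=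
  ⟨hY.eg.add hZ.eg, fun e he y t => by rw [hY.ind e he, hZ.ind e he]⟩

lemma Wt.sub (hY : Wt A0 Y) (hZ : Wt A0 Z) : Wt A0 fun w => Y w - Z w :=
  ⟨hY.eg.sub hZ.eg, fun e he y t => by rw [hY.ind e he, hZ.ind e he]⟩

lemma Wt.const_mul (c : ℝ) (hY : Wt A0 Y) : Wt A0 fun w => c * Y w := (Wt.const c).mul hY

lemma Wt.sum {κ : Type*} (s : Finset κ) {Y : κ → (ι ⊕ ι → ℝ) → ℝ} (h : ∀ i ∈ s, Wt A0 (Y i)) :
    Wt A0 fun w => ∑ i ∈ s, Y i w :=
  ⟨EG.sum s fun i hi => (h i hi).eg, fun e he y t =>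
    Finset.sum_congr rfl fun i hi => (h i hi).ind e he y t⟩

lemma Wt.kf {f : ℝ → (ι ⊕ ι → ℝ) → ℝ} {D : ι ⊕ ι → ℝ → (ι ⊕ ι → ℝ) → ℝ}
    {L : ℝ → (ι ⊕ ι → ℝ) → ℝ} (hY : Wt A0 Y) (hf : KF (act A0) f D L) :
    KF (act A0) (fun s w => Y w * f s w) (fun e s w => Y w * D e s w)
      (fun s w => Y w * L s w) := by
  refine ((KF.weight hY.eg hY.ind).mul hf).congr (fun s w => rfl) (fun e he s w => by ring)
    (fun s w => ?_)
  have : ∑ e ∈ act A0, (0 : ℝ) * D e s w = 0 := by simp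
  rw [this]
  ring

/-- positions at share zero do not see the active coordinates -/
lemma u_zero_ind (a b : ι → ℝ) {e : ι ⊕ ι} (he : e ∈ act A0) (y : ι ⊕ ι → ℝ) (t : ℝ) :
    u A0 a b 0 (Function.update y e t) = u A0 a b 0 y := by
  obtain ⟨e', he', rfl⟩ := Finset.mem_map.1 he
  funext j
  unfold u
  by_cases hj : j ∈ A0
  · simp [hj]
  · have h1 : j ≠ e' := fun h => hj (h ▸ he')
    simp only [if_neg hj, Function.Embedding.inl_apply]
    rw [Function.update_of_ne (by simpa using h1), Function.update_of_ne (by simp)]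

variable {X : Type} [Fintype X] [Nonempty X] {k : ℝ} {S : ι → X → ℝ} {x : ℝ}

lemma Nl_zero_ind (l : Lvl ι) (F : (ι → ℝ) → ℝ) {e : ι ⊕ ι} (he : e ∈ act A0)
    (y : ι ⊕ ι → ℝ) (t : ℝ) :
    Nl k S x A0 l F 0 (Function.update y e t) = Nl k S x A0 l F 0 y := by
  unfold Nl P pt
  rw [u_zero_ind l.a l.b he y t]

lemma wt_rl {F : (ι → ℝ) → ℝ} {F' : ι → (ι → ℝ) → ℝ} (h : Ob k S x F F') (hx : 0 ≤ x)
    (l : Lvl ι) : Wt A0 (rl k S x A0 l F 0) := by
  refine ⟨(h.kfr A0 hx l).gf.eg ⟨le_rfl, zero_le_one⟩, fun e he y t => ?_⟩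
  unfold rl
  rw [Nl_zero_ind l F he, Nl_zero_ind l _ he]

end wt

variable {n : ℕ} {k x : ℝ} {b : Fin n}

lemma wt_Cm (hx : 0 ≤ x) (l : Lvl (Pair n)) (i j : Fin n) : Wt (row b) (Cm k x b l i j 0) :=
  wt_rl (ob_av k SkS x _) hx l

/-- the drift of the product of two components -/
noncomputable def drift (k x : ℝ) (b : Fin n) (d i j : Lvl (Pair n)) (p q : Fin n) (s : ℝ)
    (w : Pair n ⊕ Pair n → ℝ) : ℝ :=
  k ^ 2 * ∑ l, (Hm k x b i p l s w * Hm k x b j q l s w +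
    x * ((Cm k x b d l b s w - Cm k x b i l b s w) * Hm k x b i p l s w * Cm k x b j q b s w) +
    x * ((Cm k x b d l b s w - Cm k x b j l b s w) * Hm k x b j q l s w * Cm k x b i p b s w))

theorem kf_comp (hx : 0 ≤ x) (d i j : Lvl (Pair n)) (p q : Fin n) :
    ∃ D, KF (act (row b)) (fun s w => Nm k x b d s w * (Cm k x b i p b s w * Cm k x b j q b s w)) D
      (fun s w => Nm k x b d s w * drift k x b d i j p q s w) := by
  obtain ⟨D, h⟩ := kf_two (row b) (ob_av k SkS x (pr p b)) (ob_av k SkS x (pr q b)) hx d i j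
  refine ⟨D, h.congr (fun s w => rfl) (fun e he s w => rfl) fun s w => ?_⟩
  unfold Nm
  congr 1
  set G : Fin n → ℝ := fun l => k ^ 2 * (Hm k x b i p l s w * Hm k x b j q l s w +
    x * ((Cm k x b d l b s w - Cm k x b i l b s w) * Hm k x b i p l s w * Cm k x b j q b s w) +
    x * ((Cm k x b d l b s w - Cm k x b j l b s w) * Hm k x b j q l s w * Cm k x b i p b s w))
    with hG
  have hGb : G b = 0 := by
    simp only [hG, Hm_row]
    ring
  have e1 := sum_row_all b hGb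
  have e2 : drift k x b d i j p q s w = ∑ l, G l := by
    unfold drift
    rw [Finset.mul_sum]
  rw [e2, ← e1]
  refine Finset.sum_congr rfl fun e he => ?_
  rw [Dl_row he, Dl_row he, th_row he, th_row he, th_row he, hG]
  unfold Cm rS
  ring

/-- **Row functionals.** -/
theorem kf_Q (hx : 0 ≤ x) (d i j : Lvl (Pair n)) {Y : Fin n → Fin n → (Pair n ⊕ Pair n → ℝ) → ℝ}
    (hY : ∀ p q, Wt (row b) (Y p q)) :
    ∃ D, KF (act (row b)) (fun s w => ∑ p, ∑ q, Y p q w *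
        (Nm k x b d s w * (Cm k x b i p b s w * Cm k x b j q b s w))) D
      (fun s w => ∑ p, ∑ q, Y p q w * (Nm k x b d s w * drift k x b d i j p q s w)) := by
  choose D hD using fun p q => kf_comp (k := k) (b := b) hx d i j p q
  exact ⟨_, KF.sum _ fun p _ => KF.sum _ fun q _ => (hY p q).kf (hD p q)⟩

end Vale.Agent.P146.H325
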