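import Vale.Agent.P146.H325.Key
import Vale.Agent.P146.H722.Fin

/-!
The variance of the free energy is at most `D n ^ (3/4 + d)`, for every `β ≠ 0` and `d > 0`.
-/

open MeasureTheory ProbabilityTheory

namespace Vale.Agent.P146.H325

open Vale.Agent.P157.Lv Vale.Agent.P146.H425 Vale.Agent.P146.H332

set_option linter.unusedSectionVars false

/-- **The variance of the free energy**: for every `β ≠ 0` and `d > 0`,
`Var F_n ≤ D n ^ (3/4 + d)`. -/
theorem var34 {β : ℝ} (hβ : β ≠ 0) {d : ℝ} (hd : 0 < d) : ∃ D : ℝ, 0 ≤ D ∧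
    ∀ n : ℕ, 1 ≤ n → Var[freeEnergy n β; disorder n] ≤ D * (n : ℝ) ^ (3 / 4 + d) := by
  have hb2 : 0 < β ^ 2 := by positivity
  have hC : 1 ≤ 1000 * (1 + β ^ 2 + 1 / β ^ 2) := by
    have : 0 ≤ 1 / β ^ 2 := by positivity
    linarith
  obtain ⟨D, hD, h⟩ := H722.fin (1000 * (1 + β ^ 2 + 1 / β ^ 2)) d hC hd
  refine ⟨β ^ 2 / 2 * D, by positivity, fun n hn => ?_⟩
  have hn0 : 0 < n := hn
  have hn' : (0 : ℝ) < n := Nat.cast_pos.2 hn0
  have hn1 : (1 : ℝ) ≤ n := by exact_mod_cast hn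
  set x : ℝ := (n : ℝ) ^ (-1 / 4 : ℝ) with hx
  have hx0 : 0 < x := Real.rpow_pos_of_pos hn' _
  have hx1 : x ≤ 1 := Real.rpow_le_one_of_one_le_of_nonpos hn1 (by norm_num)
  set k : ℝ := β / √n with hk
  set l : Lvl (Pair n) := L1 n 0 with hl
  have h1 := h n hn x rfl (Rg k x l) (Rg1 k x l) (Mg k x l)
    (fun t ht => ⟨Rg_nonneg l t, Rg_le_one l hx0.le ht, Rg_sq_le l hx0.le ht,
      Mg_le_one l hx0.le ht⟩)
    (Rg_mono l hx0.le) (Mg_mono l hx0.le) (Rg_cont l hx0.le)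
    (fun t ht => Rg_deriv l hx0.le ht)
    (fun t1 t2 th a b c e f g => key hβ hn0 hk hx0 hx1 l a b c.le e f g)
  have h2 := var_le_Rg (β := β) hn0 hx0 l
  refine h2.trans ?_
  have hi : IntervalIntegrable (Rg (β / √n) x l) volume 0 1 :=
    (Rg_cont l hx0.le).intervalIntegrable_of_Icc zero_le_one
  rw [intervalIntegral.integral_sub hi intervalIntegrable_const,
    intervalIntegral.integral_const, smul_eq_mul]
  have h3 : 0 ≤ 1 / (n : ℝ) := by positivity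
  have h4 : (∫ t in (0 : ℝ)..1, Rg (β / √n) x l t) - (1 - 0) * (1 / (n : ℝ)) ≤
      D * (n : ℝ) ^ (-1 / 4 + d) := by linarith
  refine (mul_le_mul_of_nonneg_left h4 (by positivity)).trans (le_of_eq ?_)
  have h5 : (n : ℝ) ^ (3 / 4 + d) = n * (n : ℝ) ^ (-1 / 4 + d) := by
    rw [← Real.rpow_one_add' hn'.le (by linarith)]
    congr 1
    ring
  rw [h5]
  ring

end Vale.Agent.P146.H325
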